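import Vale.Agent.P014T.Lu.St
import Vale.Agent.P014T.Es.Md
import Vale.Agent.P004F.Qx.Dep
import Vale.Agent.P004N.H461.Al
import Vale.Agent.P004K.Rc.All
import Vale.Agent.P004K.Heeg

/-! # P014 T, block Lu: rows ALY, HB -/

set_option linter.all false

open UpperHalfPlane hiding I
open NumberField Filter Topology CongruenceSubgroup
open scoped MatrixGroups Classical Pointwise NumberTheorySymbols

noncomputable section

namespace Vale.Agent.P014T.Lu

open Vale.Agent.P022 Vale.Agent.P004K Vale.Agent.P004F P027H P027M.M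
open P004N (RN ALw)
open P004Z.EF (Par)
open P004Z.Ar (mb mb_mul mb_SL coe_mb)
open P004M.TE (Pt ga pa pa_inj)
open P004K.Hg
open P004F.Qx (Sp Ch)
open P004F.Qx.De (cn_norm sp_l sp_r cop_of ga_mul)

theorem hb : HB := P004Z.triv

namespace Ay

/-- the primitive under an involution -/
theorem fw {N Q w : ℕ} {G I : ℍ → ℂ} {a : ℕ → ℤ} {A B s u v z t : ℤ} {Λ x y} (h : RN N G a)
    (p : Par N a A B w Λ I x y) (e : ALw N Q G s) (d : (Q * u) * (Q * t) - v * (N * z) = (Q : ℤ))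
    (hα : 0 < (!![Q * u, v; N * z, Q * t] : P004N.H461.M2).det) :
    ∃ C : ℂ, (∃ n : ℕ, 0 < n ∧ n * C ∈ Λ) ∧
      ∀ τ, I (mb !![Q * u, v; N * z, Q * t] τ) = s * I τ + C := by
  have d' : (!![Q * u, v; N * z, Q * t] : P004N.H461.M2).det = Q := by
    rw [Matrix.det_fin_two_of, d]
  have q : (Q : ℂ) ≠ 0 := by exact_mod_cast (d' ▸ hα).ne'
  have e' : P004N.H461.sl G !![Q * u, v; N * z, Q * t] = (s : ℂ) • G := funext fun τ => by
    have n : (N : ℂ) * z * τ + Q * t ≠ 0 := by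
      simpa [denom, P004N.H461.gl_coe] using denom_ne_zero (P004N.H461.gl _ hα) τ
    rw [P004N.H461.sl_apply G _ hα τ _ (P004N.H461.coe_smul_gl _ hα τ), e u v z t d τ _
      ((P004N.H461.coe_smul_gl _ hα τ).trans (by simp)), d']
    simp
    field_simp
  have P := Es.prim_I h p
  have k := P.comp (P004N.H461.gl _ hα) (by simpa using P004N.H461.gl_det_pos _ hα)
  rw [← P004N.H461.sl_pos _ _ hα, P004N.H461.sl_smul, e', smul_comm] at k
  obtain ⟨C, hC⟩ := k.exists_sub (P.smul s)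
  have hC' : ∀ τ, I (mb !![Q * u, v; N * z, Q * t] τ) - s * I τ = C := fun τ => by
    rw [mb, dif_pos hα]
    exact hC τ
  obtain ⟨g, r, m, l, pos, eg⟩ := P004N.H461.hermite _ hα
  have o : 0 < (!![r, m; 0, l] : P004N.H461.M2).det := by
    simpa [Matrix.det_fin_two_of] using pos
  have t1 := ((Es.tend h p g).comp (Es.mb_top o (by simp))).sub
    ((Es.tend h p 1).const_mul (s : ℂ))
  haveI := Es.neBot
  obtain ⟨n, n0, hn⟩ := Es.md h p
  refine ⟨C, ⟨n, n0, hn _ ?_⟩, fun τ => by rw [← hC' τ, add_sub_cancel]⟩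
  rw [tendsto_nhds_unique (tendsto_const_nhds (x := C)) (t1.congr fun τ => by
    rw [← hC' τ, eg, mb_mul (by simp) o, mb_SL, one_smul]
    rfl), ← zsmul_eq_mul]
  exact sub_mem (Es.cv_mem I _) (Submodule.smul_mem _ _ (Es.cv_mem I _))

/-- the involution on lattices -/
theorem at_w {Q R : ℕ} {u v : ℤ} {ω : ℂ} {τ τ' : ℍ} {Λ M : Submodule ℤ ℂ} (q : 0 < Q) (r : 0 < R)
    (d : u * Q + v * R = 1) (h : Hom ω (lat τ) Λ)
    (e : (τ' : ℂ) * (R * τ + 1) = u * τ - v / Q) (k : ∀ x, x ∈ M ↔ Q * x ∈ ov Λ (ω / R)) :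
    At (Q * R) (ov Λ (ω / Q)) M τ' := by
  have q0 : (Q : ℂ) ≠ 0 := Nat.cast_ne_zero.2 q.ne'
  have r0 : (R : ℂ) ≠ 0 := Nat.cast_ne_zero.2 r.ne'
  have d' : (u : ℂ) * Q + v * R = 1 := by exact_mod_cast d
  have o := h.1
  have n0 : (R : ℂ) * τ + 1 ≠ 0 := fun z => by
    have := congrArg Complex.im z
    simp [r.ne', τ.im_pos.ne'] at this
  have l : ∀ x, x ∈ Λ ↔ ∃ m n : ℤ, x = ω * (m * τ + n) := fun x => by
    refine ⟨fun k => ?_, fun ⟨m, n, k⟩ => k ▸ (h.2 _).1 (lat_mem m n)⟩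
    obtain ⟨m, n, k⟩ := mem_lat.1 ((h.2 (x / ω)).2 (mem_of_eq k (by field_simp)))
    exact ⟨m, n, by rw [k]; field_simp⟩
  have e' : (τ' : ℂ) * (R * τ + 1) * Q = u * Q * τ - v := by
    rw [e]
    field_simp
  refine ⟨ω * (R * τ + 1), ⟨mul_ne_zero o n0, fun y => ?_⟩, fun x => ?_⟩
  · simp only [mem_ov, mem_lat, l]
    constructor
    · rintro ⟨m, n, rfl⟩
      refine ⟨-m * v, m * u + n * R, n, ?_⟩
      push_cast
      field_simp
      linear_combination m * e'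
    · rintro ⟨a, m, n, p⟩
      refine ⟨Q * m - R * (Q * n + a), v * m + u * (Q * n + a), mul_left_cancel₀
        (mul_ne_zero n0 q0) ?_⟩
      field_simp at p
      push_cast
      linear_combination (Q * m - R * (Q * n + a)) * e' - p + (Q * m * τ + Q * n + a) * d'
  · simp only [k, mem_ov, l]
    constructor
    · rintro ⟨a, m, n, p⟩
      refine ⟨v * R * m + u * Q * (a + n * R), -v * (m - (a + n * R)), u * (m - (a + n * R)), 0, ?_⟩
      field_simp at p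
      push_cast
      field_simp
      linear_combination p - ω * (R * m * τ + a + n * R) * d'
    · rintro ⟨a, b, m, n, p⟩
      refine ⟨a, a + Q * m, b + Q * n, ?_⟩
      push_cast at p ⊢
      field_simp at p
      field_simp
      linear_combination p

section ideals

variable {O : Type} [CommRing O] {I I' F F' L L' : Ideal O} {N Q R p c : ℕ}

theorem cn_sup (h : Cn N I) (d : Q ∣ N) : Cn Q (I ⊔ Ideal.span {(Q : O)}) := by
  refine ⟨fun k => ⟨fun m => ?_, ?_⟩, fun a => (h.2 a).imp fun k => Ideal.mem_sup_left⟩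
  · obtain ⟨y, hy, z, hz, e⟩ := Submodule.mem_sup.1 m
    obtain ⟨b, rfl⟩ := Ideal.mem_span_singleton'.1 hz
    obtain ⟨n, hn⟩ := h.2 b
    have := (h.1 (k - n * Q)).1 (by
      rw [show ((k - n * Q : ℤ) : O) = y + (b - n) * Q by push_cast; linear_combination -e]
      exact add_mem hy (I.mul_mem_right _ hn))
    simpa using dvd_add ((Int.natCast_dvd_natCast.2 d).trans this) (dvd_mul_left (Q : ℤ) n)
  · rintro ⟨m, rfl⟩
    exact Ideal.mem_sup_right (Ideal.mem_span_singleton.2 ⟨m, by push_cast; rfl⟩)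

theorem pow_eq {k : ℕ} (h : Sp N I I') (s : Sp p L L') (a : I' ⊔ L = ⊤) (b : I ⊔ L' = ⊤)
    (d : p ^ k ∣ N) : L ^ k = I ⊔ Ideal.span {((p ^ k : ℕ) : O)} := by
  have e : L ^ k * L' ^ k = Ideal.span {((p ^ k : ℕ) : O)} := by
    rw [← mul_pow, s.mul, Ideal.span_singleton_pow, Nat.cast_pow]
  have m : Ideal.span {((p ^ k : ℕ) : O)} ≤ L ^ k := e.ge.trans Ideal.mul_le_left
  refine le_antisymm ?_ (sup_le ?_ m)
  · conv_lhs => rw [← Ideal.mul_top (L ^ k), ← Ideal.sup_pow_eq_top (n := k) b, Ideal.mul_sup, e]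
    exact sup_le_sup_right Ideal.mul_le_right _
  · conv_lhs => rw [← Ideal.mul_top I, ← Ideal.sup_pow_eq_top (n := k) a, Ideal.mul_sup, h.mul]
    exact sup_le ((Ideal.span_singleton_le_span_singleton.2 (Nat.cast_dvd_cast d)).trans m)
      Ideal.mul_le_right

theorem split (co : Q.Coprime R) (h : ((Q * R : ℕ) : O) ∈ I) :
    I = (I ⊔ Ideal.span {(Q : O)}) * (I ⊔ Ideal.span {(R : O)}) := by
  refine le_antisymm (fun x m => ?_) ?_
  · obtain ⟨u, v, e⟩ := (Nat.isCoprime_iff_coprime.2 co).map (Int.castRingHom O)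
    simp only [eq_intCast, Int.cast_natCast] at e
    rw [show x = u * Q * x + x * (v * R) by linear_combination -x * e]
    exact add_mem (Ideal.mul_mem_mul (Ideal.mem_sup_right (Ideal.mul_mem_left _ _
      (Ideal.mem_span_singleton_self _))) (Ideal.mem_sup_left m)) (Ideal.mul_mem_mul
        (Ideal.mem_sup_left m) (Ideal.mem_sup_right (Ideal.mul_mem_left _ _
          (Ideal.mem_span_singleton_self _))))
  · rw [Ideal.sup_mul, Ideal.mul_sup (Ideal.span _), Ideal.span_singleton_mul_span_singleton,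
      ← Nat.cast_mul]
    exact sup_le Ideal.mul_le_left (sup_le Ideal.mul_le_right
      ((Ideal.span_singleton_le_iff_mem _).2 h))

theorem ex_pr (h : L.IsPrime) (r : R ≠ 0) (m : (R : O) ∈ L) : ∃ q, q.Prime ∧ q ∣ R ∧ (q : O) ∈ L := by
  induction R using Nat.recOnMul with
  | zero => exact absurd rfl r
  | one => exact absurd ((Ideal.eq_top_iff_one _).2 (by simpa using m)) h.ne_top
  | prime q hq => exact ⟨q, hq, dvd_rfl, m⟩
  | mul a b ha hb =>
    rw [Nat.cast_mul] at m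
    rcases h.mem_or_mem m with m | m
    · obtain ⟨q, h1, h2, h3⟩ := ha (left_ne_zero_of_mul r) m
      exact ⟨q, h1, h2.mul_right _, h3⟩
    · obtain ⟨q, h1, h2, h3⟩ := hb (right_ne_zero_of_mul r) m
      exact ⟨q, h1, h2.mul_left _, h3⟩

theorem le_sup (h : Sp N F F') (d : R ∣ N) (r : R ≠ 0) (k : ∀ q, q.Prime → q ∣ R → ∃ L L' : Ideal O,
    L * L' = Ideal.span {(q : O)} ∧ F' ⊔ L = ⊤ ∧ I ⊔ L' = ⊤) : F ≤ I ⊔ Ideal.span {(R : O)} := by
  have a : F' ⊔ (I ⊔ Ideal.span {(R : O)}) = ⊤ := by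
    by_contra n
    obtain ⟨M, m, le⟩ := Ideal.exists_le_maximal _ n
    simp only [sup_le_iff, Ideal.span_singleton_le_iff_mem] at le
    obtain ⟨q, h1, h2, h3⟩ := ex_pr m.isPrime r le.2.2
    obtain ⟨L, L', e, b, b'⟩ := k q h1 h2
    rcases m.isPrime.mul_le.1 (e.le.trans ((Ideal.span_singleton_le_iff_mem _).2 h3)) with t | t
    · exact m.ne_top (top_unique (b.ge.trans (sup_le le.1 t)))
    · exact m.ne_top (top_unique (b'.ge.trans (sup_le le.2.1 t)))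
  conv_lhs => rw [← Ideal.mul_top F, ← a, Ideal.mul_sup, h.mul]
  exact sup_le ((Ideal.span_singleton_le_span_singleton.2 (Nat.cast_dvd_cast d)).trans le_sup_right)
    Ideal.mul_le_right

theorem st_sp {J : O →+* ℂ} {M : Submodule ℤ ℂ} (co : Q.Coprime c)
    (k : ∀ a : O, ∀ z ∈ M, J (c * a) * z ∈ M) (z : ℂ) :
    z ∈ st J (Ideal.span {(Q : O)}) M ↔ Q * z ∈ M := by
  refine ⟨fun h => by
    simpa using st_int (m := Q) (by simpa using Ideal.mem_span_singleton_self _) h,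
    fun h a ha t => ?_⟩
  obtain ⟨b, rfl⟩ := Ideal.mem_span_singleton'.1 ha
  rw [map_mul, map_natCast] at t ⊢
  exact bez (Nat.isCoprime_iff_coprime.2 co) (mem_of_eq (t _ h) (by push_cast; ring))
    (mem_of_eq (k b _ h) (by rw [map_mul, map_natCast]; push_cast; ring))

end ideals

variable {K : Type} [Field K] [NumberField K] {j : K →+* Qb} {p : ℕ}

theorem mul_eq (q : Iq K) (p0 : p ≠ 0) {L L' M : Ideal (𝓞 K)} (s : Sp p L L') (h : Cn p M)
    (co : M ⊔ L = ⊤) : M * L = Ideal.span {(p : 𝓞 K)} := by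
  have : M ∣ L * L' := s.mul ▸ Ideal.dvd_span_singleton.2 (by simpa using (h.1 p).2 dvd_rfl)
  obtain ⟨X, rfl⟩ := (Ideal.isCoprime_iff_sup_eq.2 co).dvd_of_dvd_mul_left this
  have n := congrArg Ideal.absNorm s.mul
  rw [Ideal.absNorm_span_natCast, RingOfIntegers.rank, q.two, map_mul, map_mul, cn_norm s.cn,
    cn_norm h, ← mul_assoc, ← sq] at n
  rw [← s.mul, Ideal.absNorm_eq_one_iff.1 (mul_left_cancel₀ (pow_ne_zero 2 p0)
    (n.trans (mul_one _).symm)), Ideal.mul_top, mul_comm]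

theorem cj_th {c : GQ} (h : IsConj c) {y : Qb} {d : ℕ} (d0 : 0 < d) (e : y ^ 2 = -d) :
    c y = -y := by
  obtain ⟨φ, hφ⟩ := h
  refine (sq_eq_sq_iff_eq_or_eq_neg.1 (show c y ^ 2 = y ^ 2 by
    rw [← map_pow, e, map_neg, map_natCast])).resolve_left fun k => ?_
  obtain ⟨r, hr⟩ := Complex.conj_eq_iff_real.1 ((hφ y).symm.trans (congrArg φ k))
  have := congrArg φ e
  rw [map_pow, hr, map_neg, map_natCast] at this
  have : r ^ 2 = -d := by exact_mod_cast this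
  have : (0 : ℝ) < d := Nat.cast_pos.2 d0
  nlinarith [sq_nonneg r]

theorem cj_cop {c : GQ} (h : IsConj c) {θ : 𝓞 K} {d : ℕ} (d0 : 0 < d) (e : θ ^ 2 = -(d : 𝓞 K))
    (pp : p.Prime) (p2 : p ≠ 2) (nd : ¬ p ∣ d) {P : Ideal (𝓞 Qb)} (s : Cn p (below j P)) :
    below j (c • P) ⊔ below j P = ⊤ := by
  obtain ⟨m, hm⟩ := s.2 θ
  have a : θ + m ∈ below j (c • P) := by
    have := neg_mem (Ideal.smul_mem_pointwise_smul c _ P hm)
    refine (congrArg (· ∈ c • P) (RingOfIntegers.ext ?_)).mp this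
    change -c (j (θ - m : 𝓞 K)) = j (θ + m : 𝓞 K)
    have t := cj_th h (y := j θ) d0 (by
      have := congrArg (fun x : 𝓞 K => j x) e
      simpa using this)
    simp only [RingOfIntegers.coe_eq_algebraMap, map_sub, map_add, map_intCast] at t ⊢
    rw [t]
    ring
  have b := (s.1 (m ^ 2 + d)).1 (by
    rw [show ((m ^ 2 + d : ℤ) : 𝓞 K) = -(θ + m) * (θ - m) by push_cast; linear_combination e]
    exact Ideal.mul_mem_left _ _ hm)
  have i := Nat.prime_iff_prime_int.1 pp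
  obtain ⟨u, v, uv⟩ := (i.coprime_iff_not_dvd (n := 2 * m)).2 fun k => by
    rcases i.dvd_or_dvd k with k | k
    · exact p2 ((Nat.prime_dvd_prime_iff_eq pp Nat.prime_two).1 (by exact_mod_cast k))
    · exact nd (Int.natCast_dvd_natCast.1 ((dvd_add_right (dvd_pow k two_ne_zero)).1 b))
  have uv' := congrArg (Int.cast : ℤ → 𝓞 K) uv
  push_cast at uv'
  rw [Ideal.eq_top_iff_one, show (1 : 𝓞 K) = v * (θ + m) + (u * (p : ℤ) - v * (θ - m)) by
    push_cast; linear_combination -uv']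
  exact Submodule.add_mem_sup (Ideal.mul_mem_left _ _ a)
    (sub_mem (Ideal.mul_mem_left _ _ ((s.1 p).2 dvd_rfl)) (Ideal.mul_mem_left _ _ hm))

theorem fb_pow {P : Ideal (𝓞 Qb)} {φ : GQ} (h : ∀ x : 𝓞 Qb, φ • x - x ^ p ∈ P) (k : ℕ) :
    ∀ x : 𝓞 Qb, φ ^ k • x - x ^ p ^ k ∈ P := by
  induction k with
  | zero => simp
  | succ k ih =>
    intro x
    have := add_mem (ih (φ • x)) (P.mem_of_dvd (sub_dvd_pow_sub_pow _ _ (p ^ k)) (h x))
    rwa [sub_add_sub_cancel, ← mul_smul, ← pow_succ, ← pow_mul, ← pow_succ'] at this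

/-- the Heegner points of the two frames -/
theorem geo (q : Iq K) {Q R c : ℕ} {I F A : Ideal (𝓞 K)} (q0 : 0 < Q) (r0 : 0 < R) (hc : 0 < c)
    (co : c.Coprime (Q * R)) (hI : Cn (Q * R) I) (hF : Cn (Q * R) F)
    (eA : A = I ⊔ Ideal.span {(Q : 𝓞 K)})
    (e : F * A = Ideal.span {(Q : 𝓞 K)} * (I ⊔ Ideal.span {(R : 𝓞 K)})) {u v : ℤ}
    (d : u * Q + v * R = 1) {g σ} (ar : Ar j c A g) (ex : Ex σ g) {τ τ' z : ℍ}
    (h : Hp (JJ j) (Q * R) I c τ) (h' : Hp (JJ j) (Q * R) F c z)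
    (w : (τ' : ℂ) * (R * τ + 1) = u * τ - v / Q) : Cj0 σ (Q * R) z τ' := by
  obtain ⟨η, B⟩ := bs Rc.iq q j
  obtain ⟨η, hη, B⟩ := B.ex hI
  obtain ⟨t, n, s⟩ := B.sq
  obtain ⟨ω, hω, k⟩ := at_iff.1 h
  have n0 := mul_pos q0 r0
  rw [B.st_Oc hc n0 s hI hη] at k
  have cQ := cn_sup hI (dvd_mul_right Q R)
  have cR := cn_sup hI (dvd_mul_left R Q)
  have k1 := (B.st_Oc hc q0 s cQ (Ideal.mem_sup_left hη)).trans (ov_mul r0 k)
  rw [mul_comm Q] at k
  have k2 := (B.st_Oc hc r0 s cR (Ideal.mem_sup_left hη)).trans (ov_mul q0 k)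
  rw [← eA] at k1 cQ
  obtain ⟨c1, c2⟩ := Nat.coprime_mul_iff_right.1 co
  have a := at_w (M := st (JJ j) F (st (JJ j) A (Oc (JJ j) c))) q0 r0 d hω w fun x => by
    rw [st_mul kl_Oc ((hF.1 (Q * R : ℕ)).2 dvd_rfl) ((cQ.1 Q).2 dvd_rfl)
      (Nat.isCoprime_iff_coprime.2 co.symm) (Nat.isCoprime_iff_coprime.2 c1.symm), e,
      ← st_mul kl_Oc (m := Q) (by simpa using Ideal.mem_span_singleton_self _)
        ((cR.1 R).2 dvd_rfl) (Nat.isCoprime_iff_coprime.2 c1.symm)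
        (Nat.isCoprime_iff_coprime.2 c2.symm), st_sp c1.symm fun a => st_end (kl_Oc a), k2]
  rw [← k1] at a
  obtain ⟨ψ, T⟩ := tp_of_j jh (σ := σ) (B.lat hc) (At.lat a) (by rw [ar_j x_rc1 q hc ex, ar.2])
  exact (st_cj n0 h' T (ex.JJ ar.1)).1 a

end Ay

open Ay in
/-- **row ALY**, with the explicit element -/
theorem aly0 (e : Crv) (b : Fld e) (p : ℕ) (f : Fp b p) (hp : p ∈ e.S) (p2 : p ≠ 2) :
    ∃ (s : ℤ) (C : Pt e.A e.B), (s = 1 ∨ s = -1) ∧ IsOfFinAddOrder C ∧ ∀ c, 0 < c →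
      c.Coprime (e.N * p) → ga (b.φ p ^ e.N.factorization p) (f.Y c) = s • b.Y c + C := by
  have h := e.rn
  have o := e.ov p hp
  have pp := o.1
  have eN := Nat.ordProj_mul_ordCompl_eq_self e.N p
  have co := (Nat.coprime_ordCompl pp h.pos.ne').pow_left (e.N.factorization p)
  have q0 := Nat.ordProj_pos e.N p
  have r0 := Nat.ordCompl_pos p h.pos.ne'
  have nd := Nat.not_dvd_ordCompl pp h.pos.ne'
  generalize e.N / p ^ e.N.factorization p = R at eN co r0 nd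
  generalize e.N.factorization p = k at eN co q0 ⊢
  obtain ⟨ε, hε, al⟩ := P004N.H461.pfAL _ _ _ h _ R eN co
  obtain ⟨s, hs, rfl⟩ : ∃ s : ℤ, (s = 1 ∨ s = -1) ∧ (s : ℝ) = ε := by
    rcases hε with rfl | rfl
    exacts [⟨1, .inl rfl, by simp⟩, ⟨-1, .inr rfl, by simp⟩]
  have s1 := b.ch.spl p hp
  have s2 := f.ch.spl p hp
  have dv : p ^ k ∣ e.N := ⟨R, eN.symm⟩
  have e1 := pow_eq b.ch.lev s1 (b.ch.cop p hp).1 (b.ch.cop p hp).2 dv
  have e2 := pow_eq f.ch.lev s2 (f.ch.cop p hp).1 (f.ch.cop p hp).2 dv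
  have m8 := b.adm.m8
  have e3 := mul_eq b.iq pp.ne_zero s1 s2.cn (f.Pp ▸ cj_cop b.cc (by omega) b.th pp p2 (fun d => by
    haveI := Fact.mk pp
    have := b.adm.spl p hp p2
    rw [← jacobiSym.legendreSym.to_jacobiSym, (legendreSym.eq_zero_iff _ _).2 (by
      simpa using (ZMod.natCast_eq_zero_iff _ _).2 d)] at this
    exact zero_ne_one this) s1.cn)
  have mS : ∀ q, q.Prime → q ∣ R → q ∈ e.S ∧ f.P q = e.P q := fun q hq d =>
    ⟨by_contra fun n => (e.bad q hq n).1 ((d.trans ⟨_, eN.symm.trans (mul_comm _ _)⟩).mul_right _),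
      f.Pq q fun z => nd (z ▸ d)⟩
  have dR : R ∣ e.N := ⟨_, eN.symm.trans (mul_comm _ _)⟩
  have e4 : f.I ⊔ Ideal.span {(R : 𝓞 b.K)} = b.I ⊔ Ideal.span {(R : 𝓞 b.K)} := le_antisymm
    (sup_le (le_sup f.ch.lev dR r0.ne' fun q hq d => ⟨_, _, (b.ch.spl q (mS q hq d).1).mul,
      (mS q hq d).2 ▸ (f.ch.cop q (mS q hq d).1).1, (b.ch.cop q (mS q hq d).1).2⟩) le_sup_right)
    (sup_le (le_sup b.ch.lev dR r0.ne' fun q hq d => ⟨_, _, (f.ch.spl q (mS q hq d).1).mul,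
      (mS q hq d).2 ▸ (b.ch.cop q (mS q hq d).1).1, (f.ch.cop q (mS q hq d).1).2⟩) le_sup_right)
  have e5 : f.I * below b.j (e.P p) ^ k =
      Ideal.span {((p ^ k : ℕ) : 𝓞 b.K)} * (b.I ⊔ Ideal.span {(R : 𝓞 b.K)}) := by
    rw [split co (eN ▸ sp_l f.ch.lev : ((p ^ k * R : ℕ) : 𝓞 b.K) ∈ f.I), ← e2, e4, mul_right_comm,
      ← mul_pow, e3, Ideal.span_singleton_pow, Nat.cast_pow]
  have fb := fb_pow (b.ch.frb p hp) k
  have gm := pow_mem (b.ch.mem p hp) k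
  have c1 := b.ch.lev.cn
  have c2 := f.ch.lev.cn
  generalize b.φ p ^ k = g at fb gm ⊢
  generalize hQ : p ^ k = Q at *
  obtain ⟨u, v, d⟩ := Nat.isCoprime_iff_coprime.2 co
  have eZ : (e.N : ℤ) = Q * R := by exact_mod_cast eN.symm
  have d1 : (Q * u) * (Q * 1) - (-v) * (e.N * 1) = (Q : ℤ) := by
    rw [eZ]
    linear_combination Q * d
  have hα : 0 < (!![Q * u, -v; e.N * 1, Q * 1] : P004N.H461.M2).det := by
    rw [Matrix.det_fin_two_of, d1]
    exact_mod_cast q0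
  obtain ⟨C, ⟨n, n0, hn⟩, hC⟩ := fw h e.par al d1 hα
  obtain ⟨ex, -, ek, un⟩ := Hg.un_iff e.par.lat e.par.g2_eq e.par.g3_eq
  obtain ⟨σ, hσ⟩ := ex_ex g
  have key : ∀ c, 0 < c → c.Coprime (e.N * p) → pa io (ga g (f.Y c) - s • b.Y c) = ex C := by
    intro c hc cc
    obtain ⟨cN, cp⟩ := Nat.coprime_mul_iff_right.1 cc
    have H := hg1 Rc.iq jh x_rc1 cj0 b.K b.j b.iq e.N c
    obtain ⟨τ, t⟩ := (H b.I h.pos hc cN c1).1
    obtain ⟨z, t'⟩ := (H f.I h.pos hc cN c2).1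
    have ar : Ar b.j c (below b.j (e.P p) ^ k) g := (x_rc2 b.K b.j b.iq c hc).2.2.2.2.2.2 (e.P p)
      o.2.1 (fun z => pp.ne_zero (by simpa [z] using o.2.2)) (fun z => o.2.1.ne_top (by
        simpa using Ideal.isCoprime_iff_sup_eq.1 (cop_of cp z o.2.2))) g gm k
      (by rwa [cn_norm s1.cn, hQ])
    have a1 := (un _ _).1 (b.hg c hc cN 1 1 τ τ Ex.one t (Cj0.refl h.pos τ))
    have a2 := (un _ _).1 (f.hg c hc cN g σ z (mb !![Q * u, -v; e.N * 1, Q * 1] τ) hσ t' (by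
      rw [← eN] at t t' cN c1 c2
      rw [← congrArg (fun M => Cj0 σ M z _) eN]
      refine geo b.iq q0 r0 hc cN c1 c2 e1 e5 d ar hσ t t' ?_
      have n0 : (τ : ℂ) * R + 1 ≠ 0 := fun z => by
        have := congrArg Complex.im z
        simp [r0.ne', τ.im_pos.ne'] at this
      have : (Q : ℂ) ≠ 0 := Nat.cast_ne_zero.2 q0.ne'
      rw [coe_mb hα, ← eN]
      simp
      field_simp
      ring))
    rw [Hq.ga_one] at a1
    rw [map_sub, map_zsmul, ← a1, ← a2, hC, map_add, ← zsmul_eq_mul, map_zsmul, add_sub_cancel_left]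
  have k1 := key 1 one_pos (Nat.coprime_one_left _)
  refine ⟨s, ga g (f.Y 1) - s • b.Y 1, hs, isOfFinAddOrder_iff_nsmul_eq_zero.2 ⟨n, n0, pa_inj io ?_⟩,
    fun c hc cc => sub_eq_iff_eq_add'.1 (pa_inj io ((key c hc cc).trans k1.symm))⟩
  rw [map_nsmul, k1, ← map_nsmul, map_zero, nsmul_eq_mul]
  exact (ek _).2 hn

/-- **row ALY** -/
theorem aly : ALY := fun e b p f hp p2 =>
  ⟨_, pow_mem (b.ch.mem p hp) _, aly0 e b p f hp p2⟩

end Vale.Agent.P014T.Lu
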