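import Vale.Agent.P014T.Lu.St

/-! # P014 T, block Lu: the row CMA -/

set_option linter.all false

open Matrix Submodule Set

noncomputable section

namespace Vale.Agent.P014T.Lu

open Vale.Agent.P004F

theorem sp_eq {R I J K : Type} [CommRing R] [Fintype I] [Fintype J] (F : Matrix I K R)
    (M : Matrix J K R) (X : Matrix I J R) (Y : Matrix J I R) (h : F = X * M) (k : M = Y * F) :
    span R (range F) = span R (range M) := by
  have key : ∀ {I J : Type} [Fintype J] (F : Matrix I K R) (M : Matrix J K R) (X : Matrix I J R),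
      F = X * M → span R (range F) ≤ span R (range M) := by
    intro I J _ F M X h
    refine span_le.2 ?_
    rintro _ ⟨i, rfl⟩
    refine (mem_span_range_iff_exists_fun R).2 ⟨X i, ?_⟩
    ext c
    simp [h, mul_apply]
  exact le_antisymm (key F M X h) (key M F Y k)

theorem cm0 {R I : Type} [CommRing R] [Fintype I] [DecidableEq I] (M : Matrix I I R)
    (P : Matrix I (Fin 2) R) (l1 l2 : Matrix (Fin 2) I R) (B1 B2 N1 N2 : M2 R) (hP : Pᵀ * P = 1)
    (hM : Pᵀ * M = N1 * l1 + N2 * l2) (hN : N1 * B1 + N2 * B2 = 0) :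
    ∃ D, Alg.Pr ((I ⊕ Fin 2 → R) ⧸ span R (range
      (fromBlocks M 0 (fromRows l1 l2) (-(fromRows B1 B2))))) D ∧ M.det * B1.det = N2.det * D := by
  have e1 : (1 + P * ((N2 - 1) * Pᵀ)) * (M + P * (l2 - Pᵀ * M)) + P * N1 * l1 = M := by
    simp only [Matrix.add_mul, Matrix.mul_add, Matrix.mul_sub, Matrix.sub_mul, Matrix.one_mul,
      Matrix.mul_assoc, ← Matrix.mul_assoc Pᵀ P, hP, hM]
    abel
  have e2 : (1 + P * ((N2 - 1) * Pᵀ)) * (-(P * B2)) + P * N1 * (-B1) = 0 := by
    have : P * (N1 * B1) + P * (N2 * B2) = 0 := by rw [← Matrix.mul_add, hN, Matrix.mul_zero]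
    simp only [Matrix.add_mul, Matrix.mul_add, Matrix.mul_sub, Matrix.sub_mul, Matrix.one_mul,
      Matrix.mul_assoc, ← Matrix.mul_assoc Pᵀ P, hP, Matrix.mul_neg]
    rw [← neg_zero, ← this]
    abel
  have e3 : Pᵀ * (M + P * (l2 - Pᵀ * M)) = l2 := by
    rw [Matrix.mul_add, ← Matrix.mul_assoc, hP, Matrix.one_mul]
    abel
  have e4 : Pᵀ * (-(P * B2)) = -B2 := by
    rw [Matrix.mul_neg, ← Matrix.mul_assoc, hP, Matrix.one_mul]
  have hT : fromBlocks (1 + P * ((N2 - 1) * Pᵀ)) (P * N1) 0 1 *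
      fromBlocks (M + P * (l2 - Pᵀ * M)) (-(P * B2)) l1 (-B1) = fromBlocks M 0 l1 (-B1) := by
    rw [fromBlocks_multiply, e1, e2]
    simp
  refine ⟨(fromBlocks (M + P * (l2 - Pᵀ * M)) (-(P * B2)) l1 (-B1)).det, ?_, ?_⟩
  · rw [sp_eq _ (fromBlocks (M + P * (l2 - Pᵀ * M)) (-(P * B2)) l1 (-B1))
      (fromBlocks (1 + P * ((N2 - 1) * Pᵀ)) (P * N1) (fromRows 0 Pᵀ) (fromRows 1 0))
      (fromBlocks (1 - P * Pᵀ) (fromCols 0 P) 0 (fromCols 1 0))]
    · have := Alg.pr_free (Pi.basisFun R (I ⊕ Fin 2))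
        (fromBlocks (M + P * (l2 - Pᵀ * M)) (-(P * B2)) l1 (-B1))
      exact Pi.basisFun_det_apply (R := R)
        (fromBlocks (M + P * (l2 - Pᵀ * M)) (-(P * B2)) l1 (-B1)) ▸ this
    · rw [fromBlocks_multiply, e1, e2]
      simp only [fromRows_mul, e3, e4, Matrix.zero_mul, Matrix.one_mul]
      ext (i | i | i) (j | j) <;> simp
    · rw [fromBlocks_multiply]
      simp only [Matrix.mul_neg, fromCols_mul_fromRows, Matrix.zero_mul, Matrix.one_mul,
        Matrix.mul_zero, zero_add, add_zero, Matrix.sub_mul, Matrix.mul_sub, Matrix.mul_assoc]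
      congr 1
      abel
  · have := congrArg det hT
    rw [det_mul, det_fromBlocks_zero₂₁, det_fromBlocks_zero₁₂, det_one_add_mul_comm,
      Matrix.mul_assoc, hP, det_neg] at this
    simpa using this.symm

theorem cma : CMA := by
  intro R G σ _ _ _ _ _ γ p x A V q hN h
  classical
  have hl : p.l x = fromRows (p.l x).toRows₁ (p.l x).toRows₂ := (fromRows_toRows _).symm
  obtain ⟨D, h1, h2⟩ := cm0 (p.Mx γ)
    (Matrix.of fun i k => if i = Sum.inl (Sum.inr (x, k)) then 1 else 0) (p.l x).toRows₁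
    (p.l x).toRows₂ (A - 1) (V - 1) (1 - V ^ q) (A - ∑ i ∈ Finset.range q, V ^ i)
    (by
      ext i j
      simp [mul_apply, one_apply, eq_comm])
    (by
      rw [← fromCols_mul_fromRows, ← hl, ← Nt, ← hN]
      ext i j
      rw [mul_apply, Finset.sum_eq_single (Sum.inl (Sum.inr (x, i)))]
      · simp only [transpose_apply, of_apply, if_true, one_mul]
        rfl
      · intro b _ hb
        simp [hb]
      · simp)
    (by
      have := geom_sum_mul V q
      rw [Matrix.sub_mul A, this]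
      simp only [Matrix.mul_sub, Matrix.sub_mul, h, Matrix.mul_one, Matrix.one_mul]
      abel)
  refine ⟨D, ?_, h2 ▸ Associated.refl _⟩
  rw [← hl] at h1
  exact h1

end Vale.Agent.P014T.Lu
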