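import Vale.Agent.P014T.Lu.St
import Vale.Agent.P004F.Pa.Lev
import Vale.Agent.P004F.Pa.Sep0
import Vale.Agent.P004F.Lt.Grp
import Vale.Agent.P004F.En.Row

/-! # P014 T, block Lu: the rows TAM, TRF, NC -/

set_option linter.all false

open NumberField Matrix Filter PowerSeries
open scoped Pointwise

noncomputable section

namespace Vale.Agent.P014T.Lu

open Vale.Agent.P022 Vale.Agent.P004K Vale.Agent.P004F
open Vale.Agent.P027M.S (Inert)
open Vale.Agent.P022D.W (dec)
open Vale.Agent.P022E.GW (Ov Fb Gn)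
open P004F.Pa (um ur)

theorem mem_σ {e : Crv} {p : ℕ} (hp : p ∈ e.σ) : p ∈ e.S ∧ p ≠ 2 := by
  classical
  have h := Finset.mem_filter.1 hp
  exact ⟨(List.mem_filter.1 (List.mem_toFinset.1 h.1)).1, h.2.1⟩

theorem r_ev (e : Crv) (j : ℕ) : ∀ᶠ g in nhds 1, (e.r g).map (PadicInt.toZModPow j) = 1 := by
  have : ∀ i i', ∀ᶠ g in nhds 1, (2 : ℤ_[2]) ^ j ∣ (e.r g - 1) i i' := fun i i' => by
    have c : Continuous fun g => e.r g i i' := P004M.TE.cont_mt _ i i'
    filter_upwards [c.continuousAt (x := 1) (Metric.closedBall_mem_nhds _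
      (show (0 : ℝ) < 2 ^ (-j : ℤ) by positivity))] with g hg
    rw [Set.mem_preimage, map_one, mem_closedBall_iff_norm] at hg
    exact Pat.dvd_iff_norm.2 hg
  filter_upwards [eventually_all.2 fun i => eventually_all.2 (this i)] with g hg
  ext i i'
  obtain ⟨y, hy⟩ := hg i i'
  have z : (2 : ZMod (2 ^ j)) ^ j = 0 := by exact_mod_cast ZMod.natCast_self (2 ^ j)
  have := congrArg (PadicInt.toZModPow j) hy
  rw [map_mul, map_pow, map_ofNat, z, zero_mul, Matrix.sub_apply, map_sub, sub_eq_zero] at this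
  refine this.trans ?_
  simp only [one_apply]
  split
  exacts [map_one _, map_zero _]

theorem tam : TAM := fun e b p => by
  obtain ⟨m, h2⟩ := mem_σ p.2
  have pl : Lt.Pl ⊤ p 1 (e.P p) (b.φ p) (e.τ p) := ⟨e.ov p m, h2, one_pos, b.ch.frb p m,
    e.gn p m h2, fun _ _ => trivial, fun i => by simp, by simp⟩
  ext i i'
  refine PadicInt.ext_of_toZModPow.1 fun j => ?_
  let ρ : GQ →* M2 (ZMod (2 ^ j)) :=
    (RingHom.mapMatrix (PadicInt.toZModPow j)).toMonoidHom.comp e.r
  have z : (2 : ZMod (2 ^ j)) ^ j = 0 := by exact_mod_cast ZMod.natCast_self (2 ^ j)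
  have := (pl.str (σ := ρ) ⟨map_one _, fun g _ h _ => map_mul _ _ _,
    ⟨ρ.ker, Subgroup.isOpen_of_mem_nhds _ (g := 1) (r_ev e j), fun w _ h => h⟩, fun g hg => ⟨j, by
      have u : (ρ g - 1) ^ 2 = 0 := by
        have := congrArg (RingHom.mapMatrix (PadicInt.toZModPow j)) (En.uni_row e p p.2 g hg).1
        rwa [map_pow, map_sub, map_one, map_zero] at this
      simpa using Pa.Lv.ord u (u := 1) (one_pow _) z⟩⟩).1
  rw [pow_one, pow_one, ← map_pow, ← map_mul, ← map_mul] at this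
  rw [← map_pow, ← map_mul, ← map_mul]
  exact congrFun (congrFun this i) i'

theorem trf : TRF := by
  intro N a r p P P' φ φ' o o' f f' h
  obtain ⟨t, rfl⟩ := P022E.GW.Tg.trans o o'
  have ii : ∀ g, Inert (t • P) g → Inert P (t⁻¹ * g * t) := fun g => P022E.GW.Tg.inert_conj
  have f2 : Fb p P (t⁻¹ * φ' * t) := by simpa using Pa.Lv.fb_cj f' t⁻¹
  have i0 : Inert P (φ⁻¹ * (t⁻¹ * φ' * t)) := fun x => by
    have m := P022D.W.phi_mem o.1 o.2.1 f
    have := P.sub_mem (f2 x) (f x)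
    rw [sub_sub_sub_cancel_right] at this
    rw [← m, smul_sub, ← mul_smul, mul_inv_cancel_left]
    exact this
  intro v α v0 hv ⟨g, hg, g1⟩ k
  have w : ∀ x, r t *ᵥ (r t⁻¹ *ᵥ x) = x := fun x => by
    rw [mulVec_mulVec, ← map_mul, mul_inv_cancel, map_one, one_mulVec]
  have iv : ∀ g, Inert P g → r g *ᵥ (r t⁻¹ *ᵥ v) = r t⁻¹ *ᵥ v := fun g hg => by
    conv_rhs => rw [← hv _ (Pa.Lv.in_cj hg t)]
    rw [mulVec_mulVec, mulVec_mulVec, ← map_mul, ← map_mul]
    congr 2
    group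
  refine h (r t⁻¹ *ᵥ v) α (fun z => v0 ?_) iv ⟨_, ii g hg, fun z => g1 ?_⟩ ?_
  · rw [← w v, z, mulVec_zero]
  · have : g = t * (t⁻¹ * g * t) * t⁻¹ := by group
    rw [this, map_mul, map_mul, z, mul_one, ← map_mul, mul_inv_cancel, map_one]
  · rw [← mulVec_smul, ← k]
    conv_lhs => rw [← iv _ i0]
    simp only [mulVec_mulVec, ← map_mul]
    congr 2
    group

/-- the trace in the ramified case -/
theorem tr_dvd {A V : M2 ℤ_[2]} {p : ℕ} (p1 : p ≠ 1) (v1 : V ≠ 1) (u : (V - 1) ^ 2 = 0)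
    (h : A * V = V ^ p * A) : ((p : ℤ_[2]) + 1) ∣ A.trace := by
  rw [Pa.Lv.unip u] at h
  obtain ⟨n, rfl⟩ : ∃ n, V = 1 + n := ⟨V - 1, by abel⟩
  rw [add_sub_cancel_left] at u h
  rw [mul_add, add_mul, mul_one, one_mul, add_right_inj, smul_mul_assoc] at h
  have q := fun i j => congrFun (congrFun u i) j
  simp only [sq, mul_apply, Fin.sum_univ_two, Matrix.zero_apply] at q
  have t0 : n 0 0 + n 1 1 = 0 := by
    by_contra z
    have b : n 0 1 = 0 := (mul_eq_zero.1 (by linear_combination q 0 1)).resolve_left z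
    have c := q 0 0
    have d := q 1 1
    rw [b] at c d
    rw [zero_mul, add_zero, mul_self_eq_zero] at c
    rw [mul_zero, zero_add, mul_self_eq_zero] at d
    exact z (by rw [c, d, add_zero])
  have t1 : (n * A).trace = 0 := by
    have := congrArg trace h
    rw [trace_smul, trace_mul_comm, smul_eq_mul] at this
    refine (mul_eq_zero.1 (show ((p : ℤ_[2]) - 1) * _ = 0 by linear_combination -this)).resolve_left
      fun z => p1 ?_
    exact_mod_cast sub_eq_zero.1 z
  have r := fun i j => congrFun (congrFun h i) j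
  simp only [trace_fin_two, mul_apply, Fin.sum_univ_two, Matrix.smul_apply, smul_eq_mul] at t1 r
  have k : ∀ i j, A.trace * n i j = (p + 1) * (n i 0 * A 0 j + n i 1 * A 1 j) := by
    simp only [trace_fin_two, Fin.forall_fin_two]
    exact ⟨⟨by linear_combination r 0 0 - t1 + A 1 1 * t0,
      by linear_combination r 0 1 - A 0 1 * t0⟩, by linear_combination r 1 0 - A 1 0 * t0,
      by linear_combination r 1 1 - t1 + A 0 0 * t0⟩
  obtain ⟨i, hi⟩ : ∃ i, n i ≠ 0 := by
    by_contra! z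
    exact v1 (by rw [show n = 0 from funext z, add_zero])
  obtain ⟨j, hj⟩ : ∃ j, ∀ l, n i j ∣ n i l := by
    rcases ValuationRing.dvd_total (n i 0) (n i 1) with a | a
    exacts [⟨0, Fin.forall_fin_two.2 ⟨dvd_rfl, a⟩⟩, ⟨1, Fin.forall_fin_two.2 ⟨a, dvd_rfl⟩⟩]
  obtain ⟨x, hx⟩ := hj 0
  obtain ⟨y, hy⟩ := hj 1
  refine ⟨x * A 0 j + y * A 1 j, mul_right_cancel₀ (b := n i j) (fun z => hi (funext fun l => ?_)) ?_⟩
  · exact zero_dvd_iff.1 (z ▸ hj l)
  · linear_combination k i j + (p + 1) * A 0 j * hx + (p + 1) * A 1 j * hy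

theorem fx2 : ∀ a b c d x y z w : ZMod 2, (x + 1) * (x + 1) + y * z = 0 →
    (x + 1) * y + y * (w + 1) = 0 → z * (x + 1) + (w + 1) * z = 0 → z * y + (w + 1) * (w + 1) = 0 →
    a * x + b * z = x * a + y * c → a * y + b * w = x * b + y * d → c * x + d * z = z * a + w * c →
    a + d = 0 → a * d - b * c ≠ 0 → ∃ s t, (s ≠ 0 ∨ t ≠ 0) ∧ s * x + t * z = s ∧ s * y + t * w = t ∧
      s * a + t * c = s ∧ s * b + t * d = t := by
  intro a b c d x y z w
  simp only [exists_and_left, ← and_imp]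
  rcases P004S.z2 a with rfl | rfl <;> rcases P004S.z2 b with rfl | rfl <;>
    rcases P004S.z2 c with rfl | rfl <;> rcases P004S.z2 d with rfl | rfl <;>
    rcases P004S.z2 x with rfl | rfl <;> rcases P004S.z2 y with rfl | rfl <;>
    rcases P004S.z2 z with rfl | rfl <;> rcases P004S.z2 w with rfl | rfl <;>
    first
      | exact fun h => absurd h (by decide)
      | exact fun _ => by decide

theorem fx {A V : M2 (ZMod 2)} {p : ℕ} (hp : Odd p) (u : (V - 1) ^ 2 = 0) (h : A * V = V ^ p * A)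
    (t : A.trace = 0) (d : A.det ≠ 0) : ∃ v, v ≠ 0 ∧ v ᵥ* Nt A V p = 0 := by
  have z : ((p : ZMod 2)) = 1 := by
    obtain ⟨k, rfl⟩ := hp
    push_cast
    rw [show (2 : ZMod 2) = 0 from rfl, zero_mul, zero_add]
  rw [Pa.Lv.unip u, z, one_smul, add_sub_cancel] at h
  have e1 : (-1 : ZMod 2) = 1 := rfl
  have q := fun i j => congrFun (congrFun u i) j
  have r := fun i j => congrFun (congrFun h i) j
  simp only [sq, mul_apply, Fin.sum_univ_two, sub_eq_add_neg, Matrix.add_apply, Matrix.neg_apply,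
    Matrix.zero_apply] at q r
  obtain ⟨s, t, h0, h1, h2, h3, h4⟩ := fx2 (A 0 0) (A 0 1) (A 1 0) (A 1 1) (V 0 0) (V 0 1) (V 1 0)
    (V 1 1) (by simpa [e1] using q 0 0) (by simpa [e1] using q 0 1) (by simpa [e1] using q 1 0)
    (by simpa [e1] using q 1 1) (r 0 0) (r 0 1) (r 1 0) (by rwa [trace_fin_two] at t)
    (by rwa [det_fin_two] at d)
  have a : ![s, t] ᵥ* V = ![s, t] := by
    ext i
    fin_cases i <;> simp [vecMul, dotProduct, h1, h2]
  have a' : ![s, t] ᵥ* A = ![s, t] := by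
    ext i
    fin_cases i <;> simp [vecMul, dotProduct, h3, h4]
  have k : ∀ n, ![s, t] ᵥ* V ^ n = ![s, t] := fun n => by
    induction n with
    | zero => simp
    | succ n ih => rw [pow_succ, ← vecMul_vecMul, ih, a]
  refine ⟨![s, t], fun e => h0.elim (· (congrFun e 0)) (· (congrFun e 1)), ?_⟩
  rw [Nt, vecMul_fromCols, vecMul_sub, vecMul_sub, vecMul_one, k, a', vecMul_sum]
  simp only [k, Finset.sum_const, Finset.card_range, sub_self]
  rw [← Nat.cast_smul_eq_nsmul (ZMod 2), z, one_smul, sub_self, Sum.elim_zero_zero]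

/-- a relation among the rows of `N` modulo a prime kills the determinant -/
theorem det0 {R R' G σ : Type} [CommRing R] [CommRing R'] [IsDomain R'] [Group G] [Fintype σ]
    [DecidableEq σ] (π : R →+* R') (γ : Gl R G σ) (p : Pk R G σ) (x : σ) {v : Fin 2 → R'}
    (v0 : v ≠ 0) (h : v ᵥ* (γ.N x).map π = 0) : π (p.Mx γ).det = 0 := by
  classical
  rw [RingHom.map_det, ← exists_vecMul_eq_zero_iff]
  refine ⟨fun i => ∑ k, if i = .inl (.inr (x, k)) then v k else 0, fun e => v0 (funext fun k => ?_),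
    funext fun j => ?_⟩
  · simpa using congrFun e (.inl (.inr (x, k)))
  · have := congrFun (congrArg (· ᵥ* (p.l x).map π) h) j
    simp only [vecMul_vecMul, ← Matrix.map_mul, zero_vecMul] at this
    rw [← this]
    simp only [vecMul, dotProduct, Finset.sum_mul]
    rw [Finset.sum_comm]
    refine Finset.sum_congr rfl fun k _ => ?_
    simp only [ite_mul, zero_mul, Finset.sum_ite_eq', Finset.mem_univ, if_true]
    rfl

theorem nc (hN : NL) : NC := by
  intro e b s w n L p hd ht h1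
  classical
  obtain ⟨m, h2⟩ := mem_σ p.2
  obtain ⟨n1, n2, n3⟩ := hN e b s.C s.Ψ s.chr p
  let f : M2 ℤ_[2] →+* M2 (ZMod 2) := RingHom.mapMatrix PadicInt.toZMod
  have cc : e.r b.c * e.r b.c = 1 := by rw [← map_mul, Ra.c_sq, map_one]
  have u : (e.r (b.c * e.τ p * b.c) - 1) ^ 2 = 0 := by
    have : e.r (b.c * e.τ p * b.c) - 1 = e.r b.c * (e.r (e.τ p) - 1) * e.r b.c := by
      rw [map_mul, map_mul, mul_sub, sub_mul, mul_one, cc]
    rw [this, sq, mul_assoc, ← mul_assoc (e.r b.c) (_ * _), ← mul_assoc (e.r b.c), cc, one_mul,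
      mul_assoc, ← mul_assoc (_ - _), ← sq, (En.uni_row e p p.2 _ (e.gn p m h2).1).1, zero_mul,
      mul_zero]
  have t : e.r (b.c * b.φ p * b.c) * e.r (b.c * e.τ p * b.c) =
      e.r (b.c * e.τ p * b.c) ^ (p : ℕ) * e.r (b.c * b.φ p * b.c) := by
    have := congrArg (fun x => e.r b.c * x * e.r b.c) (tam e b p)
    simp only [← map_pow, ← map_mul] at this ⊢
    have c := Ra.c_inv b
    have k : (b.c * e.τ p * b.c) ^ (p : ℕ) = b.c * e.τ p ^ (p : ℕ) * b.c := by
      simpa only [c] using conj_pow (a := b.c) (b := e.τ p) (i := p)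
    rw [k]
    convert this using 2
    · rw [mul_assoc _ b.c, ← mul_assoc b.c (_ * _), ← mul_assoc b.c, Ra.c_sq]
      group
    · rw [mul_assoc _ b.c, ← mul_assoc b.c (_ * _), ← mul_assoc b.c, Ra.c_sq]
      group
  obtain ⟨v, v0, hv⟩ := fx (A := f (e.r (b.c * b.φ p * b.c))) (V := f (e.r (b.c * e.τ p * b.c)))
    ((e.ov p m).1.odd_of_ne_two h2) (by rw [← map_one f, ← map_sub, ← map_pow, u, map_zero])
    (by rw [← map_pow f, ← map_mul f, ← map_mul f, t])
    (by
      obtain ⟨y, hy⟩ : 2 ∣ (e.r (b.φ p)).trace := by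
        refine .trans ?_ (tr_dvd (e.ov p m).1.ne_one ht (En.uni_row e p p.2 _ (e.gn p m h2).1).1
          (tam e b p))
        obtain ⟨k, hk⟩ := (e.ov p m).1.odd_of_ne_two h2
        exact ⟨k + 1, by rw [hk]; push_cast; ring⟩
      show ((e.r _).map PadicInt.toZMod).trace = 0
      rw [← AddMonoidHom.map_trace, map_mul, map_mul, trace_mul_comm, ← mul_assoc, cc, one_mul, hy,
        map_mul, map_ofNat]
      exact zero_mul _)
    (by
      rw [← RingHom.map_det]
      exact ((((Group.isUnit _).map e.r).map detMonoidHom).map PadicInt.toZMod).ne_zero)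
  refine hd (det0 (PowerSeries.map PadicInt.toZMod) (s.γ n) L.pk p (v := fun i => C (v i))
    (fun z => v0 (funext fun i => by simpa using congrArg constantCoeff (congrFun z i))) ?_)
  have x1 : PowerSeries.map PadicInt.toZMod (xl e s.Ψ (b.c * b.φ p * b.c)) = 1 := by
    rw [map_sub, map_one, sub_eq_zero] at h1
    have := congrArg (PowerSeries.map PadicInt.toZMod) n3
    rwa [map_mul, h1, one_mul, map_one] at this
  have e1 : ((s.γ n).N p).map (PowerSeries.map PadicInt.toZMod) =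
      (Nt (f (e.r (b.c * b.φ p * b.c))) (f (e.r (b.c * e.τ p * b.c))) p).map C := by
    show (um fun j => Nt _ _ _).map _ = _
    rw [Pa.Se.um_Nt, n1, n2, Pa.Se.Nt_map, Pa.Se.Nt_map]
    congr 1
    · ext1 i j
      simp [x1, f, -map_mul, map_mul (PowerSeries.map PadicInt.toZMod)]
    · ext1 i j
      simp [f, -map_mul]
  rw [e1]
  funext j
  exact ((C : ZMod 2 →+* _).map_vecMul _ v j).symm.trans (by rw [hv]; exact map_zero _)

end Vale.Agent.P014T.Lu
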