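import Vale.Agent.P014T.Lu.St2
import Vale.Agent.P014T.Lu.Cma
import Vale.Agent.P014T.Lu.Tam

/-! # P014 T, block Lu: the rows CMP, CMQ -/

set_option linter.all false

open NumberField Matrix Filter PowerSeries
open scoped Classical Pointwise

noncomputable section

namespace Vale.Agent.P014T.Lu

open Vale.Agent.P022 Vale.Agent.P004K Vale.Agent.P004F
open P004F.Pat (U)
open P004F.Pa (um ur Nl)

namespace Cq

theorem det_sum {R : Type} [CommRing R] [IsDomain R] {A V : M2 R} {q : ℕ} (q1 : (q : R) - 1 ≠ 0)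
    (u : (V - 1) ^ 2 = 0) (h : A * V = V ^ q * A) :
    (A - ∑ i ∈ Finset.range q, V ^ i).det = A.det - q * A.trace + q ^ 2 := by
  simp only [Pa.Lv.unip u, Finset.sum_add_distrib, ← Finset.sum_smul, Finset.sum_const,
    Finset.card_range, ← Nat.cast_smul_eq_nsmul R] at h ⊢
  obtain ⟨n, rfl⟩ : ∃ n, V = 1 + n := ⟨V - 1, by abel⟩
  rw [add_sub_cancel_left] at u h ⊢
  rw [mul_add, add_mul, mul_one, one_mul, add_right_inj, smul_mul_assoc] at h
  have d : n.det = 0 := pow_eq_zero_iff two_ne_zero |>.1 (by rw [← det_pow, u, det_zero])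
  have t0 : n.trace = 0 := pow_eq_zero_iff two_ne_zero |>.1 (by
    have := congrArg trace u
    simp only [sq, trace_fin_two, det_fin_two, mul_apply, Fin.sum_univ_two, Matrix.zero_apply] at this d ⊢
    linear_combination this + 2 * d)
  have t1 : (n * A).trace = 0 := by
    have := congrArg trace h
    rw [trace_smul, trace_mul_comm, smul_eq_mul] at this
    exact (mul_eq_zero.1 (show ((q : R) - 1) * _ = 0 by linear_combination -this)).resolve_left q1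
  generalize ∑ i ∈ Finset.range q, (i : R) = s
  simp [trace_fin_two, det_fin_two, mul_apply, Fin.sum_univ_two] at d t0 t1 ⊢
  linear_combination s ^ 2 * d + s * t1 + s * (q - A 0 0 - A 1 1) * t0

theorem r_cj {e : Crv} (b : Fld e) (g : GQ) : e.r (b.c * g * b.c) = e.r b.c * e.r g * e.r b.c⁻¹ := by
  rw [Ra.c_inv, map_mul, map_mul]

theorem tr_cj {e : Crv} (b : Fld e) (g : GQ) : (e.r (b.c * g * b.c)).trace = (e.r g).trace := by
  rw [r_cj, trace_mul_comm, ← mul_assoc, ← map_mul, inv_mul_cancel, map_one, one_mul]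

/-- one frame -/
theorem side (h1 : CMA) (h3 : TAM) (h4 : NL) {e : Crv} (b : Fld e) {c : ℕ → ℕ}
    {Ψ : ∀ j, GQ → Rj (j + 1)} (k : ∀ᶠ j in U, b.Chr (j + 1) (c j) (Ψ j)) (p : e.σ) {G : Type}
    [Group G] (γ : Gl La G e.σ) (L : Pk La G e.σ) (hN : γ.N p = um fun j => Nl b (Ψ j) p) :
    ∃ D, Alg.Pr (Ws γ L p (Bm (um fun j => b.aa _ (Ψ j) (b.c * b.φ p * b.c))
      (um fun j => b.aa _ (Ψ j) (b.c * e.τ p * b.c)))) D ∧
      Associated ((L.Mx γ).det * Qa (e.r (b.φ p)).trace p (xl e Ψ (b.φ p)))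
        (Qa (e.r (b.φ p)).trace p (xl e Ψ (b.c * b.φ p * b.c)) * D) := by
  obtain ⟨m, p2⟩ := mem_σ p.2
  obtain ⟨n1, n2, n3⟩ := h4 e b c Ψ k p
  let F : M2 ℤ_[2] →+* M2 La := RingHom.mapMatrix C
  let κ : M2 ℤ_[2] →+* M2 ℤ_[2] :=
    (MulSemiringAction.toRingHom (ConjAct (M2 ℤ_[2])ˣ) _ (ConjAct.toConjAct (e.r.toHomUnits b.c)))
  have hκ (g) : e.r (b.c * g * b.c) = κ (e.r g) := r_cj b g
  have t : (um fun j => b.aa _ (Ψ j) (b.c * b.φ p * b.c)) * (um fun j => b.aa _ (Ψ j) (b.c * e.τ p * b.c)) =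
      (um fun j => b.aa _ (Ψ j) (b.c * e.τ p * b.c)) ^ (p : ℕ) *
        um fun j => b.aa _ (Ψ j) (b.c * b.φ p * b.c) := by
    rw [n1, n2, hκ, hκ, smul_mul_assoc, mul_smul_comm]
    have := congrArg (fun x => F (κ x)) (h3 e b p)
    simp only [map_mul, map_pow] at this
    exact congrArg (_ • ·) this
  obtain ⟨D, a1, a2⟩ := h1 La G e.σ γ L p _ _ p (hN.trans (Pa.Se.um_Nt _ _ _)) t
  have d : (e.r (b.φ p)).det = p := Subtype.ext ((RingHom.map_det PadicInt.Coe.ringHom _).trans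
    (En.ep_fb (En.rep_bad (hq e.par.disc)) (e.ov p m) p2 (b.ch.frb p m)))
  have d' : (F (e.r (b.c * b.φ p * b.c))).det = p := by
    rw [← RingHom.map_det, r_cj, det_mul, det_mul, mul_right_comm, ← det_mul, ← map_mul,
      mul_inv_cancel, map_one, det_one, one_mul, d, map_natCast]
  have t' : (F (e.r (b.c * b.φ p * b.c))).trace = C (e.r (b.φ p)).trace :=
    (AddMonoidHom.map_trace (C : ℤ_[2] →+* La) _).symm.trans (congrArg _ (tr_cj b _))
  have pu : IsUnit ((p : ℕ) : La) := by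
    rw [← d', ← RingHom.map_det]
    exact (((Group.isUnit _).map e.r).map detMonoidHom).map _
  rw [det_sum (fun z => (e.ov p m).1.ne_one (by
      have := congrArg constantCoeff z
      rw [map_sub, map_natCast, map_one, map_zero, sub_eq_zero] at this
      exact_mod_cast this)) (by
      rw [n2, hκ]
      have := congrArg (fun x => F (κ x)) (En.uni_row e p p.2 _ (e.gn p m p2).1).1
      simp only [map_pow, map_sub, map_one, map_zero] at this
      exact this) t, n1] at a2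
  refine ⟨D, a1, ?_⟩
  clear n1 n2 t a1
  generalize xl e Ψ (b.c * b.φ p * b.c) = y at *
  change Associated (_ * (y • F _ - 1).det) (((y • F _).det - _ * (y • F _).trace + _) * D) at a2
  generalize F _ = A at *
  have e1 : (y • A - 1).det = Qa (e.r (b.φ p)).trace p (xl e Ψ (b.φ p)) * y ^ 2 := by
    rw [Qa, ← t', ← d']
    simp [det_fin_two, trace_fin_two]
    linear_combination (y * (A 0 0 + A 1 1) - (xl e Ψ (b.φ p) * y + 1)) * n3
  rw [e1, ← mul_assoc, det_smul, trace_smul, d', t', Fintype.card_fin] at a2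
  refine ((associated_mul_isUnit_left_iff ((IsUnit.of_mul_eq_one_right _ n3).pow 2)).1 a2).trans
    (Associated.mul_right ?_ D)
  rw [show y ^ 2 * (p : ℕ) - (p : ℕ) * y • C (e.r (b.φ p)).trace + ((p : ℕ) : La) ^ 2 =
    Qa (e.r (b.φ p)).trace p y * (p : ℕ) by rw [Qa, smul_eq_mul]; ring]
  exact associated_mul_unit_left _ _ pu

theorem mem' {e : Crv} {b : Fld e} {p : ℕ} (f : Fp b p) (hp : p ∈ e.σ) : p ∈ f.e'.σ := by
  obtain ⟨h1, h2, v, v0, hv⟩ := Finset.mem_filter.1 hp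
  refine Finset.mem_filter.2 ⟨h1, h2, e.r b.c *ᵥ v, fun z => v0 ?_, fun g i => ?_⟩
  · have := congrArg (e.r b.c *ᵥ ·) z
    simpa only [mulVec_mulVec, ← map_mul, Ra.c_sq, map_one, one_mulVec, mulVec_zero] using this
  · have := congrArg (e.r b.c *ᵥ ·) (hv _ (P022E.GW.Tg.inert_conj (f.Pp ▸ show P027M.S.Inert (f.P p) g from i :)))
    simp only [mulVec_mulVec, ← map_mul, ← mul_assoc, mul_inv_cancel, one_mul] at this
    exact (mulVec_mulVec _ _ _).trans ((congrArg (· *ᵥ v) (map_mul e.r _ _).symm).trans this)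

theorem both (h4 : NL) {e : Crv} {b : Fld e} {p : ℕ} (f : Fp b p) (hp : p ∈ e.σ) {s : Pa.Sq b}
    {s' : Sq f.b'} (m : Sm f s s') {w w'} (n n' : ℕ) (L : s.Lm w) (L' : s'.Lm w') : ∃ D D' Z,
    Alg.Pr (Ws (s.γ n) L.pk ⟨p, hp⟩ (Bm (um fun j => b.aa _ (s.Ψ j) (b.c * b.φ p * b.c))
      (um fun j => b.aa _ (s.Ψ j) (b.c * e.τ p * b.c)))) D ∧
    Alg.Pr (Ws (s'.γ n') L'.pk ⟨p, mem' f hp⟩ (Bm (um fun j => f.b'.aa _ (s'.Ψ j) (b.c * f.φ p * b.c))
      (um fun j => f.b'.aa _ (s'.Ψ j) (b.c * f.τ p * b.c)))) D' ∧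
    Associated ((L.pk.Mx (s.γ n)).det * Qa (e.r (b.φ p)).trace p (xl e s.Ψ (b.φ p)) ^ 2) (Z * D) ∧
    Associated ((L'.pk.Mx (s'.γ n')).det * Qa (e.r (b.φ p)).trace p (xl e s.Ψ (f.φ p)) ^ 2)
      (Z * D') := by
  obtain ⟨D, a1, a2⟩ := side cma tam h4 b s.chr ⟨p, hp⟩ (s.γ n) L.pk rfl
  obtain ⟨D', b1, b2⟩ := side cma tam h4 f.b' s'.chr ⟨p, mem' f hp⟩ (s'.γ n') L'.pk rfl
  have c : b.c * (b.c * b.φ p * b.c) * b.c = b.φ p := by
    rw [← mul_assoc, ← mul_assoc, Ra.c_sq, one_mul, mul_assoc, Ra.c_sq, mul_one]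
  change Associated (_ * Qa (e.r (f.φ p)).trace p (xl e s'.Ψ (f.φ p)))
    (Qa (e.r (f.φ p)).trace p (xl e s'.Ψ (b.c * f.φ p * b.c)) * D') at b2
  rw [m.Ψ, f.φp, c, tr_cj] at b2
  refine ⟨D, D', Qa (e.r (b.φ p)).trace p (xl e s.Ψ (b.c * b.φ p * b.c)) *
    Qa (e.r (b.φ p)).trace p (xl e s.Ψ (b.φ p)), a1, b1, ?_, ?_⟩
  · rw [sq, ← mul_assoc]
    exact (a2.mul_right _).trans (.of_eq (mul_right_comm _ _ _))
  · rw [f.φp, sq, ← mul_assoc, mul_comm (Qa _ _ _)]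
    exact (b2.mul_right _).trans (.of_eq (mul_right_comm _ _ _))

end Cq

open Cq

/-- **row CMP** -/
theorem cmp (h4 : NL) (h2 : CMX) : CMP := fun e b p f hp s s' m w w' n n' L L' i i' => by
  obtain ⟨F, hF⟩ := h2 e b p f hp (mem' f hp) s s' m w w' n n' L L' i i'
  obtain ⟨D, D', Z, a, a', c, c'⟩ := both h4 f hp m n n' L L'
  exact c.dvd.trans ((mul_dvd_mul_left _ (a.dvd (a'.dt.surj F hF))).trans c'.symm.dvd)

/-- **row CMQ** -/
theorem cmq (h4 : NL) (h2 : CMY) : CMQ := fun e b p f hp s s' m w w' n n' L L' i i' => by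
  obtain ⟨F, hF⟩ := h2 e b p f hp (mem' f hp) s s' m w w' n n' L L' i i'
  obtain ⟨D, D', Z, a, a', c, c'⟩ := both h4 f hp m n n' L L'
  exact c'.dvd.trans ((mul_dvd_mul_left _ (a'.dvd (a.dt.surj F hF))).trans c.symm.dvd)

end Vale.Agent.P014T.Lu
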