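import Vale.Agent.P014T.Lu.St2
import Vale.Agent.P004F.Pa.Lev
import Vale.Agent.P004F.Pat.Vec

/-! # P014 T, block Lu: the row CMX -/

set_option linter.all false

open NumberField Matrix Filter PowerSeries Submodule Set Sum
open scoped Classical Pointwise

noncomputable section

namespace Vale.Agent.P014T.Lu

open Vale.Agent.P022 Vale.Agent.P004K Vale.Agent.P004F
open Vale.Agent.P022D.W (dec)
open P004F.Pat (U Sy)
open P004F.Pa (ps um ur Nl Rw Tk)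
open P004F.Pa.Lv (ac_mul ac_mk)
open P004F.Pr (ac)

namespace Cx

section yon

variable {R : Type} [CommRing R] {ρ ρ' g g' κ : Type} [Fintype ρ] [Fintype ρ'] [Fintype g]
  [Fintype g'] [DecidableEq g] [DecidableEq g']

theorem ac_sub {M : Type} [AddCommGroup M] [Module R M] (A B : Matrix κ g R) (y : g → M) :
    ac (A - B) y = ac A y - ac B y := funext fun i => by
  simp only [ac, Matrix.sub_apply, sub_smul, Finset.sum_sub_distrib, Pi.sub_apply]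

theorem ac_one {M : Type} [AddCommGroup M] [Module R M] (y : g → M) :
    ac (1 : Matrix g g R) y = y := funext fun i => by simp [ac, Matrix.one_apply]

/-- the module with relations the rows of `Q` -/
abbrev Ck (Q : Matrix ρ g R) : Type := (g → R) ⧸ span R (range Q)

/-- its generators -/
def gn (Q : Matrix ρ g R) : g → Ck Q := fun a => (span R (range Q)).mkQ (Pi.single a 1)

theorem ac_Q (Q : Matrix ρ g R) : ac Q (gn Q) = 0 := (ac_mk _ Q).trans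
  (funext fun i => (Submodule.Quotient.mk_eq_zero _).2 (subset_span ⟨i, rfl⟩))

theorem ex_rw {Q : Matrix ρ g R} {E : Matrix κ g R} (h : ac E (gn Q) = 0) :
    ∃ β : Matrix κ ρ R, E = β * Q := by
  choose β hβ using fun i => (mem_span_range_iff_exists_fun R).1
    ((Submodule.Quotient.mk_eq_zero _).1 (congrFun ((ac_mk _ E).symm.trans h) i))
  exact ⟨.of β, Matrix.ext fun i a => by
    rw [← hβ i, Finset.sum_apply]
    rfl⟩

theorem ex_lift {Q : Matrix ρ g R} (x : κ → Ck Q) : ∃ A : Matrix κ g R, ac A (gn Q) = x := by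
  choose A hA using fun i => mkQ_surjective _ (x i)
  exact ⟨.of A, (ac_mk _ _).trans (funext hA)⟩

theorem of_gn {M : Type} [AddCommGroup M] [Module R M] {Q : Matrix ρ g R} {E : Matrix κ g R}
    (h : ac E (gn Q) = 0) {y : g → M} (hy : ac Q y = 0) : ac E y = 0 := by
  obtain ⟨β, rfl⟩ := ex_rw h
  rw [ac_mul, hy, Pr.ac_zero]

/-- `A` respects the relations and `A'` is a left inverse -/
def Iv (Q : Matrix ρ g R) (Q' : Matrix ρ' g' R) (A : Matrix g' g R) (A' : Matrix g g' R) : Prop :=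
  (∃ β : Matrix ρ' ρ R, Q' * A = β * Q) ∧ ∃ β : Matrix g ρ R, A' * A - 1 = β * Q

variable {Q : Matrix ρ g R} {Q' : Matrix ρ' g' R} {E : Matrix κ g R} {E' : Matrix κ g' R}
  {A : Matrix g' g R} {A' : Matrix g g' R}

theorem half (i : ∀ y z : g → Ck Q, ac Q y = 0 → ac Q z = 0 → ac E y = ac E z → y = z)
    (a : ac Q' (ac A (gn Q)) = 0 ∧ ac E' (ac A (gn Q)) = ac E (gn Q))
    (a' : ac Q (ac A' (gn Q')) = 0 ∧ ac E (ac A' (gn Q')) = ac E' (gn Q')) : Iv Q Q' A A' := by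
  refine ⟨ex_rw (by rw [ac_mul, a.1]), ex_rw ?_⟩
  rw [ac_sub, ac_one, ac_mul, sub_eq_zero]
  refine i _ _ ?_ (ac_Q Q) ?_
  · rw [← ac_mul]
    exact of_gn (by rw [ac_mul, a'.1]) a.1
  · have := of_gn (E := E * A' - E') (by rw [ac_sub, ac_mul, a'.2, sub_self]) a.1
    rwa [ac_sub, ac_mul, a.2, sub_eq_zero] at this

theorem yon (i : ∀ y z : g → Ck Q, ac Q y = 0 → ac Q z = 0 → ac E y = ac E z → y = z)
    (i' : ∀ y z : g' → Ck Q', ac Q' y = 0 → ac Q' z = 0 → ac E' y = ac E' z → y = z)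
    (s : ∃ y, ac Q' y = 0 ∧ ac E' y = ac E (gn Q)) (s' : ∃ y, ac Q y = 0 ∧ ac E y = ac E' (gn Q')) :
    ∃ A : Matrix g' g R × Matrix g g' R, Iv Q Q' A.1 A.2 ∧ Iv Q' Q A.2 A.1 := by
  obtain ⟨y, s⟩ := s
  obtain ⟨y', s'⟩ := s'
  obtain ⟨A, rfl⟩ := ex_lift y
  obtain ⟨A', rfl⟩ := ex_lift y'
  exact ⟨(A, A'), half i s s', half i' s' s⟩

theorem vm_mem (v : ρ → R) : v ᵥ* Q ∈ span R (range Q) := by
  rw [vecMul_eq_sum]
  exact sum_mem fun a _ => smul_mem _ _ (subset_span ⟨a, rfl⟩)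

theorem Iv.le (h : Iv Q Q' A A') : span R (range Q') ≤ (span R (range Q)).comap A.vecMulLinear := by
  obtain ⟨β, h⟩ := h.1
  refine span_le.2 ?_
  rintro _ ⟨i, rfl⟩
  show Q' i ᵥ* A ∈ span R (range Q)
  rw [← (show β i ᵥ* Q = Q' i ᵥ* A from (congrFun h i).symm)]
  exact vm_mem (β i)

theorem Iv.id (h : Iv Q Q' A A') (h' : Iv Q' Q A' A) :
    (mapQ _ _ _ h.le).comp (mapQ _ _ _ h'.le) = LinearMap.id := by
  obtain ⟨β, k⟩ := h.2
  refine LinearMap.ext fun x => ?_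
  obtain ⟨v, rfl⟩ := mkQ_surjective _ x
  refine (Submodule.Quotient.eq _).2 ?_
  have : v ᵥ* A' ᵥ* A - v = (v ᵥ* β) ᵥ* Q := by
    rw [vecMul_vecMul, vecMul_vecMul, ← k, vecMul_sub, vecMul_one]
  exact this ▸ vm_mem _

theorem eqv (h : Iv Q Q' A A') (h' : Iv Q' Q A' A) :
    Nonempty (((g → R) ⧸ span R (range Q)) ≃ₗ[R] ((g' → R) ⧸ span R (range Q'))) :=
  ⟨LinearEquiv.ofLinear _ _ (h'.id h) (h.id h')⟩

omit [DecidableEq g'] in
theorem lim {Q : ∀ j, Matrix ρ g (Rj (j + 1))} {Q' : ∀ j, Matrix ρ' g' (Rj (j + 1))}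
    {A : ∀ j, Matrix g' g (Rj (j + 1))} {A' : ∀ j, Matrix g g' (Rj (j + 1))}
    (h : ∀ᶠ j in U, Iv (Q j) (Q' j) (A j) (A' j)) : Iv (um Q) (um Q') (um A) (um A') := by
  have k1 := Sy.succ.um_solve (h.mono fun j a => a.1)
  have k2 := Sy.succ.um_solve (h.mono fun j a => a.2)
  rw [Sy.um_mul] at k1
  rw [Sy.um_sub, Sy.um_mul, Sy.um_one] at k2
  exact ⟨k1, k2⟩

end yon

section raw

variable {σ ι : Type} {r : ℕ}

/-- the relations of the module which is strict at both places -/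
def Fg {R : Type} [CommRing R] (Q : Matrix (Fin r) (Ix r σ ι) R)
    (l : σ → Matrix (Fin 2 ⊕ Fin 2) (Ix r σ ι) R) (t : Ix r σ ι → R)
    (s : ι × Fin 2 → Ix r σ ι → R) (N : σ → Matrix (Fin 2) (Fin 2 ⊕ Fin 2) R) (x : σ)
    (B : Matrix (Fin 2 ⊕ Fin 2) (Fin 2) R) :
    Matrix (Ix r σ ι ⊕ Fin 2 ⊕ Fin 2) (Ix r σ ι ⊕ Fin 2) R :=
  fromBlocks (.of (Sum.elim (Matrix.of (Sum.elim Q fun z => (N z.1 * l z.1) z.2))
    fun o => o.elim t s)) 0 (l x) (-B)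

theorem um_Fg (Q : ∀ j, Matrix (Fin r) (Ix r σ ι) (Rj (j + 1)))
    (l : ∀ j, σ → Matrix (Fin 2 ⊕ Fin 2) (Ix r σ ι) (Rj (j + 1))) (t : ∀ j, Ix r σ ι → Rj (j + 1))
    (s : ∀ j, ι × Fin 2 → Ix r σ ι → Rj (j + 1))
    (N : ∀ j, σ → Matrix (Fin 2) (Fin 2 ⊕ Fin 2) (Rj (j + 1))) (x : σ) (A V : ∀ j, M2 (Rj (j + 1))) :
    um (fun j => Fg (Q j) (l j) (t j) (s j) (N j) x (Bm (A j) (V j))) =
      Fg (um Q) (fun p => um fun j => l j p) (fun i => ur fun j => t j i)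
        (fun z i => ur fun j => s j z i) (fun p => um fun j => N j p) x (Bm (um A) (um V)) := by
  have k : ∀ A : ∀ j, M2 (Rj (j + 1)), um (fun j => -(A j - 1)) = -(um A - 1) := fun A =>
    (Sy.succ.um_neg _).trans (congrArg Neg.neg ((Sy.succ.um_sub _ _).trans (by rw [Sy.um_one])))
  refine Matrix.ext fun a c => ?_
  rcases a with ((a | a) | _ | a) | a <;> rcases c with c | c
  any_goals first | rfl | exact map_zero ur
  · exact congrFun (congrFun (Sy.succ.um_mul (fun j => N j a.1) fun j => l j a.1) a.2) c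
  · rcases a with a | a
    exacts [congrFun (congrFun (k A) a) c, congrFun (congrFun (k V) a) c]

variable {R M : Type} [CommRing R] [AddCommGroup M] [Module R M] [Fintype σ] [Fintype ι]

theorem ac_Fg [IsEmpty ι] {Q : Matrix (Fin r) (Ix r σ ι) R} {l t s N} {x : σ} {B}
    {y : Ix r σ ι ⊕ Fin 2 → M} : ac (Fg Q l t s N x B) y = 0 ↔
      ac (Matrix.of (Sum.elim Q fun z : σ × Fin 2 => (N z.1 * l z.1) z.2)) (y ∘ inl) = 0 ∧
      ∑ i, t i • (y ∘ inl) i = 0 ∧ ac (l x) (y ∘ inl) = ac B (y ∘ inr) := by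
  have k : ∀ a, ac (Fg Q l t s N x B) y a = ∑ i, Fg Q l t s N x B a (inl i) • y (inl i) +
      ∑ i, Fg Q l t s N x B a (inr i) • y (inr i) := fun a => Fintype.sum_sum_type _
  have k1 : ∀ a, ac (Fg Q l t s N x B) y (inl a) = ∑ i, Fg Q l t s N x B (inl a) (inl i) • y (inl i) :=
    fun a => (k _).trans (add_eq_left.2 (Finset.sum_eq_zero fun i _ => zero_smul R (y (inr i))))
  have k2 : ∀ a, ac (Fg Q l t s N x B) y (inr a) = ac (l x) (y ∘ inl) a - ac B (y ∘ inr) a :=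
    fun a => by
      rw [k, sub_eq_add_neg, ac, ac, ← Finset.sum_neg_distrib]
      exact congrArg _ (Finset.sum_congr rfl fun i _ => neg_smul _ _)
  refine ⟨fun h => ⟨funext fun a => (k1 (inl a)).symm.trans (congrFun h _),
    (k1 (inr none)).symm.trans (congrFun h _),
    funext fun a => sub_eq_zero.1 ((k2 a).symm.trans (congrFun h _))⟩, fun h => funext ?_⟩
  rintro ((a | _ | a) | a)
  exacts [(k1 _).trans (congrFun h.1 a), (k1 _).trans h.2.1, isEmptyElim a.1,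
    (k2 a).trans (sub_eq_zero.2 (congrFun h.2.2 a))]

end raw

variable {e : Crv} (b : Fld e) {j : ℕ} (c : ℕ) (Ψ : GQ → Rj j) (ε : GQ → Fin 2 → Rj j)
  {ι : Type} [Fintype ι] [DecidableEq ι] [IsEmpty ι] {r : ℕ}

/-- the relations at a finite level -/
def Fm (d : Rw (Rj j) e.σ ι r) (s : ι × Fin 2 → Ix r e.σ ι → Rj j) (x : e.σ) :=
  Fg d.Q d.l d.t s (Nl b Ψ) x (Bm (b.aa j Ψ (b.c * b.φ x * b.c)) (b.aa j Ψ (b.c * e.τ x * b.c)))

section en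

variable {R M : Type} [CommRing R] [AddCommGroup M] [Module R M]

/-- the coordinates -/
def En (d : Rw R e.σ ι r) (x : e.σ) (o : Bool) :
    Matrix (GQ × Fin 2 ⊕ ℕ × Fin 2 ⊕ Bool × Fin 2) (Ix r e.σ ι ⊕ Fin 2) R
  | inl z => Sum.elim (d.u z.1 z.2) 0
  | inr (inl z) => if h : z.1 ∈ e.σ ∧ z.1 ≠ x then Sum.elim (d.m ⟨z.1, h.1⟩ z.2) 0 else 0
  | inr (inr z) => if z.1 = o then Sum.elim (d.m x z.2) 0 else Sum.elim 0 (Pi.single z.2 1)

/-- the same for cocycles -/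
def Dn (x : e.σ) (o : Bool) (X : GQ → Fin 2 → M) (m : e.σ → Fin 2 → M) (n : Fin 2 → M) :
    GQ × Fin 2 ⊕ ℕ × Fin 2 ⊕ Bool × Fin 2 → M
  | inl z => X z.1 z.2
  | inr (inl z) => if h : z.1 ∈ e.σ ∧ z.1 ≠ x then m ⟨z.1, h.1⟩ z.2 else 0
  | inr (inr z) => if z.1 = o then m x z.2 else n z.2

theorem ac_En (d : Rw R e.σ ι r) (x : e.σ) (o : Bool) (y : Ix r e.σ ι ⊕ Fin 2 → M) :
    ac (En d x o) y = Dn x o (fun g => ac (d.u g) (y ∘ inl)) (fun p => ac (d.m p) (y ∘ inl))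
      (y ∘ inr) := by
  funext z
  rcases z with z | z | z <;> simp only [ac, En, Dn] <;> (try split_ifs) <;>
    simp [Fintype.sum_sum_type (α₂ := Fin 2), Pi.single_apply]

end en

variable {M : Type} [AddCommGroup M] [Module (Rj j) M]

theorem Dn_inj {x : e.σ} {o : Bool} {X X' : GQ → Fin 2 → M} {m m' n n'}
    (h : Dn x o X m n = Dn x o X' m' n') : X = X' ∧ m = m' ∧ n = n' := by
  refine ⟨funext fun g => funext fun i => congrFun h (inl (g, i)), funext fun p => funext fun i => ?_,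
    funext fun i => by simpa [Dn] using congrFun h (inr (inr (!o, i)))⟩
  by_cases k : p = x
  · subst k
    simpa [Dn] using congrFun h (inr (inr (o, i)))
  · simpa [Dn, k, Subtype.ext_iff.not.1 k] using congrFun h (inr (inl (p.1, i)))

/-- strict at both places -/
def St (x : e.σ) (X : GQ → Fin 2 → M) (m : e.σ → Fin 2 → M) (n : Fin 2 → M) : Prop :=
  b.Sel (b.T c) (b.aa j Ψ) ε X 0 m ∧ ∀ g ∈ dec (b.c • e.P x), X g = ac (b.aa j Ψ g - 1) n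

variable {b c Ψ ε} {k : ι → b.Kp j c Ψ} {d : Rw (Rj j) e.σ ι r}
  {s : ι × Fin 2 → Ix r e.σ ι → Rj j} {x : e.σ}

theorem tk : Tk b c Ψ k = b.T c := by simp [Tk]

theorem ac_l (u : Pa.Un b c Ψ ε k d) {y : Ix r e.σ ι → M} (h : ac (d.Rm b Ψ) y = 0) :
    ac (d.l x) y = Sum.elim (ac (d.u (b.c * b.φ x * b.c)) y) (ac (d.u (b.c * e.τ x * b.c)) y) := by
  funext i
  obtain ⟨β, k⟩ := (mem_span_range_iff_exists_fun _).1 (u.loc x i)
  have : ∑ a, (d.l x i - Sum.elim (d.u (b.c * b.φ x * b.c)) (d.u (b.c * e.τ x * b.c)) i) a • y a =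
      0 := by
    rw [← k]
    simp only [Finset.sum_apply, Pi.smul_apply, smul_eq_mul, Finset.sum_smul, mul_smul]
    rw [Finset.sum_comm]
    exact Finset.sum_eq_zero fun a _ => by
      rw [← Finset.smul_sum, show ∑ i, d.Rm b Ψ a i • y i = 0 from congrFun h a, smul_zero]
  simp only [Pi.sub_apply, sub_smul, Finset.sum_sub_distrib, sub_eq_zero] at this
  rcases i with i | i <;> exact this

theorem ac_Bm (A V : M2 (Rj j)) (n : Fin 2 → M) :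
    ac (Bm A V) n = Sum.elim (ac (A - 1) n) (ac (V - 1) n) :=
  funext fun i => by rcases i with i | i <;> rfl

variable (hL : LOCT) (hU : UNI) (r1 : RC1) (r2 : RC2) (h : b.Chr j c Ψ)
include hL hU r1 r2 h

theorem tam {X : GQ → Fin 2 → M} {n : Fin 2 → M} (a : Cc b.Γ (b.T c) (b.aa j Ψ) X) :
    Sum.elim (X (b.c * b.φ x * b.c)) (X (b.c * e.τ x * b.c)) =
      ac (Bm (b.aa j Ψ (b.c * b.φ x * b.c)) (b.aa j Ψ (b.c * e.τ x * b.c))) n ↔
    ∀ g ∈ dec (b.c • e.P x), X g = ac (b.aa j Ψ g - 1) n := by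
  have G := Ra.gd r1 r2 h le_rfl fun l => Ra.T_prime
  obtain ⟨β, t⟩ := Pa.Lv.tp1 hL hU h G x
  rw [ac_Bm]
  refine ⟨fun k g m => ?_, fun k => by rw [k _ t.hφ.2, k _ t.hτ.2]⟩
  have le : g ∈ b.Γ := by
    have := Ra.dec_cj (g := b.c) m
    rw [inv_smul_smul] at this
    simpa [mul_assoc] using (Ra.nrm G).conj_mem _ (b.le x (Pa.Lv.sig x).1 this) b.c
  obtain ⟨W, w1, w2⟩ := G.lc
  rw [(t.un M X (fun g m g' m' => a.coc g m.1 g' m'.1)
    (a.lc.imp fun W m => ⟨m.1, fun w _ => m.2 w⟩)).2 g ⟨le, m⟩, k]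
  refine ((t.un M (fun g => ac (b.aa j Ψ g - 1) n) (fun g m g' m' => ?_)
    ⟨W, w1, fun w m m' => ?_⟩).2 g ⟨le, m⟩).symm
  · rw [G.mul g m.1 g' m'.1, ← ac_mul, mul_sub, mul_one, ac_sub, ac_sub, ac_sub]
    abel
  · rw [w2 w m.1 m', ac_sub, sub_self]

variable (u : Pa.Un b c Ψ ε k d)
include u

theorem to_st {y : Ix r e.σ ι ⊕ Fin 2 → M} (a : ac (Fm b Ψ d s x) y = 0) : St b c Ψ ε x
    (fun g => ac (d.u g) (y ∘ inl)) (fun p => ac (d.m p) (y ∘ inl)) (y ∘ inr) := by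
  obtain ⟨a1, a2, a3⟩ := ac_Fg.1 a
  have k := (u.bij M).mapsTo a1
  simp only [mem_setOf_eq, a2, tk] at k
  exact ⟨k, (tam hL hU r1 r2 h k.toCc).1 ((ac_l u a1).symm.trans a3)⟩

theorem of_st {X : GQ → Fin 2 → M} {m n} (a : St b c Ψ ε x X m n) (o : Bool) :
    ∃ y, ac (Fm b Ψ d s x) y = 0 ∧ ac (En d x o) y = Dn x o X m n := by
  obtain ⟨y, a1, k⟩ := (u.bij M).surjOn (show (X, 0, m) ∈ _ by rw [tk]; exact a.1)
  obtain ⟨rfl, k2, rfl⟩ : _ ∧ _ ∧ _ := by simpa only [Prod.mk.injEq] using k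
  exact ⟨Sum.elim y n, ac_Fg.2 ⟨a1, k2, (ac_l u a1).trans ((tam hL hU r1 r2 h a.1.toCc).2 a.2)⟩,
    ac_En d x o _⟩

omit hL hU r1 r2 h in
theorem inj (o : Bool) (y z : Ix r e.σ ι ⊕ Fin 2 → M) (a : ac (Fm b Ψ d s x) y = 0)
    (a' : ac (Fm b Ψ d s x) z = 0) (k : ac (En d x o) y = ac (En d x o) z) : y = z := by
  rw [ac_En, ac_En] at k
  obtain ⟨k1, k2, k3⟩ := Dn_inj k
  have := (u.bij M).injOn (ac_Fg.1 a).1 (ac_Fg.1 a').1
    (Prod.ext k1 (Prod.ext ((ac_Fg.1 a).2.1.trans (ac_Fg.1 a').2.1.symm) k2))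
  exact funext fun i => i.rec (congrFun this) (congrFun k3)

omit u in
theorem ex {e' : Crv} {b' : Fld e'} {ι' : Type} [Fintype ι'] [DecidableEq ι'] [IsEmpty ι'] {r' : ℕ}
    {k' : ι' → b'.Kp j c Ψ} {d' : Rw (Rj j) e'.σ ι' r'} {s' x'} (u' : Pa.Un b' c Ψ ε k' d')
    (h' : b'.Chr j c Ψ) (u : Pa.Un b c Ψ ε k d) (q1 : b'.Γ = b.Γ) (q2 : b'.T c = b.T c)
    (q3 : b'.aa j Ψ = b.aa j Ψ) (q4 : x'.1 = x.1) (q5 : ∀ q ≠ x.1, e'.P q = e.P q)
    (q6 : ∀ q ≠ x.1, q ∈ e'.σ ↔ q ∈ e.σ) (q7 : e'.P x = b.c • e.P x) (q8 : b'.c • e'.P x = e.P x)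
    (o : Bool) {y : Ix r e.σ ι ⊕ Fin 2 → M} (a : ac (Fm b Ψ d s x) y = 0) :
    ∃ y', ac (Fm b' Ψ d' s' x') y' = 0 ∧ ac (En d' x' (!o)) y' = ac (En d x o) y := by
  obtain ⟨a1, a2⟩ := to_st hL hU r1 r2 h u a
  rw [ac_En]
  generalize (fun g => ac (d.u g) (y ∘ inl)) = X at a1 a2 ⊢
  generalize (fun p => ac (d.m p) (y ∘ inl)) = m at a1 ⊢
  generalize y ∘ inr = n at a2 ⊢
  have hs : St b' c Ψ ε x' X (fun q => if t : q.1 = x.1 then n else m ⟨q.1, (q6 _ t).1 q.2⟩)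
      (m x) := by
    refine ⟨⟨q1 ▸ q2 ▸ q3 ▸ a1.toCc, q5 2 (Pa.Lv.sig x).2.symm ▸ a1.sv, fun q g t => ?_⟩,
      fun g t => ?_⟩
    · rw [q3]
      split_ifs with t'
      · exact a2 g (by rwa [t', q7] at t)
      · exact a1.sp ⟨q.1, (q6 _ t').1 q.2⟩ g (by rwa [q5 _ t'] at t)
    · rw [q3]
      exact a1.sp x g (by rwa [q4, q8] at t)
  obtain ⟨y', k1, k2⟩ := of_st (s := s') hL hU r1 r2 h' u' hs (!o)
  refine ⟨y', k1, k2.trans (funext ?_)⟩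
  rintro (z | z | ⟨t, i⟩)
  · rfl
  · simp only [Dn, q4]
    by_cases t : z.1 = x.1
    · simp [t]
    · simp [t, q6 _ t]
  · cases o <;> cases t <;> simp [Dn, q4]

end Cx

open Cx in
theorem cmi (hL : LOCT) (hU : UNI) (r1 : RC1) (r2 : RC2) (e : Crv) (b : Fld e) (p : ℕ) (f : Fp b p)
    (hp : p ∈ e.σ) (hp' : p ∈ f.e'.σ) (s : Pa.Sq b) (s' : Sq f.b') (sm : Sm f s s') w w' n n'
    (L : s.Lm w) (L' : s'.Lm w') (i : IsEmpty L.ι) (i' : IsEmpty L'.ι) : Nonempty (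
    Ws (s.γ n) L.pk ⟨p, hp⟩ (Bm (um fun j => b.aa _ (s.Ψ j) (b.c * b.φ p * b.c))
      (um fun j => b.aa _ (s.Ψ j) (b.c * e.τ p * b.c))) ≃ₗ[La]
    Ws (s'.γ n') L'.pk ⟨p, hp'⟩ (Bm (um fun j => f.b'.aa _ (s'.Ψ j) (b.c * f.φ p * b.c))
      (um fun j => f.b'.aa _ (s'.Ψ j) (b.c * f.τ p * b.c)))) := by
  have q6 : ∀ q ≠ p, q ∈ f.e'.σ ↔ q ∈ e.σ := fun q t =>
    Finset.mem_filter.trans (.trans (by simp only [Crv.Iv, f.Pq q t]; rfl) Finset.mem_filter.symm)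
  have q8 : b.c • f.P p = e.P p := by rw [f.Pp, smul_smul, Ra.c_sq, one_smul]
  have key : ∀ (j c c' : ℕ) (Ψ Ψ' : GQ → Rj (j + 1)) ε ε' k k' d d' t t', c' = c → Ψ' = Ψ → ε' = ε →
      b.Chr (j + 1) c Ψ → Pa.Un (ι := L.ι) (r := L.r) b c Ψ ε k d →
      Pa.Un (ι := L'.ι) (r := L'.r) f.b' c' Ψ' ε' k' d' → ∃ A : Matrix _ _ _ × Matrix _ _ _,
        Iv (Fm b Ψ d t ⟨p, hp⟩) (Fm f.b' Ψ' d' t' ⟨p, hp'⟩) A.1 A.2 ∧
        Iv (Fm f.b' Ψ' d' t' ⟨p, hp'⟩) (Fm b Ψ d t ⟨p, hp⟩) A.2 A.1 := by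
    rintro j c _ Ψ _ ε _ k k' d d' t t' rfl rfl rfl h u u'
    exact yon (inj u true) (inj u' false)
      (ex (x := ⟨p, hp⟩) (x' := ⟨p, hp'⟩) hL hU r1 r2 h u' (f.chr h) u rfl rfl rfl rfl f.Pq q6 f.Pp
        q8 true (ac_Q _))
      (ex (x := ⟨p, hp'⟩) (x' := ⟨p, hp⟩) hL hU r1 r2 (f.chr h) u h u' rfl rfl rfl rfl
        (fun q t => (f.Pq q t).symm) (fun q t => (q6 q t).symm) q8.symm f.Pp.symm false (ac_Q _))
  obtain ⟨A, hA⟩ := Pat.U_ch ((s.chr.and (L.un.and L'.un)).mono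
    fun j ⟨h, ⟨k, _, u, _⟩, ⟨k', _, u', _⟩⟩ => key j _ _ _ _ _ _ k k' _ _ (L.s' j) (L'.s' j)
      (congrFun sm.C j) (congrFun sm.Ψ j) (congrFun sm.ε j) h u u')
  have k1 := lim (hA.mono fun j a => a.1)
  have k2 := lim (hA.mono fun j a => a.2)
  simp only [Fm, um_Fg] at k1 k2
  exact eqv k1 k2

theorem cmx (hL : LOCT) (hU : UNI) (r1 : RC1) (r2 : RC2) : CMX :=
  fun e b p f hp hp' s s' sm w w' n n' L L' i i' =>
    (cmi hL hU r1 r2 e b p f hp hp' s s' sm w w' n n' L L' i i').elim fun F =>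
      ⟨F.symm.toLinearMap, F.symm.surjective⟩

theorem cmy (hL : LOCT) (hU : UNI) (r1 : RC1) (r2 : RC2) : CMY :=
  fun e b p f hp hp' s s' sm w w' n n' L L' i i' =>
    (cmi hL hU r1 r2 e b p f hp hp' s s' sm w w' n n' L L' i i').elim fun F =>
      ⟨F.toLinearMap, F.surjective⟩

end Vale.Agent.P014T.Lu
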