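import Vale.Agent.P014T.Lu.CpGlb1

/-! # P014T, block Lu: the file `Glb` of block PAT for towers with a moving perturbation -/

set_option linter.all false

open NumberField Matrix Filter PowerSeries Submodule Set
open scoped Classical

noncomputable section

namespace Vale.Agent.P004F.Pa.L2

open Vale.Agent.P022 Vale.Agent.P004K
open Vale.Agent.P027M.S (Inert)
open Vale.Agent.P022D.W (dec inP_le_dec phi_mem conj_inP)
open Vale.Agent.P022E.GW (Ov Fb Gn)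
open P004S (nu nu_mul nu_inv nu_conj)
open P004T (ds)
open Pat (U Sy)
open Ra (rj c_sq c_inv)

namespace Gb

variable {e : Crv} {b : Fld e} (s : Sq b)

/-- inertia at two does not act trivially -/
theorem ex_in (e : Crv) {P : Ideal (𝓞 Qb)} (o : Ov 2 P) : ∃ g, Inert P g ∧ e.r g ≠ 1 := by
  obtain ⟨τ, t⟩ := P022E.GW.Tg.ex_gn' o
  refine ⟨τ, t.1, fun h => ?_⟩
  obtain ⟨ζ, hζ⟩ := P004S.Aq.ex_prim 3
  have k := P004S.cyc_ep _ _ e.rep τ 3 1 ζ hζ.pow_eq_one (by simp [det_r, h])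
  have z : ζ ^ 4 = -1 := (hζ.pow (by norm_num) (show 2 ^ 3 = 4 * 2 from rfl)).eq_neg_one_of_two_right
  have w : (ζ - ζ ^ 3) ^ 2 = ((2 : ℕ) : Qb) := by push_cast; linear_combination (ζ ^ 2 - 2) * z
  have := t.2 _ w
  rw [map_sub, map_pow, k, pow_one, self_eq_neg] at this
  rw [this] at w
  norm_num at w

theorem nu_two (e : Crv) {g : GQ} (h : Inert (e.P 2) g) : nu (ds e.δ) g = 0 :=
  P004R.Mu.in_two (e.ov 2 e.two) (ds_spec e).1 h

/-- no invariants of the decomposition group -/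
theorem no_fix (e : Crv) {l : ℕ} {P : Ideal (𝓞 Qb)} (o : Ov l P) {φ : GQ} (f : Fb l P φ)
    {v : Fin 2 → ℤ_[2]} (h : ∀ g, Inert P g → e.rd g *ᵥ v = v) (h' : e.rd φ *ᵥ v = v) : v = 0 := by
  have k : ∀ g, e.rd g *ᵥ v = v → P004S.ac e.rp (ds e.δ) g (fun i => v i) - (fun i => (v i : ℚ_[2])) = 0 :=
    fun g hg => sub_eq_zero.2 (funext fun i => by
      have := congrArg (fun x : ℤ_[2] => (x : ℚ_[2])) (congrFun hg i)
      have m : ∀ i k, P004S.mt e.rp g i k = e.r g i k := fun _ _ => rfl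
      simp only [Crv.rd, sd, P004S.ac, P004S.sg, smul_mulVec, Pi.smul_apply] at this ⊢
      simp only [mulVec, vec2_dotProduct, m] at this ⊢
      split_ifs at this ⊢ <;> simpa [add_comm] using this)
  have := En.noi (hq e.par.disc) l P (ds e.δ) (fun i => v i) o fun g hg => sub_eq_zero.1
    (En.z_gen o f (En.z_cob e.rep _ _ _) (fun i hi => k i (h i hi)) (k φ h') hg)
  exact funext fun i => Subtype.ext (congrFun this i)

theorem Iv.prim {p : ℕ} {v : Fin 2 → ℤ_[2]} (h : e.Iv p v) : ∃ v i, e.Iv p v ∧ v i = 1 := by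
  obtain ⟨i, hi⟩ : ∃ i, ∀ k, v i ∣ v k := by
    rcases ValuationRing.dvd_total (v 0) (v 1) with a | a
    exacts [⟨0, Fin.forall_fin_two.2 ⟨dvd_rfl, a⟩⟩, ⟨1, Fin.forall_fin_two.2 ⟨a, dvd_rfl⟩⟩]
  choose w hw using hi
  have e0 : v = v i • w := funext hw
  have n : v i ≠ 0 := fun k => h.1 (by rw [e0, k, zero_smul])
  refine ⟨w, i, ⟨fun k => h.1 (by rw [e0, k, smul_zero]), fun g hg => smul_right_injective _ n ?_⟩,
    mul_left_cancel₀ n (by rw [← hw, mul_one])⟩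
  show v i • _ = v i • w
  rw [← mulVec_smul, ← e0, h.2 g hg]

theorem perp {A : Type} [CommRing A] {w v : Fin 2 → A} {i : Fin 2} (hw : w ≠ 0) (h1 : v i = 1)
    (h0 : w ⬝ᵥ v = 0) : ∃ l ≠ 0, w 0 = l * v 1 ∧ w 1 = -l * v 0 := by
  rw [vec2_dotProduct] at h0
  suffices h : ∃ l, w 0 = l * v 1 ∧ w 1 = -l * v 0 by
    obtain ⟨l, h⟩ := h
    exact ⟨l, fun k => hw (funext (Fin.forall_fin_two.2 (by simpa [k] using h))), h⟩
  refine ((Fin.exists_fin_two (p := fun i => v i = 1)).1 ⟨i, h1⟩).elim (fun h1 => ⟨-w 1, ?_, ?_⟩)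
    fun h1 => ⟨w 0, ?_, ?_⟩
  · linear_combination h0 - w 0 * h1
  · rw [h1]; ring
  · rw [h1]; ring
  · linear_combination h0 - w 1 * h1

/-- the split case: the invariant line and the Frobenius eigenvalue -/
theorem ex_eig {v : Fin 2 → ℤ_[2]} (h : e.Iv 2 v) {φ : GQ} (f : Fb 2 (e.P 2) φ) :
    ∃ (v : Fin 2 → ℤ_[2]) (i k : Fin 2) (g : GQ) (l α : ℤ_[2]), e.Iv 2 v ∧ v i = 1 ∧
      Inert (e.P 2) g ∧ l ≠ 0 ∧ (e.r g - 1) k 0 = l * v 1 ∧ (e.r g - 1) k 1 = -l * v 0 ∧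
      e.r φ *ᵥ v = α • v ∧ IsUnit α ∧ α * sd (ds e.δ) φ ≠ 1 := by
  obtain ⟨v, i, h, h1⟩ := Iv.prim h
  have o := e.ov 2 e.two
  obtain ⟨g, hg, n⟩ := ex_in e o
  obtain ⟨k, hk⟩ : ∃ k, (e.r g - 1) k ≠ 0 := by
    by_contra c
    push Not at c
    exact n (sub_eq_zero.1 (funext c))
  have z : ∀ u, e.r g *ᵥ u = u → (e.r g - 1) k ⬝ᵥ u = 0 := fun u hu =>
    congrFun (show (e.r g - 1) *ᵥ u = 0 by rw [sub_mulVec, hu, one_mulVec, sub_self]) k
  obtain ⟨l, l0, a0, a1⟩ := perp hk h1 (z v (h.2 g hg))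
  have c := z (e.r φ *ᵥ v) (by
    have := h.2 _ (conj_inP (inv_mem (phi_mem o.1 o.2.1 f)) hg)
    rw [mulVec_mulVec, ← map_mul, show g * φ = φ * (φ⁻¹ * g * φ⁻¹⁻¹) by group, map_mul,
      ← mulVec_mulVec, this])
  rw [vec2_dotProduct, a0, a1] at c
  have c' : v 1 * (e.r φ *ᵥ v) 0 = v 0 * (e.r φ *ᵥ v) 1 :=
    mul_left_cancel₀ l0 (by linear_combination c)
  have ev : e.r φ *ᵥ v = (e.r φ *ᵥ v) i • v := by
    generalize e.r φ *ᵥ v = u at c'
    funext x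
    have : ∀ i x, v i * u x = u i * v x := by
      simp only [Fin.forall_fin_two]
      exact ⟨⟨mul_comm _ _, c'.symm.trans (mul_comm _ _)⟩, c'.trans (mul_comm _ _), mul_comm _ _⟩
    rw [Pi.smul_apply, smul_eq_mul, ← this, h1, one_mul]
  generalize (e.r φ *ᵥ v) i = α at ev
  refine ⟨v, i, k, g, l, α, h, h1, hg, l0, a0, a1, ev, .of_mul_eq_one ((e.r φ⁻¹ *ᵥ v) i) ?_,
    fun c => h.1 (no_fix e o f (fun g hg => ?_) ?_)⟩
  · rw [← smul_eq_mul, ← Pi.smul_apply, ← mulVec_smul, ← ev, mulVec_mulVec, ← map_mul,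
      inv_mul_cancel, map_one, one_mulVec, h1]
  · rw [Crv.rd, Ra.sd_zero (nu_two e hg), one_smul, h.2 g hg]
  · rw [Crv.rd, smul_mulVec, ev, ← Int.cast_smul_eq_zsmul ℤ_[2], smul_smul, mul_comm, c, one_smul]

theorem ρ_in (r2 : RC2) {g : b.Γ} (h : Inert (e.P 2) g) : s.ρ (kk b g) = rc e g := by
  rw [ρ_kk, ψ_unr s r2 (e.ov 2 e.two) e.two h, Ra.sd_zero (nu_two e h)]
  simp

theorem row_in (r2 : RC2) (n : ℕ) {g : GQ} (h : Inert (e.P 2) g) (k : Fin 2) :
    (fun i => C ((e.r g - 1) k i)) ∈ Au s.ρ (s.γ n).Dv := by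
  have := Rs.au s.ρ (D := (s.γ n).Dv) (g := kk b ⟨g, b.le 2 e.two (inP_le_dec h)⟩)
    (fun j => inP_le_dec h) k
  rwa [ρ_in s r2 h, ← map_one (C : ℤ_[2] →+* La).mapMatrix,
    show ∀ x, rc e x = (C : ℤ_[2] →+* La).mapMatrix (e.r x) from fun _ => rfl, ← map_sub] at this

theorem bv (r2 : RC2) (hl : LGC) : constantCoeff (s.γ 0).bv ≠ 0 ∧ ∃ (n : ℕ) (A : M2 La),
    (∀ i, A i ∈ Au s.ρ (s.γ 0).Dv) ∧ A.det ∣ 2 ^ n * (s.γ 0).bv := by
  have o := e.ov 2 e.two
  by_cases h : ∃ v, e.Iv 2 v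
  · have f : Fb 2 (e.P 2) (b.φ 2) := b.ch.frb _ e.two
    obtain ⟨v, i, k, g, l, α, hv, h1, hg, l0, a0, a1, ev, u, n1⟩ := ex_eig h.choose_spec f
    have lg := hl e v _ α hv f ev
    have dφ := phi_mem o.1 o.2.1 f
    let φ : b.Γ := ⟨b.φ 2, b.le _ e.two dφ⟩
    have e0 : s.ψ = ψ s (kk b φ) * sd (ds e.δ) φ := by
      rw [mul_comm, ← ur_mj (sd (ds e.δ) φ)]
      simp only [map_intCast]
      exact map_mul ur _ _
    have c0 : constantCoeff s.ψ = sd (ds e.δ) (b.φ 2) := by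
      rw [e0, map_mul, ψ_X, one_mul, map_intCast]
    obtain ⟨w, w0, e1⟩ : ∃ w, constantCoeff w ≠ 0 ∧ (s.γ 0).bv = (C α * s.ψ - 1) * w := by
      have lc := congrArg (C : ℤ_[2] →+* La) lg
      simp only [P014T.Lu.Sq.γ, if_pos h]
      split_ifs at lg lc ⊢ <;>
        simp only [map_add, map_sub, map_mul, map_pow, map_intCast, map_ofNat, map_zero] at lc
      · refine ⟨e.a 2 * s.ψ, ?_, by linear_combination s.ψ ^ 2 * lc⟩
        rw [map_mul, c0, map_intCast]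
        refine mul_ne_zero (fun a => ?_) (sd_ne _)
        simp [a] at lg
      · refine ⟨(e.a 2 - C α) * s.ψ - 1, ?_, by linear_combination s.ψ ^ 2 * lc⟩
        rw [map_sub, map_mul, c0, map_sub, map_intCast, constantCoeff_C, map_one, sub_ne_zero]
        intro a
        have := u.mul (IsUnit.of_mul_eq_one _ a)
        rw [show α * (e.a 2 - α) = 2 by linear_combination -lg] at this
        exact (PadicInt.prime_p (p := 2)).not_unit this
    obtain ⟨n, hn⟩ := dvd_two_pow l0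
    refine ⟨?_, n, .of ![fun i => C ((e.r g - 1) k i), (s.ρ (kk b φ) - 1) i], Fin.forall_fin_two.2
      ⟨row_in s r2 0 hg k, Rs.au s.ρ (D := (s.γ 0).Dv) (g := kk b φ) (fun j => dφ) i⟩, ?_⟩
    · rw [e1, map_mul, map_sub, map_mul, c0, constantCoeff_C, map_one]
      exact mul_ne_zero (sub_ne_zero.2 n1) w0
    · have a := congrArg (C : ℤ_[2] →+* La) (congrFun ev i)
      have a' := congrArg (C : ℤ_[2] →+* La) (congrFun (one_mulVec v) i)
      rw [h1] at a'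
      simp only [mulVec, vec2_dotProduct, Pi.smul_apply, h1, smul_eq_mul, mul_one, map_add,
        map_mul, map_one] at a a'
      have d : det (.of ![fun i => C ((e.r g - 1) k i), (s.ρ (kk b φ) - 1) i]) =
          C l * (C α * s.ψ - 1) := by
        rw [det_fin_two, ρ_kk, ← e0, ← map_one (C : ℤ_[2] →+* La).mapMatrix]
        simp only [of_apply, cons_val_zero, cons_val_one, a0, a1]
        simp only [map_mul, map_neg, φ, Matrix.sub_apply, Matrix.smul_apply, smul_eq_mul, rc_apply, map_apply,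
          RingHom.mapMatrix_apply]
        linear_combination C l * s.ψ * a - C l * a'
      rw [d, e1, Pat.two_C]
      exact mul_dvd_mul (map_dvd _ hn) (dvd_mul_right _ _)
  · have e1 : (s.γ 0).bv = 1 := if_neg h
    obtain ⟨g, hg, k, g', hg', k', d⟩ : ∃ g, Inert (e.P 2) g ∧ ∃ k g', Inert (e.P 2) g' ∧ ∃ k',
        (e.r g - 1) k 0 * (e.r g' - 1) k' 1 - (e.r g - 1) k 1 * (e.r g' - 1) k' 0 ≠ 0 := by
      by_contra c
      push Not at c
      obtain ⟨g, hg, n⟩ := ex_in e o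
      obtain ⟨k, hk⟩ : ∃ k, (e.r g - 1) k ≠ 0 := by
        by_contra c
        push Not at c
        exact n (sub_eq_zero.1 (funext c))
      refine h ⟨![-(e.r g - 1) k 1, (e.r g - 1) k 0], fun a => hk (funext (Fin.forall_fin_two.2
        ⟨congrFun a 1, neg_eq_zero.1 (congrFun a 0)⟩)), fun g' hg' => ?_⟩
      rw [← sub_eq_zero, ← one_mulVec (v := ![_, _]), mulVec_mulVec, mul_one, ← sub_mulVec]
      funext k'
      rw [mulVec, vec2_dotProduct]
      simp only [cons_val_zero, cons_val_one, Pi.zero_apply]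
      linear_combination c g hg k g' hg' k'
    obtain ⟨n, hn⟩ := dvd_two_pow d
    refine ⟨by simp [e1], n, .of ![fun i => C ((e.r g - 1) k i), fun i => C ((e.r g' - 1) k' i)],
      Fin.forall_fin_two.2 ⟨row_in s r2 0 hg k, row_in s r2 0 hg' k'⟩, ?_⟩
    rw [e1, mul_one, Pat.two_C, det_fin_two]
    simpa only [of_apply, cons_val_zero, cons_val_one, map_sub, map_mul] using map_dvd C hn

end Gb

open Gb in
/-- **the row GLB** -/
theorem glb (r1 : RC1) (r2 : RC2) (ha : ABS) (hl : LGC) : GLB := fun e b s => by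
  obtain ⟨c, hc⟩ := spn s ha
  obtain ⟨b0, n, A, a1, a2⟩ := bv s r2 hl
  exact ⟨s.c₀ + c + n, th b, by omega, fun _ _ => rfl, th_th, mem_H s, nH s _, ρH s _, θH s r1 _,
    sah s r2 _, hc _ (by omega), nis s r1 ha, gen s r1 r2, b0,
    ⟨A, a1, a2.trans (mul_dvd_mul_right (pow_dvd_pow _ (by omega)) _)⟩, ap s r1 _⟩

end Vale.Agent.P004F.Pa.L2
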