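import Vale.Agent.P014T.Lu.CpL0

/-! # P014T, block Lu: the file `Lok` of block PAT for towers with a moving perturbation -/

set_option linter.all false

open NumberField Matrix Filter PowerSeries Submodule Set
open scoped Classical Pointwise

noncomputable section

namespace Vale.Agent.P004F.Pa.L2

open Vale.Agent.P022 Vale.Agent.P004K
open Vale.Agent.P027M.S (Inert)
open Vale.Agent.P022D.W (dec)
open Vale.Agent.P022K.G2 (In)
open Vale.Agent.P022E.GW (Ov Fb Gn)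
open P004S (nu)
open P004T (ds)
open Pr (ac)
open Pat (U Sy)

variable {e : Crv} {b : Fld e}

theorem sel_smul {R M : Type} [CommRing R] [AddCommGroup M] [Module R M] {T T' : Finset ℕ}
    {a : GQ → M2 R} {ε : GQ → Fin 2 → R} {x : GQ → Fin 2 → M} {t : M} {m : e.σ → Fin 2 → M}
    (h : b.Sel T a ε x t m) (le : T ⊆ T') (c : R) : b.Sel T' a ε (c • x) (c • t) (c • m) where
  coc g hg g' hg' := by simp only [Pi.smul_apply, h.coc g hg g' hg', smul_add, Pr.ac_smul]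
  out g hg := by rw [Pi.smul_apply, h.out g hg, smul_zero]
  lc := h.lc.imp fun W k => ⟨k.1, fun w hw => by rw [Pi.smul_apply, k.2 w hw, smul_zero]⟩
  unr g := fun ⟨l, h1, h2⟩ => by rw [Pi.smul_apply, h.unr g ⟨l, fun k => h1 (le k), h2⟩, smul_zero]
  sv g hg i := by simp only [Pi.smul_apply, h.sv g hg i, smul_comm c]
  sp p g hg := by simp only [Pi.smul_apply, h.sp p g hg, Pr.ac_smul]

section

variable {j c : ℕ} {Ψ : GQ → Rj j} {ι : Type} {k : ι → b.Kp j c Ψ}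

theorem inj_im (h : Function.Injective fun i => (k i).l) (n : Finset ι) : b.Inj (n.image k) := by
  intro x hx y hy a
  obtain ⟨i, -, rfl⟩ := Finset.mem_image.1 hx
  obtain ⟨i', -, rfl⟩ := Finset.mem_image.1 hy
  rw [h a]

theorem not_im (h : Function.Injective fun i => (k i).l) {n : Finset ι} {i : ι} (hi : i ∉ n) :
    k i ∉ n.image k := fun a => by
  obtain ⟨i', h1, h2⟩ := Finset.mem_image.1 a
  exact hi (h (congrArg Fld.Kp.l h2) ▸ h1)

theorem wt_unit {w : ℕ → GQ → ℕ} (hw : ∀ l P τ, Ov l P → l ≠ 2 → Gn l P τ → Odd (w l τ))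
    (n : Finset ι) : IsUnit (∏ i ∈ n, (w (k i).l (k i).τ : Rj j)) :=
  IsUnit.prod_iff.2 fun i _ => odd_unit (hw _ _ _ (k i).kp.ov (k i).kp.ne (k i).kp.gn)

end

theorem lmx (lev : LEV) : LMX := by
  intro e b s w hw ι _ _ k hk
  obtain ⟨r₀, H⟩ := lev e b (s.m + 1) (Fintype.card ι)
  have h1 : ∀ᶠ j in U, ∃ r : Fin (r₀ + 1), ∃ d : Rw _ e.σ ι r, ∃ k', k j = some k' ∧
      Un b (s.C j) (s.Ψ j) (s.ε j) k' d := by
    filter_upwards [hk, s.tw, s.pe, s.chr, s.es] with j ⟨k', e1, e2⟩ tw pe chr es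
    obtain ⟨v, -, xq⟩ := pe.xq
    obtain ⟨P, hP⟩ := P004R.Mu.ex_pl xq.pr
    obtain ⟨r, hr, d, hd⟩ := H j (s.C j) (s.Ψ j) (s.ε j) chr ⟨es.coc, es.lc⟩ (fun g _ => rk_ps _ _ _ g)
      (by
        rw [P014T.Lu.Sq.C, Nat.primeFactors_mul tw.sq.ne_zero xq.pr.ne_zero, xq.pr.primeFactors]
        exact (Finset.card_union_le _ _).trans (Nat.add_le_add tw.crd (by simp)))
      ⟨s.q j, Nat.mem_primeFactors.2 ⟨xq.pr, Dvd.intro_left _ rfl, chr.sq.ne_zero⟩, P, hP,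
        xq.spl P hP, xq.res P hP⟩ ι k' le_rfl e2
    exact ⟨⟨r, Nat.lt_succ_of_le hr⟩, d, k', e1, hd⟩
  obtain ⟨r', h2⟩ := Pat.U_ch (α := fun _ => Fin (r₀ + 1)) h1
  obtain ⟨r, hr⟩ := Pat.U_fin r'
  have h3 : ∀ᶠ j in U, ∃ d : Rw _ e.σ ι r, ∃ f s' : ι × Fin 2 → Ix r e.σ ι → Rj (j + 1),
      ∃ κ : Finset ι → Ix r e.σ ι → Rj (j + 1), ∃ k', k j = some k' ∧
      Un b (s.C j) (s.Ψ j) (s.ε j) k' d ∧ f = (pk b (s.C j) (s.Ψ j) (w j) k' d κ).f ∧
      s' = (pk b (s.C j) (s.Ψ j) (w j) k' d κ).s ∧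
      ∀ n : Finset ι, d.Rm b (s.Ψ j) *ᵥ κ n = 0 ∧ ∀ a,
        a = (∏ i ∈ n, (w j (k' i).l (k' i).τ : Rj (j + 1))) →
        (∀ g, a • (d.u g *ᵥ κ n) = s.κ j (n.image k') g) ∧ a * (d.t ⬝ᵥ κ n) = s.t j (n.image k') ∧
        ∀ p, a • (d.m p *ᵥ κ n) = s.μ j (n.image k') p := by
    filter_upwards [h2, hr, s.es] with j h e1 es
    rw [e1] at h
    obtain ⟨d, k', e1, un⟩ := h
    have : ∀ n : Finset ι, ∃ y : Ix r e.σ ι → Rj (j + 1), d.Rm b (s.Ψ j) *ᵥ y = 0 ∧ ∀ a,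
        a = (∏ i ∈ n, (w j (k' i).l (k' i).τ : Rj (j + 1))) →
        (∀ g, a • (d.u g *ᵥ y) = s.κ j (n.image k') g) ∧ a * (d.t ⬝ᵥ y) = s.t j (n.image k') ∧
        ∀ p, a • (d.m p *ᵥ y) = s.μ j (n.image k') p := fun n => by
      obtain ⟨a', ha⟩ := (wt_unit (k := k') (hw j) n).exists_right_inv
      obtain ⟨y, y1, y2⟩ := (un.bij (Rj (j + 1))).surjOn (a := (a' • s.κ j (n.image k'),
        a' • s.t j (n.image k'), a' • s.μ j (n.image k')))
        (sel_smul (es.sel _ (inj_im un.inj n)) (Finset.union_subset_union_right (by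
          rw [Finset.image_image]; exact Finset.image_subset_image n.subset_univ)) a')
      obtain ⟨z1, z2, z3⟩ : (fun g => d.u g *ᵥ y) = a' • s.κ j (n.image k') ∧
          d.t ⬝ᵥ y = a' • s.t j (n.image k') ∧ (fun p => d.m p *ᵥ y) = a' • s.μ j (n.image k') :=
        ⟨congrArg (·.1) y2, congrArg (·.2.1) y2, congrArg (·.2.2) y2⟩
      refine ⟨y, y1, fun a e => ⟨fun g => ?_, ?_, fun p => ?_⟩⟩
      · rw [congrFun z1 g, Pi.smul_apply, smul_smul, e, ha, one_smul]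
      · rw [z2, smul_eq_mul, ← mul_assoc, e, ha, one_mul]
      · rw [congrFun z3 p, Pi.smul_apply, smul_smul, e, ha, one_smul]
    choose κ hκ using this
    exact ⟨d, _, _, κ, k', e1, un, rfl, rfl, hκ⟩
  have : ∀ j, Nonempty (Rw (Rj (j + 1)) e.σ ι r) := fun j => ⟨⟨0, 0, 0, 0, 0⟩⟩
  obtain ⟨d, h3⟩ := Pat.U_ch h3
  obtain ⟨f, h3⟩ := Pat.U_ch h3
  obtain ⟨s', h3⟩ := Pat.U_ch h3
  obtain ⟨κ, h3⟩ := Pat.U_ch h3
  exact ⟨r, d, f, s', κ, h3, rfl⟩

/-- the relations between the classes at one level -/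
theorem lev_kol {j c c₀ : ℕ} {Ψ : GQ → Rj j} {ε κ t μ} (es : b.Es c₀ j c Ψ ε κ t μ)
    {ι : Type} [Fintype ι] [DecidableEq ι] {r : ℕ} {k : ι → b.Kp j c Ψ} {d : Rw (Rj j) e.σ ι r}
    {w : ℕ → GQ → ℕ} (hw : ∀ l P τ, Ov l P → l ≠ 2 → Gn l P τ → Odd (w l τ))
    (inj : Function.Injective fun i => (k i).l) {y : Finset ι → Ix r e.σ ι → Rj j}
    (h : ∀ n g, (∏ i ∈ n, (w (k i).l (k i).τ : Rj j)) • (d.u g *ᵥ y n) = κ (n.image k) g)
    (n : Finset ι) (l : ι) :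
    (l ∉ n → sc b c Ψ w (k l) d.u *ᵥ y n = 0) ∧ (l ∈ n → d.u ((k l).φ ^ 2) *ᵥ y n = 0) ∧
    (l ∉ n → sc b c Ψ w (k l) d.u *ᵥ y (insert l n) = !![0, -1; 1, 0] *ᵥ (d.u ((k l).φ ^ 2) *ᵥ y n)) := by
  have u := wt_unit (k := k) hw n
  refine ⟨fun hl => ?_, fun hl => u.smul_eq_zero.1 ((h n _).trans
    (es.kf _ (inj_im inj n) _ (Finset.mem_image_of_mem _ hl))), fun hl => u.smul_left_cancel.1 ?_⟩
  · have : d.u (k l).τ *ᵥ y n = 0 := u.smul_eq_zero.1 ((h n _).trans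
      ((es.sel _ (inj_im inj n)).unr _ (kp_In (k l) fun a => (Finset.mem_union.1 a).elim (k l).out
        fun a => by
          rw [Finset.image_image] at a
          obtain ⟨i, h1, h2⟩ := Finset.mem_image.1 a
          exact hl (inj h2 ▸ h1))))
    rw [sc, smul_mulVec, ← mulVec_mulVec, this, mulVec_zero, smul_zero]
  · have a := es.rel (n.image k) (k l) (not_im inj hl) (by
      rw [← Finset.image_insert]; exact inj_im inj _)
    rw [← Finset.image_insert, ← h, ← h, Finset.prod_insert hl] at a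
    rw [← mulVec_smul !![0, -1; 1, 0], ← a, sc, smul_mulVec, ← mulVec_mulVec, ← mulVec_mulVec, mulVec_smul,
      mulVec_smul, ← Nat.cast_smul_eq_nsmul (Rj j), smul_smul, mul_comm]

theorem lok (pk1 : PK1) : LOK := by
  intro e b s w n θ hw hn G L
  have P := L.un.mono fun j ⟨k', _, un, _⟩ => pk1 e b j _ _ _ _ k' _ _ un (L.Lj j) rfl
  have K : ∀ (m : Finset L.ι) (l : L.ι), ∀ᶠ j in U,
      (l ∉ m → ∀ i, L.s' j (l, i) ⬝ᵥ L.κ j m = 0) ∧ (l ∈ m → ∀ i, L.f j (l, i) ⬝ᵥ L.κ j m = 0) ∧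
      (l ∉ m → L.s' j (l, 1) ⬝ᵥ L.κ j (insert l m) = L.f j (l, 0) ⬝ᵥ L.κ j m ∧
        L.s' j (l, 0) ⬝ᵥ L.κ j (insert l m) = -(L.f j (l, 1) ⬝ᵥ L.κ j m)) := fun m l => by
    filter_upwards [L.un, s.es] with j ⟨k', _, un, e1, e2, e3⟩ es
    obtain ⟨a1, a2, a3⟩ := lev_kol es (hw j) un.inj (fun m => ((e3 m).2 _ rfl).1) m l
    rw [e1, e2]
    refine ⟨fun h i => congrFun (a1 h) i, fun h i => congrFun (a2 h) i, fun h =>
      ⟨(congrFun (a3 h) 1).trans ?_, (congrFun (a3 h) 0).trans ?_⟩⟩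
    · show _ = ((L.d j).u ((k' l).φ ^ 2) *ᵥ L.κ j m) 0
      generalize (L.d j).u ((k' l).φ ^ 2) *ᵥ L.κ j m = v
      simp [mulVec, dotProduct]
    · show _ = -((L.d j).u ((k' l).φ ^ 2) *ᵥ L.κ j m) 1
      generalize (L.d j).u ((k' l).φ ^ 2) *ᵥ L.κ j m = v
      simp [mulVec, dotProduct]
      ring
  have dt : ∀ {x y : ∀ j, Ix L.r e.σ L.ι → Rj (j + 1)} {z : ∀ j, Rj (j + 1)},
      (∀ᶠ j in U, x j ⬝ᵥ y j = z j) → uv x ⬝ᵥ uv y = ur z := fun h =>
    (hp.uv_dot _ _).trans (hp.ur_ae h)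
  have sg : ∀ {j} (A : Matrix (Fin 2) (Ix L.r e.σ L.ι) (Rj (j + 1))) (i : Fin 2) {v}, v - A i ∈ L.Lj j →
      ∃ β : Fin 2 → Rj (j + 1), v - β ᵥ* A ∈ L.Lj j := fun A i _ h =>
    ⟨Pi.single i 1, by rwa [single_one_vecMul]⟩
  have HS := fun l : L.ι => ex_Hs s (k := fun j => (L.k j).map fun k' => k' l)
    (L.un.mono fun j ⟨k', a, _⟩ => ⟨k' l, by rw [a]; rfl⟩)
  exact
  { coc := fun g g' i => by
      have := L.Rl n (v := fun j => ((L.d j).u (g j * g' j) - (L.d j).u (g j) -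
        b.aa _ (s.Ψ j) (g j) * (L.d j).u (g' j) : Matrix _ _ _) i)
        (P.mono fun j h => h.1 _ (g j).2 _ (g' j).2 i)
      rwa [uv, ← hp.um_row, hp.um_sub, hp.um_sub, hp.um_mul] at this
    gen := by
      obtain ⟨g, h⟩ := Pat.U_ch (P.mono fun j h => h.2.2.2.2)
      obtain ⟨i, h⟩ := Pat.U_ch h
      choose g' hg' using fun x => ex_seq (b := b) (g := fun j => g j x) (h.mono fun j h => h.1 x)
      refine top_unique fun v _ => ?_
      have := hp.uv_mem (v := fun j a => mj (j + 1) (v a))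
        (B := fun j => Sum.elim (Sum.elim (fun x => (L.d j).u (g j x) (i j x))
          fun a => (L.d j).Rm b (s.Ψ j) a)
          fun o : Option (e.σ × Fin 2) => o.elim (L.d j).t fun x => (L.d j).m x.1 x.2)
        (h.mono fun j h => by
          rw [Set.Sum.elim_range, Set.Sum.elim_range, span_union, span_union]
          refine (h.2.ge.trans (sup_le le_sup_left (le_sup_of_le_right (span_mono ?_)))) mem_top
          rintro _ (rfl | ⟨p, i, rfl⟩)
          exacts [⟨none, rfl⟩, ⟨some (p, i), rfl⟩])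
      refine (funext fun a => hp.ur_const (v a) : hp.uv (fun j a => mj (j + 1) (v a)) = v) ▸
        span_le.2 ?_ this
      rintro _ ⟨(x | a) | (_ | x), rfl⟩
      · exact mem_sup_left (L.Us n (mem_univ (g' x)) ((hg' x).mono fun j a =>
          sg _ (i j x) (by rw [a]; exact (sub_mem_iff_left (L.Lj j) (zero_mem _)).1 (by simp))))
      · exact mem_sup_left (mem_sup_right (L.Rl n (.of_forall fun j => subset_span ⟨a, rfl⟩)))
      · exact mem_sup_right (subset_span (.inl rfl))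
      · exact mem_sup_right (subset_span (.inr ⟨x.1, x.2, rfl⟩))
    lu := fun x i => by
      rcases i with i | i
      · exact L.Us n (g := fun _ => ⟨_, cj_mem (φ_mem x)⟩) (mem_univ _) (v := fun j => (L.d j).l x (.inl i))
          (L.un.mono fun j ⟨_, _, un, _⟩ => sg _ i (un.loc x (.inl i)))
      · exact L.Us n (g := fun _ => ⟨_, cj_mem (τ_mem x)⟩) (mem_univ _) (v := fun j => (L.d j).l x (.inr i))
          (L.un.mono fun j ⟨_, _, un, _⟩ => sg _ i (un.loc x (.inr i)))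
    sv := fun g hg i => by
      have := L.Rl n (v := fun j => (L.d j).u (g j) i - s.ε j (g j) i • (L.d j).t)
        (P.mono fun j h => h.2.2.1 _ (hg j) i)
      rwa [uv, hp.uv_sub, hp.uv_smul] at this
    sp := fun x g hg i => by
      have := L.Rl n (v := fun j => (L.d j).u (g j) i - (b.aa _ (s.Ψ j) (g j) - 1) i ᵥ* (L.d j).m x)
        (P.mono fun j h => h.2.2.2.1 x _ (hg j) i)
      rwa [uv, hp.uv_sub, hp.uv_vm, ← hp.um_row (fun j => b.aa _ (s.Ψ j) (g j) - 1), hp.um_sub,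
        hp.um_one] at this
    fH := fun x => by
      obtain ⟨g, g1, g2⟩ := (HS x.1).1
      have m := (G.mem g).2 g1
      refine L.Us n (mul_mem (G.θH g m) m) (v := fun j => L.f j x) ?_
      filter_upwards [g2, L.un] with j a ⟨k', a', _, e1, _⟩
      refine sg _ x.2 ?_
      rw [Pi.mul_apply, Subgroup.coe_mul, G.th, a (k' x.1) (by rw [a']; rfl), kp_sq, e1]
      exact (sub_eq_zero.2 (rfl : (L.d j).u ((k' x.1).φ ^ 2) x.2 = _)).symm ▸ zero_mem _
    sH := fun x => by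
      obtain ⟨g, g1, g2⟩ := (HS x.1).2
      refine L.Us n ((G.mem g).2 g1) (v := fun j => L.s' j x) ?_
      filter_upwards [g2, L.un] with j a ⟨k', a', _, _, e1, _⟩
      refine ⟨(w j (k' x.1).l (k' x.1).τ • (!![0, -1; 1, 0] * (e.r b.c).map (cj (j + 1))) :
        M2 (Rj (j + 1))) x.2, ?_⟩
      rw [a (k' x.1) (by rw [a']; rfl), e1]
      have : sc b (s.C j) (s.Ψ j) (w j) (k' x.1) (L.d j).u = (w j (k' x.1).l (k' x.1).τ •
          (!![0, -1; 1, 0] * (e.r b.c).map (cj (j + 1)))) * (L.d j).u (k' x.1).τ := by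
        rw [sc, Matrix.smul_mul]
      exact (sub_eq_zero.2 (congrFun this x.2)).symm ▸ zero_mem _
    kr := fun m => by
      rw [L.Rm_eq n]
      exact (hp.uv_mv _ fun j => L.κ j m).symm.trans
        ((hp.uv_ae (L.un.mono fun j ⟨_, _, _, _, _, h⟩ => (h m).1)).trans hp.uv_zero)
    ks := fun m l i h => (dt ((K m l).mono fun j a => a.1 h i)).trans hp.ur.map_zero
    kf := fun m l i h => (dt ((K m l).mono fun j a => a.2.1 h i)).trans hp.ur.map_zero
    r1 := fun m l h => (dt ((K m l).mono fun j a => (a.2.2 h).1)).trans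
      (hp.uv_dot (fun j => L.f j (l, 0)) fun j => L.κ j m).symm
    r0 := fun m l h => (dt ((K m l).mono fun j a => (a.2.2 h).2)).trans ((hp.ur.map_neg _).trans
      (congrArg _ (hp.uv_dot (fun j => L.f j (l, 1)) fun j => L.κ j m).symm))
    dv := fun m => by
      by_cases h : ∃ v, e.Iv 2 v
      swap
      · exact (dvd_of_eq (if_neg h)).trans (one_dvd _)
      have := hp.ur_dvd (a := fun j => 2 * (sd (ds e.δ) (b.φ 2) * s.Ψ j (b.φ 2)) ^ 2 -
          e.a 2 * (sd (ds e.δ) (b.φ 2) * s.Ψ j (b.φ 2)) + if 2 ∣ e.N then 0 else 1)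
        (b := fun j => 2 ^ n * ((L.d j).t ⬝ᵥ L.κ j m)) (by
          filter_upwards [L.un, s.es] with j ⟨k', _, un, _, _, e3⟩ es
          have a := es.dv h _ (inj_im un.inj m) _ rfl
          rw [← ((e3 m).2 _ rfl).2.1, mul_left_comm (2 ^ s.c₀)] at a
          exact ((wt_unit (k := k') (hw j) m).dvd_mul_left.1 a).trans
            (mul_dvd_mul_right (pow_dvd_pow _ hn) _))
      refine (dvd_of_eq ((if_pos h).trans ?_)).trans (this.trans (dvd_of_eq ?_))
      · rw [← map_ofNat hp.ur, ← map_intCast hp.ur, P014T.Lu.Sq.ψ, ← map_pow, ← map_mul, ← map_mul, ← map_sub]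
        split_ifs
        · rw [add_zero]; exact congrArg _ (funext fun j => (add_zero _).symm)
        · rw [← map_one hp.ur, ← map_add]; rfl
      · show _ = 2 ^ n * (uv (fun j => (L.d j).t) ⬝ᵥ uv fun j => L.κ j m)
        rw [hp.uv_dot, ← map_ofNat hp.ur, ← map_pow, ← map_mul]
        rfl }

end Vale.Agent.P004F.Pa.L2
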