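import Vale.Agent.P014T.Lu.St
import Vale.Agent.P014T.Lu.CpGlb
import Vale.Agent.P014T.Lu.CpEta
import Vale.Agent.P014T.Lu.CpLok
import Vale.Agent.P014T.Lu.CpLex
import Vale.Agent.P004F.Kg.Kg

/-! # P014T, block Lu: the divisibility for the second frame -/

set_option linter.all false

namespace Vale.Agent.P004F.Kg.L2

open Matrix PowerSeries Submodule Set Function Module Alg Ch Pat

/-- the system without its numerical data -/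
structure Sz where
  G : Type
  [gG : Group G]
  σ : Type
  [fσ : Fintype σ]
  [dσ : DecidableEq σ]
  γ : Gl La G σ
  θ : G →* G
  θθ : ∀ g, θ (θ g) = g
  nH : γ.H.Normal
  ρH : ∀ h ∈ γ.H, γ.ρ h = 1
  θH : ∀ h ∈ γ.H, θ h ∈ γ.H
  sah : ∃ z, γ.ρ z = -1 ∧ ∀ g, z * g * z⁻¹ * g⁻¹ ∈ γ.H
  spn : ∀ B, (2 : La) ^ γ.c • B ∈ span La (range γ.ρ)
  nis : ∃ g i j, ¬ X ∣ (γ.ρ (θ g) - γ.ρ g) i j
  gen : ∃ g, ∃ a a' : La, γ.ρ g = a • 1 ∧ γ.ρ (θ g) = a' • 1 ∧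
    ∀ π, Prime π → π ∣ a - a' → π ∣ 2 * X
  bv0 : constantCoeff γ.bv ≠ 0
  av : ∃ A : Matrix (Fin 2) (Fin 2) La, (∀ i, A i ∈ Au γ.ρ γ.Dv) ∧ A.det ∣ 2 ^ γ.c * γ.bv
  ap : ∀ x, ∃ E : Matrix (Fin 2) (Fin 2) La, IsUnit E.det ∧ ∀ i, ((γ.N x)ᵀ * E) i ∈ Au γ.ρ (γ.D x)
  gs : Fin 3 → G
  is : Fin 3 → Fin 2
  gv : ∀ k, gs k ∈ γ.Dv
  β : La
  βe : β = det (Matrix.of fun k => Fin.snoc (α := fun _ => La) ((γ.ρ (gs k) - 1) (is k))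
    (γ.e (gs k) (is k)))
  β0 : β ≠ 0
  sep : ∀ π, Prime π → ¬ π ∣ 2 → (∀ x, P004F.Sj π (γ.N x)) ∨
    (¬ π ∣ X ∧ ¬ π ∣ β ∧ ∃ x, (∃ i j, ¬ π ∣ γ.N x i j) ∧ ∀ y, y ≠ x → P004F.Sj π (γ.N y))
  𝒮 : Set (Pk La G σ)
  ok : ∀ p ∈ 𝒮, p.Ok γ
  iso : ∀ π, Prime π → ¬ π ∣ 2 → ∃ η, ¬ π ∣ η ∧ ∀ p ∈ 𝒮, p.Iso γ η
  ext : ∀ p ∈ 𝒮, ∀ h ∈ γ.H, ∃ q ∈ 𝒮, Nonempty (p.Ext γ q (θ h * h))
  o : Pk La G σ
  mem : o ∈ 𝒮
  emp : IsEmpty o.ι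

attribute [instance] Sz.gG Sz.fσ Sz.dσ

variable (S : Sz) (π : La) [hπ : Fact (Prime π)] (h2 : ¬ π ∣ 2)
include h2

theorem cb0 : Cb0 (gm (Lc π) S.γ).ρ S.γ.H S.θ := by
  refine ⟨map_mul _, fun g h a => S.nH.conj_mem h a g, fun h a => by simp [gm, S.ρH h a], S.θH,
    eq_top_iff.2 fun B _ => matrix_eq_sum_single B ▸ sum_mem fun i _ => sum_mem fun j _ => ?_⟩
  have := (span_le (p := ((span (Lc π) (range (gm (Lc π) S.γ).ρ)).restrictScalars La).comap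
    (Algebra.linearMap La (Lc π)).mapMatrix)).2 (by rintro _ ⟨g, rfl⟩; exact subset_span ⟨g, rfl⟩)
    (S.spn (single i j 1))
  obtain ⟨w, hw⟩ := ((two π h2).pow S.γ.c).exists_left_inv
  convert smul_mem _ (B i j * w) (show _ ∈ span (Lc π) _ from this) using 1
  simp [map_ofNat, mul_assoc, hw]

theorem cb (h : ¬ π ∣ X) : ∃ τ u u', Cb (gm (Lc π) S.γ).ρ S.γ.H S.θ τ u u' := by
  obtain ⟨g, a, a', h3, h4, h5⟩ := S.gen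
  refine ⟨g, algebraMap La _ a, algebraMap La _ a', cb0 S π h2, ?_, ?_, ?_⟩
  · ext; simp [gm_ρ, h3, one_apply, apply_ite (algebraMap La (Lc π))]
  · ext; simp [gm_ρ, h4, one_apply, apply_ite (algebraMap La (Lc π))]
  · exact map_sub (algebraMap La (Lc π)) a a' ▸ (Lc.unit π).2 fun e =>
      (hπ.1.dvd_or_dvd (h5 π hπ.1 e)).elim h2 h

theorem sy (d0 : (S.o.Mx S.γ).det ≠ 0) : Sy (gm (Lc π) S.γ) S.θ {q | ∃ p, ∃ h : p ∈ S.𝒮, q = st (Lc π) (S.ok p h)}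
    (st (Lc π) (S.ok _ S.mem)) (algebraMap La _ (S.o.Mx S.γ).det) (algebraMap La _ S.β) where
  cb := cb0 S π h2
  ni := by
    by_cases h : π ∣ X
    · obtain ⟨g, i, j, e⟩ := S.nis
      exact ⟨g, i, j, (map_sub (algebraMap La (Lc π)) _ _ ▸ (Lc.unit π).2 fun e' =>
        e ((hπ.1.associated_of_dvd X_prime h).dvd'.trans e') :)⟩
    · exact (cb S π h2 h).choose_spec.choose_spec.choose_spec.ni
  two := two π h2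
  sah := S.sah.imp fun z h => ⟨by ext; simp [gm_ρ, h.1, one_apply], h.2⟩
  bv := Lc.ne π fun e => S.bv0 (by simp [e])
  av := by
    obtain ⟨A, h3, h4⟩ := S.av
    refine ⟨A.map (algebraMap La _), fun i => au_map _ _ (h3 i), ((two π h2).pow S.γ.c).dvd_mul_left.1 ?_⟩
    have := map_dvd (algebraMap La (Lc π)) h4
    rwa [map_mul, map_pow, map_ofNat, RingHom.map_det] at this
  ap x := by
    obtain ⟨E, h3, h4⟩ := S.ap x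
    exact ⟨E.map (algebraMap La _), (RingHom.map_det (algebraMap La (Lc π)) E ▸ h3.map _ :), fun i =>
      (congrArg (· ∈ _) (congrFun (Matrix.map_mul (f := algebraMap La (Lc π))) i)).mp (au_map _ _ (h4 i))⟩
  be := ⟨S.gs, S.is, S.gv, by
    rw [S.βe, RingHom.map_det]
    congr 1; ext k j
    refine Fin.lastCases ?_ (fun j => ?_) j <;> simp [gm, one_apply, -Fin.reduceLast]⟩
  β0 := Lc.ne π S.β0
  ok := by
    obtain ⟨η, h3, h4⟩ := S.iso π hπ.1 h2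
    rintro _ ⟨p, h, rfl⟩
    exact st_ok _ (h4 p h) ((Lc.unit π).2 h3) (two π h2)
  cl := by
    rintro _ ⟨p, h, rfl⟩ a ha
    obtain ⟨q, h', ⟨E⟩⟩ := S.ext p h a ha
    exact ⟨_, ⟨q, h', rfl⟩, st_ex _ _ E⟩
  mem := ⟨_, S.mem, rfl⟩
  pr := st_pr _
  D0 := Lc.ne π d0

theorem dv (h : ¬ π ∣ X) (d0 : (S.o.Mx S.γ).det ≠ 0) (t0 : S.o.t ⬝ᵥ S.o.κ ∅ ≠ 0) :
    algebraMap La (Lc π) (S.o.Mx S.γ).det ∣
    algebraMap La _ (S.o.t ⬝ᵥ S.o.κ ∅) ^ 2 := by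
  obtain ⟨τ, u, u', B⟩ := cb S π h2 h
  have e := st_κ (O := Lc π) (S.ok _ S.mem) ∅ S.o.t
  have h0 := e ▸ Lc.ne π t0
  rcases S.sep π hπ.1 h2 with s | ⟨-, s, x, ⟨i, j, s1⟩, s2⟩
  · exact e ▸ (sy S π h2 d0).left (Lc.irr π) B h0 fun x => sj π (s x)
  · exact e ▸ (sy S π h2 d0).right (Lc.irr π) B h0 ((Lc.unit π).2 s) (fun y a => sj π (s2 y a))
      ((Lc.unit π).2 s1)

end Vale.Agent.P004F.Kg.L2

namespace Vale.Agent.P014T.Lu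

open Matrix PowerSeries Set Filter Vale.Agent.P004F
open P004F.Pat (U Sy)
open P004F.Pa (ur)

theorem Sq.Lm.tk {e : Crv} {b : Fld e} {s : Sq b} {w : ℕ → ℕ → P022.GQ → ℕ} (L : s.Lm w) :
    L.pk.t ⬝ᵥ L.pk.κ ∅ = ur fun j => s.t j ∅ := by
  refine Eq.trans ?_ (Sy.succ.ur_ae (x := fun j => (L.d j).t ⬝ᵥ L.κ j ∅) (L.un.mono ?_))
  · simp only [Sq.Lm.pk, dotProduct, ← map_mul, ← map_sum]
    exact congrArg _ (funext fun j => by simp only [Finset.sum_apply, Pi.mul_apply]; rfl)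
  · rintro j ⟨k, -, -, -, -, q⟩
    simpa using ((q ∅).2 _ rfl).2.1

theorem dv2 (h2 : GLB) (h3 : LMX) (h4 : LOK) (h5 : LIS) (h6 : LEX) : DV2 := by
  intro e b s
  obtain ⟨n, θ, hn, g⟩ := h2 e b s
  obtain ⟨w, hw, hi⟩ := h5
  obtain ⟨r, d, f, s', κ, un, -⟩ := h3 e b s w hw Empty (fun _ => some fun i => i.elim)
    (.of_forall fun j => ⟨_, rfl, fun i => i.elim⟩)
  let o : s.Lm w := ⟨Empty, r, _, d, f, s', κ, un⟩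
  have ho : IsEmpty o.ι := inferInstanceAs (IsEmpty Empty)
  refine ⟨w, n, o, ho, fun π _ a1 a2 a3 a4 => ?_⟩
  rw [← o.tk] at a4 ⊢
  refine Kg.L2.dv ⟨ℕ → b.Γ, e.σ, s.γ n, θ, g.θθ, g.nH, g.ρH, g.θH, g.sah, g.spn, g.nis, g.gen, g.bv0,
    g.av, g.ap, s.gs, s.is, s.gv, s.β, s.βe, s.β0, s.sep, range Sq.Lm.pk, ?_, fun π a a' => ?_, ?_,
    o.pk, ⟨o, rfl⟩, ho⟩ π a1 a2 a3 a4
  · rintro _ ⟨L, rfl⟩
    exact h4 e b s w n θ hw hn g L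
  · obtain ⟨η, k1, k2⟩ := hi e b s n π a a'
    exact ⟨η, k1, by rintro _ ⟨L, rfl⟩; exact k2 L⟩
  · rintro _ ⟨L, rfl⟩ h hh
    obtain ⟨L', k⟩ := h6 e b s w n θ hw g L h hh
    exact ⟨_, ⟨L', rfl⟩, k⟩

open P004K Pa in
theorem dv2' (r1 : RC1) (r2 : RC2) (ha : ABS) (hl : LGC) (lev : LEV) (pk : PK1) (isl : ISL)
    (hV : VAN) (hT : TWV) (kp : KPX) (ex : EXL) : DV2 :=
  dv2 (L2.glb r1 r2 ha hl) (L2.lmx lev) (L2.lok pk) (L2.lis isl (L2.eta r2 hV hT))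
    (L2.lex pk kp (L2.lmx lev) ex)

end Vale.Agent.P014T.Lu
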