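import Vale.Agent.P014T.Lu.St
import Vale.Agent.P004F.Kg.Kg

/-! # P014 T, block Lu, row EQ1: the main conjecture in the anchored frame -/

set_option linter.all false

open NumberField Matrix Filter PowerSeries Set
open scoped Classical

noncomputable section

namespace Vale.Agent.P014T.Lu

open Vale.Agent.P022 Vale.Agent.P004K Vale.Agent.P004F
open P004F.Pat (U Sy)
open P004F.Pa (ur)
open P004F.Alg (Lc)

namespace E1

theorem n2 {π : La} (hπ : Prime π) (h : map PadicInt.toZMod π ≠ 0) : ¬ π ∣ 2 := by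
  refine map_ofNat (C (R := ℤ_[2])) 2 ▸ Alg.ndvd PadicInt.toZMod two_ne_zero (fun x => ?_) hπ h
  rw [← RingHom.mem_ker, PadicInt.ker_toZMod, PadicInt.maximalIdeal_eq_span_p, Ideal.mem_span_singleton]
  rfl

/-- local divisibility and the degrees give the equality -/
theorem asc {D Θ : La} (hD : map PadicInt.toZMod D ≠ 0)
    (h : ∀ (π : La) [Fact (Prime π)], ¬ π ∣ 2 → ¬ π ∣ X →
      algebraMap La (Lc π) D ∣ algebraMap La (Lc π) Θ ^ 2) {l : ℕ}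
    (h1 : ¬ X ^ (l + 1) ∣ map PadicInt.toZMod Θ) (h2 : X ^ (2 * l) ∣ map PadicInt.toZMod D)
    (h0 : constantCoeff D ≠ 0) : Associated D (Θ ^ 2) := by
  have d : D ∣ Θ ^ 2 := by
    refine (UniqueFactorizationMonoid.dvd_iff_emultiplicity_le (fun e => hD (by simp [e]))).2
      fun π hπ => emultiplicity_le_emultiplicity_iff.2 fun n hn => ?_
    rcases n with _ | n
    · simp
    have a1 : π ∣ D := (dvd_pow_self π n.succ_ne_zero).trans hn
    haveI := Fact.mk hπ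
    refine Lc.pow_dvd π (map_pow (algebraMap _ (Lc π)) Θ 2 ▸ h π (n2 hπ fun e => hD ?_) fun e =>
      h0 (X_dvd_iff.1 ((hπ.associated_of_dvd X_prime e).dvd'.trans a1))) _ hn
    obtain ⟨c, hc⟩ := a1
    simp [hc, e]
  obtain ⟨c, hc⟩ := d
  refine hc ▸ associated_mul_unit_right D c (Pat.rs_unit.2 fun z => h1 ?_)
  have x : X ∣ map PadicInt.toZMod c := X_dvd_iff.2 z
  have : X ^ (2 * l + 1) ∣ PowerSeries.map PadicInt.toZMod Θ ^ 2 := by
    rw [← map_pow, hc, map_mul, pow_succ]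
    exact mul_dvd_mul h2 x
  rw [Alg.X_pow_dvd] at this ⊢
  rw [order_pow] at this
  generalize (PowerSeries.map PadicInt.toZMod Θ).order = o at this
  induction o using ENat.recTopCoe with
  | top => exact le_top
  | coe o =>
    rw [nsmul_eq_mul] at this
    norm_cast at this ⊢
    omega

theorem sys (S : Sys) (R : S.Rk1) : Associated (S.o.Mx S.γ).det ((S.o.t ⬝ᵥ S.o.κ ∅) ^ 2) :=
  asc S.mu (fun π _ h h' => Kg.dv S π h h') S.an S.la (Kg.d0 S X (hπ := ⟨X_prime⟩)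
    (by simp [X_dvd_iff, map_ofNat]) (fun _ => X_dvd_iff) R)

theorem tk {e : Crv} {b : Fld e} {s : Pa.Sq b} {w} (L : s.Lm w) :
    L.pk.t ⬝ᵥ L.pk.κ ∅ = ur fun j => s.t j ∅ := by
  refine Eq.trans ?_ (Sy.succ.ur_ae (x := fun j => (L.d j).t ⬝ᵥ L.κ j ∅) (L.un.mono ?_))
  · simp only [Pa.Sq.Lm.pk, dotProduct, ← map_mul, ← map_sum]
    exact congrArg _ (funext fun j => by simp only [Finset.sum_apply, Pi.mul_apply]; rfl)
  · rintro j ⟨k, -, -, -, -, q⟩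
    simpa using ((q ∅).2 _ rfl).2.1

end E1

theorem eq1 (h2 : Pa.GLB) (h3 : Pa.LMX) (h4 : Pa.LOK) (h5 : Pa.LIS) (h6 : Pa.LEX) (h7 : Pa.NUM)
    (h8 : Pa.RK1) : EQ1 := fun e b s tk => by
  obtain ⟨n, θ, hn, g⟩ := h2 e b s
  obtain ⟨w, hw, hi⟩ := h5
  obtain ⟨r, d, f, s', κ, un, -⟩ := h3 e b s w hw Empty (fun _ => some fun i => i.elim)
    (.of_forall fun j => ⟨_, rfl, fun i => i.elim⟩)
  let o : s.Lm w := ⟨Empty, r, _, d, f, s', κ, un⟩
  have ho : IsEmpty o.ι := inferInstanceAs (IsEmpty Empty)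
  obtain ⟨n1, n2, n3, -⟩ := h7 e b s w n o ho
  refine ⟨w, n, o, ho, n1, E1.tk o ▸ E1.sys ⟨ℕ → b.Γ, e.σ, s.γ n, θ, g.θθ, g.nH, g.ρH, g.θH, g.sah,
    g.spn, g.nis, g.gen, g.bv0, g.av, g.ap, s.gs, s.is, s.gv, s.β, s.βe, s.β0, s.sep,
    range Pa.Sq.Lm.pk, ?_, fun π a a' => ?_, ?_, o.pk, ⟨o, rfl⟩, ho, s.l, n1, n2, n3⟩
    (h8 e b s w n o ho tk)⟩
  · rintro _ ⟨L, rfl⟩
    exact h4 e b s w n θ hw hn g L
  · obtain ⟨η, k1, k2⟩ := hi e b s n π a a'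
    exact ⟨η, k1, by rintro _ ⟨L, rfl⟩; exact k2 L⟩
  · rintro _ ⟨L, rfl⟩ h hh
    obtain ⟨L', k⟩ := h6 e b s w n θ hw g L h hh
    exact ⟨_, ⟨L', rfl⟩, k⟩

end Vale.Agent.P014T.Lu
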