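import Vale.Agent.P014T.Lu.St
import Vale.Agent.P004F.Es.Es

/-! # P014 T, block Lu, row ES2: the two Euler systems -/

set_option linter.all false

open NumberField Matrix PowerSeries Finset
open scoped Classical Pointwise

noncomputable section

namespace Vale.Agent.P014T.Lu

open Vale.Agent.P022 Vale.Agent.P004K Vale.Agent.P004F Vale.Agent.P004F.Es
open Vale.Agent.P022D.W (dec)
open Vale.Agent.P022E.GW (Ov Fb)
open P004M.TE (Pt ga)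
open P004T (ds)
open P004F.Qx (zf Fk Ur FG FR dep op)
open P004F.Ra (sd_mul sd_sq)

namespace E2

section abs

variable {G E R : Type} [Group G] [AddCommGroup E] [DistribMulAction G E] [CommRing R]
  {A A' F : AddSubgroup E} {Γ H : Subgroup G} {g φ : G} {X X' e : E} {U : Finset G} {ψ : G → R}
  {j d : ℕ} {c c' : G → ℕ → ℤ}

theorem sh {n : ℕ} (f : Fr Γ H U ψ) (i : Iv n Γ H A X) (hA : A ≤ F) (he : Fe n F φ d e)
    (hn : (n : R) = 0) (hc : ∀ u ∈ Γ, Co n F φ d e (u • X) (c u)) (hg : g ∈ Γ) {w : R}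
    (hw : w * ψ g = 1) : ∑ u ∈ U, ψ u * c (g * u) 0 = w * ∑ u ∈ U, ψ u * c u 0 := by
  rw [← f.sum (p := fun u => ψ u * c u 0) (fun u hu x hx => ?_) hg, mul_sum]
  · exact sum_congr rfl fun u hu => by
      rw [f.mul g hg u (f.mem u hu), ← mul_assoc, ← mul_assoc, hw, one_mul]
  · obtain ⟨w, hw, e⟩ := i.eq hu hx
    rw [f.psi hu hx, he.uniq hn (hc _ (mul_mem hu (f.le hx))) (e ▸ (hc u hu).add (hA hw)) he.pos]

/-- a relation between the points gives a relation between the values -/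
theorem rel (f : Fr Γ H U ψ) (i : Iv (2 ^ j) Γ H A X) (i' : Iv (2 ^ j) Γ H A' X') (hA : A ≤ F)
    (hA' : A' ≤ F) (he : Fe (2 ^ j) F φ d e) (hn : ((2 ^ j : ℕ) : R) = 0)
    (tf : ∀ y ∈ F, 2 • y = 0 → y = 0) (hc : ∀ u ∈ Γ, Co (2 ^ j) F φ d e (u • X) (c u))
    (hc' : ∀ u ∈ Γ, Co (2 ^ j) F φ d e (u • X') (c' u)) {a a' : G} (ha : a ∈ Γ) (ha' : a' ∈ Γ)
    (hg : g ∈ Γ) (h1 : ψ a * ψ a' = 1) {w : R} (hw : w * ψ g = 1) (p k l s : ℤ)
    (h : ∀ u ∈ Γ, IsOfFinAddOrder ((p • (g * u) • X' + k • (a * g * u) • X' +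
      l • (a * a * g * u) • X') + (-s) • (p • (1 * u) • X + k • (a' * u) • X + l • (a' * a' * u) • X))) :
    w * ((p + k * ψ a' + l * ψ a' ^ 2) * ∑ u ∈ U, ψ u * c' u 0) =
      s * ((p + k * ψ a + l * ψ a ^ 2) * ∑ u ∈ U, ψ u * c u 0) := by
  have m2 := mul_mem ha hg
  have m3 := mul_mem (mul_mem ha ha) hg
  have m4 := mul_mem ha' ha'
  have e1 := sh f i' hA' he hn hc' hg hw
  have e2 := sh f i' hA' he hn hc' m2 (w := ψ a' * w) (by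
    rw [f.mul _ ha _ hg]; linear_combination (w * ψ g) * h1 + hw)
  have e3 := sh f i' hA' he hn hc' m3 (w := ψ a' ^ 2 * w) (by
    rw [f.mul _ (mul_mem ha ha) _ hg, f.mul _ ha _ ha]
    linear_combination (w * ψ g * (ψ a * ψ a' + 1)) * h1 + hw)
  have e4 := sh f i hA he hn hc (one_mem _) (w := 1) (by rw [one_mul, f.one 1 (one_mem _)])
  have e5 := sh f i hA he hn hc ha' h1
  have e6 := sh f i hA he hn hc m4 (w := ψ a ^ 2) (by
    rw [f.mul _ ha' _ ha']; linear_combination (ψ a * ψ a' + 1) * h1)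
  have z : ∑ u ∈ U, ψ u * ((p * c' (g * u) 0 + k * c' (a * g * u) 0 + l * c' (a * a * g * u) 0) -
      s * (p * c (1 * u) 0 + k * c (a' * u) 0 + l * c (a' * a' * u) 0)) = 0 :=
    sum_eq_zero fun u hu => by
      have hu := f.mem u hu
      have q : ∀ {b}, b ∈ Γ → ∀ n : ℤ, n • (b * u) • X ∈ F := fun hb n =>
        zsmul_mem (hA (i.cj (mul_mem hb hu))) n
      have q' : ∀ {b}, b ∈ Γ → ∀ n : ℤ, n • (b * u) • X' ∈ F := fun hb n =>
        zsmul_mem (hA' (i'.cj (mul_mem hb hu))) n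
      have := tor_abs he hn tf (add_mem (add_mem (add_mem (q' hg p) (q' m2 k)) (q' m3 l))
        (zsmul_mem (add_mem (add_mem (q (one_mem _) p) (q ha' k)) (q m4 l)) (-s)))
        (((((hc' _ (mul_mem hg hu)).zsmul p).plus ((hc' _ (mul_mem m2 hu)).zsmul k)).plus
          ((hc' _ (mul_mem m3 hu)).zsmul l)).plus (((((hc _ (mul_mem (one_mem _) hu)).zsmul p).plus
          ((hc _ (mul_mem ha' hu)).zsmul k)).plus ((hc _ (mul_mem m4 hu)).zsmul l)).zsmul (-s)))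
        (h u hu)
      simp only [Pi.add_apply, Pi.smul_apply, smul_eq_mul] at this
      push_cast at this
      linear_combination ψ u * this
  have z' : p * ∑ u ∈ U, ψ u * c' (g * u) 0 + k * ∑ u ∈ U, ψ u * c' (a * g * u) 0 +
      l * ∑ u ∈ U, ψ u * c' (a * a * g * u) 0 - s * (p * ∑ u ∈ U, ψ u * c (1 * u) 0 +
      k * ∑ u ∈ U, ψ u * c (a' * u) 0 + l * ∑ u ∈ U, ψ u * c (a' * a' * u) 0) = 0 := by
    rw [← z]
    simp only [mul_sum, ← sum_add_distrib, ← sum_sub_distrib]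
    exact sum_congr rfl fun u _ => by ring
  rw [e1, e2, e3, e4, e5, e6] at z'
  linear_combination z'

end abs

variable {e : Crv} {b : Fld e}

/-- the Euler system for given data at the place above two -/
theorem core (fg : FG) (r1 : RC1) (gns : GNS) (ty : TYQ) (red : RED) (tow : TOW) (lam : LAM)
    {P : Ideal (𝓞 Qb)} {φ : GQ} (hP : e.P 2 = P) (hφ : b.φ 2 = φ)
    {F C : AddSubgroup (Pt e.A e.B)} {Z : AddSubgroup Qb} (l : L2 P (e.S'.prod ^ 2) F Z)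
    (hC : F ≤ C) {N c₁ c₂ j : ℕ} (odd : Odd N) (hN : ∀ y : Pt e.A e.B, Ur P y →
      ga (φ ^ 2) y = y → Fk P (e.S'.prod ^ 2) ((2 ^ c₂ * N) • y))
    (sp : (∃ v, e.Iv 2 v) → ∀ y : Pt e.A e.B, Ur P y → ∃ (n k : ℕ) (w : Pt e.A e.B), Odd n ∧
      2 ^ k • w = 0 ∧ Ur P w ∧ Fk P (e.S'.prod ^ 2) ((2 ^ c₁ * n) • y - w)) (hj : 0 < j)
    {ι : Pt e.A e.B → Fin 2 → Rj j} (kd : Kd (2 ^ j) C ι (rr e j))
    (i3 : ∀ v : Fin 2 → ℤ_[2], ∃ x, 2 ^ j • x = 0 ∧ ι x = fun i => cj j (v i))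
    (i4 : ∀ k ≤ j, ∀ x, 2 ^ j • x = 0 → (∀ i, ι x i ∈ Ideal.span {(2 : Rj j) ^ k, mj j X}) →
      2 ^ (j - k) • x = 0) {e₀ : Pt e.A e.B} (he : ∀ k, Fe (2 ^ k) F φ (2 ^ (2 * j)) e₀)
    (ex : ∀ y ∈ F, ∀ v ∈ F, φ ^ 2 ^ (2 * j) • y = y + 2 ^ j • v →
      ∃ a, Co (2 ^ j) F φ (2 ^ (2 * j)) e₀ y a) {c : ℕ} {Ψ : GQ → Rj j} (h : b.Chr j c Ψ)
    {U' T : Finset GQ} (fU' : Fr b.Γ (Hk h) U' (ps e Ψ))
    (fT : Fr (Hk h) (Hc b.j (e.δ * c)) T fun _ => (1 : ℤ)) :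
    ∃ κ t m, b.Es (c₁ + c₂) j c Ψ (ee b C ι e₀ (Ψ φ)) κ t m ∧
      ∃ (A : AddSubgroup (Pt e.A e.B)) (cc : GQ → ℕ → ℤ), A ≤ F ∧
      Iv (2 ^ j) b.Γ (Hk h) A (∑ v ∈ T, v • dp b (b.Y (e.δ * c))) ∧
      (∀ u ∈ b.Γ, Co (2 ^ j) F φ (2 ^ (2 * j)) e₀ (u • ∑ v ∈ T, v • dp b (b.Y (e.δ * c))) (cc u)) ∧
      t ∅ = ∑ u ∈ U', ps e Ψ u * cc u 0 := by
  subst hP hφ
  rw [← cd_empty (b := b) (Ψ := Ψ)] at fT
  have σS : ∀ p ∈ e.σ, p ∈ e.S' ∧ p ≠ 2 := fun p hp =>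
    ⟨List.mem_toFinset.1 (mem_filter.1 hp).1, (mem_filter.1 hp).2.1⟩
  choose! K K1 K2 K3 using fun p (hp : p ∈ e.σ) =>
    ex_K1 fg e.par.disc (e.ov p (mem_S'.1 (σS p hp).1).1) (σS p hp).2
  obtain ⟨U, fU⟩ := ex_frm h r1 gns ∅
  have h0 : F ⊓ ⨅ p ∈ e.σ, K p ≤ F := inf_le_left
  have hS : ∀ m : Finset (b.Kp j c Ψ), dp b (b.Y (cd m)) ∈ cor (F ⊓ ⨅ p ∈ e.σ, K p) b.Γ :=
    fun m g hg => by
      haveI := hc_nrm h r1 m
      have := b.qx _ (cd_pos h m) (cd_cop h m) g hg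
      exact ⟨(l.mem _).2 ⟨this 2 two_S', ur_fx h r1 ty (fx_smul g (fx_op dep_op (Y_fx h m)))⟩,
        AddSubgroup.mem_iInf.2 fun p => AddSubgroup.mem_iInf.2 fun hp =>
          (K1 p hp _).2 (this p (σS p hp).1).1⟩
  have hF := h0.trans hC
  choose! cc hc using fun M => ex_co h r1 ty hS fU hj h0 fU' fT ex (M := M)
  choose μ hμ using fun M (p : e.σ) => exists_imp_of_imp_exists fun hM =>
    kk_sp h r1 ty hS hF kd fU (M := M) hM (mem_S'.1 (σS p p.2).1).1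
      (inf_le_right.trans (biInf_le _ p.2)) (K2 p p.2) (K3 p p.2)
  have h1 : b.Inj (∅ : Finset (b.Kp j c Ψ)) := fun _ a => absurd a (notMem_empty _)
  refine ⟨kk C ι U, fun M => ∑ u ∈ U', ps e Ψ u * cc M u 0, μ, ⟨
    ee_coc h r1 gns ty l he kd hC hj, ee_lc he kd hC _, fun a k hk s v hs => ?_,
    fun M hM => ⟨kk_cc h r1 ty hS hF kd fU red hM,
      fun g => kk_sv h r1 ty hS kd fU gns l he h0 fU' fT hM (hc M hM) hC, fun p => hμ M p hM⟩,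
    fun M hM k => kk_kf h r1 ty hS hF kd fU red hM, fun M k => kk_rel h r1 ty hS hF kd fU red,
    fun a M hM ψ hψ => ?_,
    fun χ a n => t_an h r1 ty hS fU l he hj h0 fU' fT (hc _ h1) lam χ a,
    t_tor h r1 ty hS fU l he h0 fU' fT (hc _ h1) tow⟩, _, cc ∅, cor_le.trans h0,
    XX_empty (b := b) (Ψ := Ψ) ▸ iv_tr h r1 ty hS fU fU' fT h1,
    XX_empty (b := b) (Ψ := Ψ) ▸ hc _ h1, rfl⟩
  · rw [pow_add, mul_assoc]
    exact (ee_free h r1 gns ty l he kd hC hj odd hN i3 i4 a hk s v hs).mul_left _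
  · rw [hψ, mul_comm (sd _ _ : Rj j), add_comm c₁, pow_add, mul_assoc]
    exact (t_dv h r1 ty hS fU gns l he hj h0 fU' fT ex hM (hc M hM) (sp a)).mul_left _

theorem op_eq (N : ℕ) (a : ℕ → ℤ) (p : ℕ) (φ : GQ) (y : Pt e.A e.B) : op N a p φ y =
    (p : ℤ) • y + (-a p) • φ • y + (if p ∣ N then 0 else 1 : ℤ) • φ • φ • y := by
  rw [natCast_zsmul, neg_zsmul, ← sub_eq_add_neg, ← mul_smul]
  unfold op
  split
  · rw [zero_zsmul]; rfl
  · rw [one_zsmul]; rfl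

/-- the depletion away from `p` -/
def dq (b : Fld e) (p : ℕ) : AddMonoid.End (Pt e.A e.B) :=
  (e.w * e.S'.prod) • ((e.S'.erase p).map fun q => op e.N e.a q (b.φ q)).prod

theorem dq_op (p : ℕ) : dq b p ∈ Op (Pt e.A e.B) b.Γ :=
  nsmul_mem (Subring.list_prod_mem _ (ops_op fun p h => (mem_S'.1 (List.mem_of_mem_erase h)).1)) _

theorem dq_eq {p : ℕ} (hp : p ∈ e.S') {N : Subgroup GQ} [N.Normal] (cm : Cm b.Γ N)
    {y : Pt e.A e.B} (hy : y ∈ Fx _ N) : dp b y = op e.N e.a p (b.φ p) (dq b p y) := by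
  have := cm.perm ((List.perm_cons_erase hp).map fun p => op e.N e.a p (b.φ p))
    (ops_op fun p h => (mem_S'.1 h).1) hy
  exact (congrArg ((e.w * e.S'.prod) • ·) this).trans (map_nsmul (op e.N e.a p (b.φ p)) _ _).symm

theorem dq_fl {p : ℕ} (f : Fp b p) : dq f.b' p = dq b p :=
  congrArg (fun L : List (AddMonoid.End (Pt e.A e.B)) => (e.w * e.S'.prod) • L.prod)
    (List.map_congr_left fun q hq => congrArg (op e.N e.a q)
      (f.φq q (((e.nd.filter _).mem_erase_iff).1 hq).1))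

/-- the relation between the depleted points -/
theorem pts {p : ℕ} (f : Fp b p) (hp : p ∈ e.S') {N : Subgroup GQ} [N.Normal] (cm : Cm b.Γ N)
    {y y' C : Pt e.A e.B} (hy : y ∈ Fx _ N) (hy' : y' ∈ Fx _ N) {g : GQ} (hg : g ∈ b.Γ) {s : ℤ}
    (hC : IsOfFinAddOrder C) (h : g • y' = s • y + C) {T : Finset GQ} (hT : ∀ v ∈ T, v ∈ b.Γ)
    {u : GQ} (hu : u ∈ b.Γ) {l : ℤ} (hl : l = if p ∣ e.N then 0 else 1) {X X' : Pt e.A e.B}
    (hX : X = ∑ v ∈ T, v • dp b y) (hX' : X' = ∑ v ∈ T, v • dp f.b' y') :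
    IsOfFinAddOrder (((p : ℤ) • (g * u) • X' + (-e.a p) • (b.φ p * g * u) • X' +
      l • (b.φ p * b.φ p * g * u) • X') + (-s) • ((p : ℤ) • (1 * u) • X +
        (-e.a p) • (f.φ p * u) • X + l • (f.φ p * f.φ p * u) • X)) := by
  have pS := (mem_S'.1 hp).1
  have o1 : op e.N e.a p (b.φ p) ∈ Op (Pt e.A e.B) b.Γ := op_op pS
  have o2 : op e.N e.a p (f.φ p) ∈ Op (Pt e.A e.B) b.Γ := op_op (b := f.b') pS
  let D : AddMonoid.End (Pt e.A e.B) := ge _ u * ∑ v ∈ T, ge _ v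
  have oD : D ∈ Op (Pt e.A e.B) b.Γ := mul_mem (ge_op hu) (sum_mem fun v hv => ge_op (hT v hv))
  have eD : ∀ z, D z = u • ∑ v ∈ T, v • z := fun z =>
    congrArg (u • ·) (AddMonoidHom.finset_sum_apply (fun v => ge (Pt e.A e.B) v) T z)
  have f1 := fx_op (dq_op (b := b) p) hy
  have f2 := fx_op (dq_op (b := b) p) hy'
  have k1 : u • X = D (op e.N e.a p (b.φ p) (dq b p y)) := by rw [eD, hX, dq_eq hp cm hy]
  have k2 : u • X' = D (op e.N e.a p (f.φ p) (dq b p y')) := by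
    rw [eD, hX', dq_eq (b := f.b') hp cm hy', dq_fl]
  have k3 : g • u • X' = D (op e.N e.a p (f.φ p) (dq b p (s • y + C))) := by
    rw [k2, ← cm.op1 oD hg (fx_op o2 f2), ← cm.op1 o2 hg f2, ← cm.op1 (dq_op p) hg hy', h]
  have := (op e.N e.a p (b.φ p) * D * op e.N e.a p (f.φ p) * dq b p).isOfFinAddOrder hC
  convert this using 1
  simp only [mul_smul, one_smul, hl]
  rw [← op_eq, ← op_eq, k3, k1]
  simp only [map_add, map_zsmul, AddMonoid.End.coe_mul, Function.comp_apply]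
  rw [cm.op o2 oD (fx_op o1 f1), cm.op o2 o1 f1, ← cm.op o1 oD (fx_op o2 f1), neg_zsmul]
  abel

theorem ee_fl {p j : ℕ} (f : Fp b p) (h : p ≠ 2) (C : AddSubgroup (Pt e.A e.B))
    (ι : Pt e.A e.B → Fin 2 → Rj j) (e₀ : Pt e.A e.B) : ee f.b' C ι e₀ = ee b C ι e₀ := by
  funext a g
  unfold ee
  rw [show f.b'.φ 2 = b.φ 2 from f.φq 2 h.symm]

end E2

open E2

/-- **the two Euler systems** -/
theorem es2 (al : ALY) (fg : FG) (fr : FR) (idx : P004F.IDX) (spl : SPL) (r1 : RC1) (gns : GNS)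
    (ty : TYQ) (red : RED) (coo : COO) (tow : TOW) (lam : LAM) : ES2 := fun e b p f hp p2 => by
  obtain ⟨g, hg, s, C', hs, hC', al⟩ := al e b p f (mem_S'.1 hp).1 p2
  obtain ⟨F, Z, l⟩ := ex_l2 fg e.par.disc (ov2 e) (kap_ne (e := e)) kap_two
  obtain ⟨C, hC, ud⟩ := ex_ud (P004M.TE.dbl_surj two_ne_zero (hq e.par.disc)) l.tf
  obtain ⟨N, N0, hN⟩ := idx _ _ e.par.disc _ _ (ov2 e) (fb2 b) _ 2 (kap_ne (e := e)) two_ne_zero
  obtain ⟨c₂, N, odd, rfl⟩ := Nat.exists_eq_two_pow_mul_odd N0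
  obtain ⟨c₁, sp⟩ := exists_imp_of_imp_exists fun h => spl e h _ (kap_ne (e := e))
  refine ⟨c₁ + c₂, fun j hj => ?_⟩
  obtain ⟨ι, i1, i2, i3, i4⟩ := coo e j
  obtain ⟨e₀, he, ex⟩ := l.gen fr e.par.disc (ov2 e) kap_ne kap_two (fb2 b)
    (f := 2 ^ (2 * j)) (by positivity)
  have kd : Kd (2 ^ j) C ι (rr e j) := ⟨ud.pow j, fun x a y => i1 x y a, i2⟩
  refine ⟨ee b C ι e₀, fun c Ψ h => ?_⟩
  obtain ⟨⟨U', fU'⟩, T, fT⟩ := ex_frk h r1 gns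
  rw [cd_empty] at fT
  have P2 : f.P 2 = e.P 2 := f.Pq 2 p2.symm
  obtain ⟨κ, t, m, a1, A, cc, a2, a3, a4, a5⟩ :=
    core fg r1 gns ty red tow lam rfl rfl l hC odd hN sp hj kd i3 i4 he (ex j) h fU' fT
  obtain ⟨κ', t', m', b1, A', cc', b2, b3, b4, b5⟩ :=
    core (b := f.b') fg r1 gns ty red tow lam P2 (f.φq 2 p2.symm) l hC odd hN
      (fun ⟨v, hv⟩ => sp ⟨v, hv.1, P2 ▸ hv.2⟩) hj kd i3 i4 he (ex j) (f.chr h) fU' fT
  rw [ee_fl f p2] at b1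
  haveI := hc_nrm h r1 ∅
  have cm : Cm b.Γ (Hc b.j (cd (∅ : Finset (b.Kp j c Ψ)))) := (r1 _ b.j b.iq _ (cd_pos h ∅)).2.2.2.1
  have pS := (mem_S'.1 hp).1
  have m1 : b.φ p ∈ b.Γ := b.ch.mem p pS
  have h1 : ps e Ψ (b.φ p) * ps e Ψ (f.φ p) = 1 := by
    rw [← ps_mul h _ m1 _ (f.ch.mem p pS), f.φp]
    refine fU'.one _ (hc_hk h r1 gns ?_)
    have := (ty e b).2.1 (b.φ p * b.c) (fun a => Ra.c_out b ((mul_mem_cancel_left m1).1 a)) _ (cd_pos h ∅)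
    rwa [mul_assoc, ← mul_assoc b.c] at this
  have h2 : ps e Ψ g⁻¹ * ps e Ψ g = 1 := by
    rw [← ps_mul h _ (inv_mem hg) _ hg, inv_mul_cancel, fU'.one 1 (one_mem _)]
  have y1 := Y_fx h ∅
  have y2 := Y_fx (f.chr h) ∅
  have cp := cd_cop h ∅
  have c0 := cd_pos h ∅
  rw [cd_empty] at cp c0
  have k := rel fU' a3 b3 a2 b2 (he j) (hn j) l.tf a4 b4 m1 (f.ch.mem p pS) hg h1 h2 p (-e.a p) _ s
    fun u hu => pts f hp cm (cd_empty (b := b) (Ψ := Ψ) ▸ y1) (cd_empty (b := f.b') (Ψ := Ψ) ▸ y2) hg hC'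
      (al _ c0 (cp.coprime_dvd_right (mul_dvd_mul_left _ (List.dvd_prod hp))))
      (fun v hv => fU'.le (fT.mem v hv)) hu rfl rfl rfl
  have us : IsUnit (s : Rj j) := by
    rcases hs with rfl | rfl
    exacts [Int.cast_one (R := Rj j) ▸ isUnit_one, (Int.isUnit_iff.2 (.inr rfl)).map (Int.castRingHom _)]
  refine ⟨κ, t, m, κ', t', m', a1, b1, ps e Ψ g * s, (IsUnit.of_mul_eq_one_right _ h2).mul us, ?_⟩
  rw [← a5, ← show t' ∅ = ∑ u ∈ U', ps e Ψ u * cc' u 0 from b5] at k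
  have x1 : ∀ g, xs e Ψ g = ps e Ψ g := fun g => mul_comm _ _
  rw [x1, x1, Ea, Ea]
  split_ifs at k ⊢ <;> push_cast at k
  · linear_combination ps e Ψ g * k - ((p - e.a p * ps e Ψ (f.φ p)) * t' ∅) * h2
  · linear_combination ps e Ψ g * k -
      ((p - e.a p * ps e Ψ (f.φ p) + ps e Ψ (f.φ p) ^ 2) * t' ∅) * h2

end Vale.Agent.P014T.Lu
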