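import Vale.Agent.P014T.Lu.Tam

/-! # P014 T, block Lu: the row FIN -/

set_option linter.all false

open NumberField Matrix PowerSeries

noncomputable section

namespace Vale.Agent.P014T.Lu

open Vale.Agent.P022 Vale.Agent.P004K Vale.Agent.P004F
open Vale.Agent.P027M.S (Inert)

namespace Fi

theorem co {R : Type} [CommRing R] [IsDomain R] {a b c d x y z w s t α q : R}
    (n1 : x * x + y * z = 0) (n2 : x * y + y * w = 0) (n3 : z * x + w * z = 0)
    (n4 : z * y + w * w = 0) (n0 : ¬ (x = 0 ∧ y = 0 ∧ z = 0 ∧ w = 0))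
    (k1 : x * s + y * t = 0) (k2 : z * s + w * t = 0) (v1 : a * s + b * t = α * s)
    (v2 : c * s + d * t = α * t) (v0 : s ≠ 0 ∨ t ≠ 0)
    (f1 : a * x + b * z = q * (x * a + y * c)) (f2 : a * y + b * w = q * (x * b + y * d))
    (f3 : c * x + d * z = q * (z * a + w * c)) (f4 : c * y + d * w = q * (z * b + w * d))
    (h : a * d - b * c = q) : α * α = q * q ∧ α * (a + d - α) = q := by
  have u : ∀ r : R, r * s = 0 → r * t = 0 → r = 0 := fun r h1 h2 =>
    v0.elim (fun k => (mul_eq_zero.1 h1).resolve_right k) fun k =>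
      (mul_eq_zero.1 h2).resolve_right k
  have tr : w = -x := by
    by_contra k
    have k' : x + w ≠ 0 := fun e => k (by linear_combination e)
    have y0 : y = 0 := (mul_eq_zero.1 (show (x + w) * y = 0 by linear_combination n2)).resolve_left k'
    have z0 : z = 0 := (mul_eq_zero.1 (show (x + w) * z = 0 by linear_combination n3)).resolve_left k'
    have x0 : x = 0 := mul_self_eq_zero.1 (by linear_combination n1 - z * y0)
    have w0 : w = 0 := mul_self_eq_zero.1 (by linear_combination n4 - z * y0)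
    exact k' (by rw [x0, w0, add_zero])
  subst tr
  have e1 : a * x + b * z - α * x = 0 :=
    u _ (by linear_combination x * v1 + b * k2) (by linear_combination z * v1 - (a - α) * k2)
  have e2 : a * y - b * x - α * y = 0 :=
    u _ (by linear_combination y * v1 - b * k1) (by linear_combination (a - α) * k1 - x * v1)
  have e3 : c * x + d * z - α * z = 0 :=
    u _ (by linear_combination x * v2 + (d - α) * k2) (by linear_combination z * v2 - c * k2)
  have e4 : c * y - d * x + α * x = 0 :=
    u _ (by linear_combination y * v2 - (d - α) * k1) (by linear_combination c * k1 - x * v2)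
  refine ⟨?_, ?_⟩
  · by_contra k
    have k' : α * α - q * q ≠ 0 := sub_ne_zero.2 k
    have x0 : x = 0 := (mul_eq_zero.1 (show (α * α - q * q) * x = 0 by
      linear_combination α * e4 + d * (f1 - e1) - c * (f2 - e2) + q * x * h)).resolve_left k'
    have y0 : y = 0 := (mul_eq_zero.1 (show (α * α - q * q) * y = 0 by
      linear_combination -α * e2 + a * (f2 - e2) - b * (f1 - e1) + q * y * h)).resolve_left k'
    have z0 : z = 0 := (mul_eq_zero.1 (show (α * α - q * q) * z = 0 by
      linear_combination -α * e3 + d * (f3 - e3) - c * (f4 - e4) + q * z * h)).resolve_left k'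
    exact n0 ⟨x0, y0, z0, by rw [x0, neg_zero]⟩
  · have := u ((a - α) * (d - α) - b * c) (by linear_combination (d - α) * v1 - b * v2)
      (by linear_combination (a - α) * v2 - c * v1)
    linear_combination h - this

/-- the eigenvalue on the fixed line -/
theorem eig {R : Type} [CommRing R] [IsDomain R] {A V : M2 R} {p : ℕ} {v : Fin 2 → R} {α : R}
    (p0 : (p : R) ≠ 0) (u : (V - 1) ^ 2 = 0) (V1 : V ≠ 1) (h : A * V = V ^ p * A) (d : A.det = p)
    (v0 : v ≠ 0) (hv : V *ᵥ v = v) (hA : A *ᵥ v = α • v) :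
    ∃ β : R, (β = 1 ∨ β = -1) ∧ α = β * p ∧ A.trace = β * (p + 1) := by
  obtain ⟨N, rfl⟩ : ∃ N, V = 1 + N := ⟨V - 1, by abel⟩
  rw [Pa.Lv.unip u, add_sub_cancel_left, mul_add, add_mul, mul_one, one_mul, add_right_inj,
    smul_mul_assoc] at h
  rw [add_sub_cancel_left, sq] at u
  rw [add_mulVec, one_mulVec, add_eq_left] at hv
  have q := fun i j => congrFun (congrFun u i) j
  have r := fun i j => congrFun (congrFun h i) j
  have k := congrFun hv
  have l := congrFun hA
  simp only [mul_apply, Fin.sum_univ_two, Matrix.zero_apply, Matrix.smul_apply, mulVec, dotProduct,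
    Pi.zero_apply, Pi.smul_apply, smul_eq_mul, nsmul_eq_mul] at q r k l
  obtain ⟨a1, a2⟩ := co (q 0 0) (q 0 1) (q 1 0) (q 1 1)
    (fun z => V1 (by
      rw [add_eq_left]
      ext i j
      fin_cases i <;> fin_cases j
      exacts [z.1, z.2.1, z.2.2.1, z.2.2.2])) (k 0) (k 1) (l 0) (l 1)
    (by
      by_contra z
      rw [not_or, not_not, not_not] at z
      exact v0 (funext fun i => by fin_cases i; exacts [z.1, z.2]))
    (r 0 0) (r 0 1) (r 1 0) (r 1 1) (by rwa [det_fin_two] at d)
  rw [trace_fin_two]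
  rcases mul_self_eq_mul_self_iff.1 a1 with rfl | rfl
  · exact ⟨1, .inl rfl, (one_mul _).symm, mul_left_cancel₀ p0 (by linear_combination a2)⟩
  · exact ⟨-1, .inr rfl, (neg_one_mul _).symm, mul_left_cancel₀ p0 (by linear_combination -a2)⟩

theorem dv {π : La} (hπ : Prime π) (h2 : ¬ π ∣ 2) {c : ℤ_[2]} (h : π ∣ C c) : c = 0 := by
  by_contra c0
  rw [PadicInt.unitCoeff_spec c0, map_mul, map_pow, map_natCast] at h
  exact (hπ.dvd_or_dvd h).elim
    (fun k => hπ.not_unit (isUnit_of_dvd_unit k ((Units.isUnit _).map C)))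
    fun k => h2 (by exact_mod_cast hπ.dvd_of_dvd_pow k)

theorem ea (N : ℕ) (a : ℕ → ℤ) (p : ℕ) (x : La) (α : ℤ_[2]) :
    x - C α ∣ Ea N a p x - C (Ea N a p α) := by
  unfold Ea
  split_ifs
  · exact ⟨-a p, by simp; ring⟩
  · exact ⟨x + C α - a p, by simp; ring⟩

theorem z2 {β : ℤ_[2]} (hβ : β = 1 ∨ β = -1) : PadicInt.toZMod β = 1 := by
  rcases hβ with rfl | rfl
  · exact map_one _
  · rw [map_neg, map_one]; rfl

/-- the power series part -/
theorem ky {N : ℕ} {a : ℕ → ℤ} {p : ℕ} (hp : p.Prime) (h2 : p ≠ 2) {β : ℤ_[2]}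
    (hβ : β = 1 ∨ β = -1) {x x' : La} (hx : x * x' = 1)
    (h0 : constantCoeff x = 1 ∨ constantCoeff x = -1)
    (h1 : PowerSeries.map PadicInt.toZMod (x - 1) ≠ 0) (K : Ky N a p (β * (p + 1)) x x') :
    Ea N a p (β * p) = 0 := by
  have bb : (C β : La) * C β = 1 := by
    rw [← map_mul]
    rcases hβ with rfl | rfl <;> simp
  have zp : (p : ZMod 2) = 1 := by
    obtain ⟨k, rfl⟩ := hp.odd_of_ne_two h2
    push_cast
    rw [show (2 : ZMod 2) = 0 from rfl, zero_mul, zero_add]
  have m : ∀ c : ℤ_[2], PadicInt.toZMod c = 1 →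
      PowerSeries.map PadicInt.toZMod (x - C c) ≠ 0 := fun c hc => by
    rwa [map_sub, map_C, hc, map_one, ← map_one (PowerSeries.map PadicInt.toZMod), ← map_sub]
  have mq := m (β * p) (by rw [map_mul, z2 hβ, map_natCast, zp, one_mul])
  have q0 : x - C (β * p) ≠ 0 := fun e => mq (by rw [e, map_zero])
  have p1 : (1 : ℤ_[2]) - p * p ≠ 0 := fun e => by
    have : p * p = 1 := by exact_mod_cast (sub_eq_zero.1 e).symm
    exact hp.ne_one (Nat.eq_one_of_mul_eq_one_right this)
  have c0 : constantCoeff (x - C (β * p)) ≠ 0 := fun e => p1 (by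
    rw [map_sub, constantCoeff_C, sub_eq_zero] at e
    rcases h0 with k | k <;> rcases hβ with rfl | rfl <;> rw [k] at e
    · linear_combination (1 + (p : ℤ_[2])) * e
    · linear_combination (1 - (p : ℤ_[2])) * e
    · linear_combination ((p : ℤ_[2]) - 1) * e
    · linear_combination -(1 + (p : ℤ_[2])) * e)
  have nu : ¬ IsUnit (x - C (β * p)) := fun u => by
    have := (u.map constantCoeff).map (PadicInt.toZMod (p := 2))
    rw [map_sub, constantCoeff_C, map_sub, z2 h0, map_mul, z2 hβ, map_natCast, zp, one_mul,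
      sub_self] at this
    exact not_isUnit_zero this
  obtain ⟨π, i, hq⟩ := WfDvdMonoid.exists_irreducible_factor nu q0
  have hπ : Prime π := UniqueFactorizationMonoid.irreducible_iff_prime.1 i
  have n2 : ¬ π ∣ 2 := by
    refine map_ofNat (C : ℤ_[2] →+* La) 2 ▸ Alg.ndvd (PadicInt.toZMod (p := 2)) two_ne_zero
      (fun y => ?_) hπ fun e => mq ?_
    · rw [← RingHom.mem_ker, PadicInt.ker_toZMod, PadicInt.maximalIdeal_eq_span_p,
        Ideal.mem_span_singleton, Nat.cast_ofNat]
    · obtain ⟨y, hy⟩ := hq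
      rw [hy, map_mul, e, zero_mul]
  have nX : ¬ π ∣ X := fun e =>
    c0 (X_dvd_iff.1 ((i.associated_of_dvd X_irreducible e).symm.dvd.trans hq))
  have ux : IsUnit (x' * x') := (IsUnit.of_mul_eq_one_right x hx).mul (.of_mul_eq_one_right x hx)
  have := K π (x - C (β * p)) (p * x - C β) (x - C β) hπ n2 nX
    (fun e => m β (z2 hβ) (by rw [e, map_zero])) q0
    (.of_eq (by
      simp only [Qa, map_mul, map_add, map_natCast, map_one]
      linear_combination -(p : La) * bb))
    (by
      have : Qa (β * (p + 1)) p x' = (x - C β) * (p * x - C β) * (x' * x') := by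
        simp only [Qa, map_mul, map_add, map_natCast, map_one]
        linear_combination -(x' * x') * bb +
          (C β * (p + 1) * x' - p * (x * x' + 1)) * hx
      rw [this]
      exact associated_mul_unit_left _ _ ux) hq
    (fun e => p1 (by
      have k := dv hπ n2 (c := β * (1 - p * p)) (by
        have := (hq.mul_left p).sub e
        refine this.trans (Dvd.intro 1 ?_)
        simp only [map_mul, map_sub, map_natCast, map_one]
        ring)
      exact (mul_eq_zero.1 k).resolve_left (by rcases hβ with rfl | rfl <;> simp)))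
  refine dv hπ n2 ?_
  simpa using this.sub (hq.trans (ea N a p x _))

end Fi

theorem fin : FIN := by
  intro e b p x x' hx h0 h1 K v α v0 hv ⟨g, hg, g1⟩ hA
  classical
  have s := Finset.mem_filter.1 p.2
  have m : (p : ℕ) ∈ e.S := (List.mem_filter.1 (List.mem_toFinset.1 s.1)).1
  have o := e.ov p m
  have t1 : e.r (e.τ p) ≠ 1 := fun k => g1 ((En.uni_row e p p.2 g hg).2 k)
  have i := (e.gn p m s.2.1).1
  obtain ⟨β, hβ, rfl, t⟩ := Fi.eig (Nat.cast_ne_zero.2 o.1.ne_zero) (En.uni_row e p p.2 _ i).1 t1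
    (tam e b p) (En.cv_det e ((En.ep_fb (r := e.rp) (En.rep_bad _) o s.2.1
      (b.ch.frb p m)).trans (PadicInt.coe_natCast _).symm)) v0 (hv _ i) hA
  exact Fi.ky o.1 s.2.1 hβ hx h0 (h1 t1) (t ▸ K)

end Vale.Agent.P014T.Lu
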