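import Vale.Agent.P014T.Lu.St
import Vale.Agent.P004F.All0

/-! # P014 T, block Lu: the row FLIP -/

set_option linter.all false

open NumberField Polynomial
open scoped NumberTheorySymbols Classical Pointwise

noncomputable section

namespace Vale.Agent.P014T.Lu

open Vale.Agent.P022 Vale.Agent.P004K Vale.Agent.P004F P004K.Rc
open Vale.Agent.P022D.W (dec)
open Vale.Agent.P022E.GW (Ov Fb Gn)
open P004F.Qx (Sp Ch)
open Function (update update_self update_of_ne)

open Fd in
theorem flip0 (hh : HEEG) (hq : Qx.QEXP) : FLIP := fun e q c hq0 q2 hc => by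
  have ci : c⁻¹ = c := inv_eq_of_mul_eq_one_right (P004R.Mu.kk hc)
  obtain ⟨P, hP⟩ : ∃ P, P = update e.P q (c • e.P q) := ⟨_, rfl⟩
  have Pq : P q = c • e.P q := by rw [hP, update_self]
  have Pn : ∀ p ≠ q, P p = e.P p := fun p h => by rw [hP, update_of_ne h]
  have ov : ∀ p ∈ e.S, Ov p (P p) := fun p h => by
    by_cases z : p = q
    · rw [z, Pq]
      exact P004S.Gl.ov_smul (e.ov q hq0) c
    · rw [Pn p z]
      exact e.ov p h
  have sub : ∀ p ∈ e.S', p ∈ e.S := fun p hp => List.mem_of_mem_filter hp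
  obtain ⟨u0, hu0, s0, a0, a1, hT⟩ := hq _ _ _ _ _ _ _ _ _ _ e.rn e.par e.S' (e.nd.filter _)
    fun p hp => (ov p (sub p hp)).1
  obtain ⟨T, hT⟩ := hT P fun p hp => (ov p (sub p hp)).2
  refine ⟨T, fun b bc hδ => ?_⟩
  subst bc
  obtain ⟨φ, hf⟩ : ∃ φ, φ = update b.φ q (b.c * b.φ q * b.c) := ⟨_, rfl⟩
  have fq : φ q = b.c * b.φ q * b.c := by rw [hf, update_self]
  have fn : ∀ p ≠ q, φ p = b.φ p := fun p h => by rw [hf, update_of_ne h]
  have hφ : ∀ p ∈ e.S, Fb p (P p) (φ p) := fun p h => by
    by_cases z : p = q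
    · rw [z, Pq, fq]
      simpa only [ci] using Pa.Lv.fb_cj (b.ch.frb q hq0) b.c
    · rw [Pn p z, fn p z]
      exact b.ch.frb p h
  have N0 : e.N ≠ 0 := fun z => by
    have := e.ok.cop
    rw [z, Nat.coprime_zero_left] at this
    exact e.ok.one.ne' this
  have inS (p : ℕ) (hp : p.Prime) (d : p ∣ e.N * e.δ) : p ∈ e.S :=
    by_contra fun a => (e.bad p hp a).1 d
  obtain ⟨η, s, β, n, g, e1, e2, dn, hp⟩ := ex_ge b.iq b.adm.sq b.adm.m8 b.th b.im e.S.toFinset P
    (fun p hp => ov p (List.mem_toFinset.1 hp)) (fun p hp => b.adm.spl p (List.mem_toFinset.1 hp))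
    (4 * e.N)
  simp only [List.mem_toFinset] at hp
  have R0 : ∏ p ∈ e.S.toFinset, p ≠ 0 :=
    Finset.prod_ne_zero_iff.2 fun p hp => (ov p (List.mem_toFinset.1 hp)).1.ne_zero
  have dR (p) (h : p ∈ e.S) : p ∣ ∏ p ∈ e.S.toFinset, p :=
    Finset.dvd_prod_of_mem _ (List.mem_toFinset.2 h)
  have d4 : ((4 * e.N : ℕ) : ℤ) ∣ n := by
    refine .trans ?_ ((pow_dvd_pow _ (Nat.le_succ _)).trans dn)
    exact_mod_cast (Nat.dvd_pow_self_iff (by omega) R0).2 fun p a => by
      obtain ⟨a1, a2, -⟩ := Nat.mem_primeFactors.1 a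
      refine Nat.mem_primeFactors.2 ⟨a1, dR p ?_, R0⟩
      rcases (Nat.Prime.dvd_mul a1).1 a2 with z | z
      · rw [(Nat.prime_dvd_prime_iff_eq a1 Nat.prime_two).1 (a1.dvd_of_dvd_pow (n := 2) z)]
        exact e.two
      · exact inS p a1 (z.mul_right _)
  have cN : IsCoprime β (e.N : ℤ) := Int.isCoprime_iff_gcd_eq_one.2
    (Nat.eq_one_iff_not_exists_prime_dvd.2 fun p a d => (hp p (inS p a ((Int.natCast_dvd_natCast.1
      ((Int.natCast_dvd_natCast.2 d).trans (Int.gcd_dvd_right _ _))).mul_right _))).2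
        ((Int.natCast_dvd_natCast.2 d).trans (Int.gcd_dvd_left _ _)))
  have cp (p) (h : p ∈ e.S) : IsCoprime β (p : ℤ) :=
    ((Nat.prime_iff_prime_int.1 (ov p h).1).irreducible.coprime_iff_not_dvd.2 (hp p h).2).symm
  have le (p) (h : p ∈ e.S) := g.dec (ov p h) (hp p h).1 (hp p h).2
  have ch (S : List ℕ) (hS : ∀ p ∈ S, p ∈ e.S) : Ch b.j e.N (Ideal.span {(e.N : 𝓞 b.K), η})
      (Ideal.span {(e.N : 𝓞 b.K), s η}) S P (fun p => Ideal.span {(p : 𝓞 b.K), s η}) φ :=
    ⟨g.sp cN ((Int.natCast_dvd_natCast.2 (dvd_mul_left _ _)).trans d4), fun p h => by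
      rw [g.below (ov p (hS p h)) (hp p (hS p h)).1]
      exact g.sp (cp p (hS p h)) ((Int.natCast_dvd_natCast.2 (dR p (hS p h))).trans
        ((dvd_pow_self _ (Nat.succ_ne_zero _)).trans dn)), fun p h => by
      rw [g.below (ov p (hS p h)) (hp p (hS p h)).1]
      exact ⟨cop g cN (Ideal.mem_sup_left (m1 _ _))
        (add_comm η _ ▸ Submodule.add_mem_sup (m2 _ _) (m2 _ _)),
        cop g cN (Ideal.mem_sup_left (m1 _ _)) (Submodule.add_mem_sup (m2 _ _) (m2 _ _))⟩,
      fun p h => le p (hS p h) (P022D.W.phi_mem (ov p (hS p h)).1 (ov p (hS p h)).2.1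
        (hφ p (hS p h))), fun p h => hφ p (hS p h)⟩
  obtain ⟨Y, M, M0, hY⟩ := hh b.K b.j b.iq b.upm _ _ _ _ _ _ _ _ _ _ _ e.rn e.par (ch e.S fun _ => id).lev.cn
  exact ⟨{ P := P
           τ := update e.τ q (b.c * e.τ q * b.c)
           ov := ov
           gn := fun p h p2 => by
             by_cases z : p = q
             · rw [z, Pq, update_self]
               simpa only [ci] using Pa.Lv.gn_cj (e.gn q hq0 q2) b.c
             · rw [Pn p z, update_of_ne z]
               exact e.gn p h p2
           aux := by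
             obtain ⟨s, s1, s2, s3⟩ := e.aux
             refine ⟨s, s1, s2, fun x hx => ?_⟩
             by_cases z : s = q
             · rw [z, Pq] at hx
               have := Ra.dec_cj (g := b.c) hx
               rw [inv_smul_smul, ci, ← z] at this
               have := s3 _ this
               let ρ : GQ →* M2 (ZMod 2) := (RingHom.mapMatrix PadicInt.toZMod).toMonoidHom.comp e.r
               have k : x = b.c * (b.c * x * b.c) * b.c := by
                 rw [← mul_assoc, ← mul_assoc, Ra.c_sq, one_mul, mul_assoc, Ra.c_sq, mul_one]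
               show ρ x = 1
               rw [k, map_mul, map_mul, show ρ (b.c * x * b.c) = 1 from this, mul_one, ← map_mul,
                 Ra.c_sq, map_one]
             · exact s3 x (Pn s z ▸ hx)
           β := β
           dat := ⟨e.ok, b.dat.sq, b.dat.m8, b.dat.spl, b.dat.big, by
             obtain ⟨y, rfl⟩ := d4
             exact ⟨y, by rw [e2]; push_cast; ring⟩⟩
           η := η
           I := _
           I' := _
           Q := _
           φ := φ
           mem := m2 _ _
           eta := e1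
           ch := ch e.S fun _ => id
           le := le
           Y := Y
           M := M
           M0 := M0
           hg := fun c a b => (hY c a b).1
           fx := fun c a b => (hY c a b).2.1
           ine := fun c l n t a b h1 h2 h3 => ((hY c a b).2.2 l n t h1 h2 h3).1
           spl := fun c l n t a b h1 h2 h3 => ((hY c a b).2.2 l n t h1 h2 h3).2
           qx := fun c a z g hg p h => (hT b.δ' hδ b.adm.sq b.K b.j b.iq b.θ b.th _ _ _ φ
             (ch e.S' sub) c a z (Y c) (hY c a (Nat.Coprime.coprime_mul_right_right z)).1 g hg p h).1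
           Pq := Pn
           τq := fun p h => update_of_ne h _ _
           φq := fn
           Pp := Pq
           τp := update_self _ _ _
           φp := fq }⟩

theorem flip : FLIP := flip0 y_heeg z_qexp

end Vale.Agent.P014T.Lu
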