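import Vale.Agent.P014T.Lu.St
import Vale.Agent.P004F.Pa.L0
import Vale.Agent.P004F.Pa.Glb1

/-! # P014 T, block Lu, row NL: limits at the conjugate place -/

set_option linter.all false

open NumberField Matrix Filter PowerSeries
open scoped Classical

noncomputable section

namespace Vale.Agent.P014T.Lu

open Vale.Agent.P022 Vale.Agent.P004K Vale.Agent.P004F Vale.Agent.P004F.Pa
open P004T (ds)
open P004F.Pat (U Sy)

namespace Nl

variable {e : Crv} (b : Fld e) (Ψ : ∀ j, GQ → Rj (j + 1))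

theorem xl_eq (g : GQ) : xl e Ψ g = sd (ds e.δ) g * ur fun j => Ψ j g := by
  rw [← map_intCast ur, ← map_mul]; rfl

theorem um_xl (g : GQ) : um (fun j => b.aa _ (Ψ j) g) = xl e Ψ g • (e.r g).map C := by
  refine (Sy.succ.um_smul (fun j => Ψ j g) fun j => ((e.rd g).map C).map (mj (j + 1))).trans ?_
  rw [Sy.succ.um_const, xl_eq, mul_comm, mul_smul]
  congr 1
  ext1 i i'
  rw [Crv.rd, map_apply, Matrix.smul_apply, Matrix.smul_apply, map_apply, zsmul_eq_mul, map_mul,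
    map_intCast, smul_eq_mul]

theorem στ (p : e.σ) : P027M.S.Inert (e.P p) (e.τ p) :=
  (e.gn p (σ_S p) (Finset.mem_filter.1 p.2).2.1).1

theorem sd_τ (p : e.σ) : sd (ds e.δ) (e.τ p) = 1 :=
  if_pos (P004S.nu_inert (e.ov p (σ_S p)) (Finset.mem_filter.1 p.2).2.1 (fun d => by
    have := (Gb.ds_spec e).2 ▸ Int.natCast_dvd.1 d
    simpa [this] using (List.mem_filter.1 (List.mem_toFinset.1 (Finset.mem_filter.1 p.2).1)).2)
    (στ p))

theorem xs_cj {j c : ℕ} {Ψ : GQ → Rj j} (r1 : RC1) (k : b.Chr j c Ψ) {g : GQ} (m : g ∈ b.Γ) :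
    xs e Ψ g * xs e Ψ (b.c * g * b.c) = 1 := by
  rw [xs, xs, Gb.sd_cj, Gb.ps_cj k r1 m, mul_mul_mul_comm, Gb.ps_inv k m, mul_one, sd]
  rw [← Int.cast_mul]
  split <;> exact Int.cast_one

end Nl

open Nl

theorem nl (r1 : RC1) (r2 : RC2) : NL := fun e b c Ψ h p => by
  refine ⟨um_xl b Ψ _, ?_, ?_⟩
  · rw [um_xl, show xl e Ψ (b.c * e.τ p * b.c) = 1 from (Sy.succ.ur_ae (h.mono fun j k => ?_)).trans
      (map_one ur), one_smul]
    have := xs_cj b r1 k (τ_mem p)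
    rwa [xs, sd_τ, Gb.ps_unr k r2 (e.ov p (σ_S p)) (σ_S p) (τ_mem p) (στ p), Int.cast_one, one_mul,
      one_mul] at this
  · rw [xl, xl, ← map_mul, ← map_one ur]
    exact Sy.succ.ur_ae (h.mono fun j k => xs_cj b r1 k (φ_mem p))

end Vale.Agent.P014T.Lu
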