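import Vale.Agent.P014T.Lu.St
import Vale.Agent.P014T.Pr.Pair

/-! # P014 T, block Lu: a pair of frames exists -/

set_option linter.all false

open NumberField Filter

noncomputable section

namespace Vale.Agent.P014T.Lu

open Vale.Agent.P022 Vale.Agent.P004K Vale.Agent.P004F
open P004T (ds LOC2 GWK2)
open P004S (SMITH)

theorem pair2 {C : (ℕ → ℤ) → Prop} (hC : ∀ a, C a) (h1 : CRV) (h2 : FLD) (hA : ANCHOR C) (hS : SMITH)
    (hI : P004T.ISO) (hL : LOC2) (hW : GWK2) (hF : FLIP) : PAIR2 := by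
  intro N G a hG
  obtain ⟨A, B, hD, h⟩ := h1 N G a hG
  refine ⟨A, B, fun p hp p2 => ?_⟩
  obtain ⟨S₀, s0, hA⟩ := hA A B
  obtain ⟨S, P, hr, hP, h⟩ := h (insert p S₀) fun l hl =>
    (Finset.mem_insert.1 hl).elim (fun e => e ▸ hp) (s0 l)
  have hB := null_twoR hS hI hL hr hP (En.noi _)
  obtain ⟨m, m0, hU⟩ := En.ex_mod a
  obtain ⟨δ, hδ, c1, -, -, -, -, c6⟩ := ex_delta hB hG.pos.ne' (mul_ne_zero hp.ne_zero m0) (.inl rfl) 0
  obtain ⟨e, rfl, rfl, rfl, rfl, rfl, rfl, hS⟩ := h δ hδ (hU a 1 1 δ one_ne_zero one_ne_zero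
    (fun p _ _ => by simp) (c1.coprime_dvd_left (dvd_mul_left _ _)) (by simp))
  obtain ⟨E, hE, k⟩ := hA e rfl rfl (fun l hl => hS l (by simp [hl])) (hC _)
  obtain ⟨T', hT⟩ := h2 e
  have ex : ∀ T, ∃ δ' ∈ E, T + 5 ≤ δ' ∧ ¬ P004T.TwoR e.rp (ds e.δ * -δ') := fun T => by
    obtain ⟨δ', hd, n2⟩ := P004T.ex_of_null (P004T.null_comp hB (neg_ne_zero.2 (P004T.ds_ne hδ)))
      (posd_tail hE (T + 5))
    exact ⟨δ', hd.1, hd.2, by rwa [neg_mul_comm] at n2⟩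
  obtain ⟨δ₀, d0, d1, -⟩ := ex T'
  obtain ⟨b₀, -⟩ := hT δ₀ (by omega) (k δ₀ d0).1
  have pS := hS p (by simp)
  obtain ⟨T, hF⟩ := hF e p b₀.c pS p2 b₀.cc
  obtain ⟨δ', hd, h5, n2⟩ := ex (T' + T)
  obtain ⟨ad, k⟩ := k δ' hd
  have m8 : -(δ' : ℤ) % 8 = 1 := by have := ad.m8; omega
  obtain ⟨b, rfl⟩ := hT δ' (by omega) ad
  refine ⟨e, { b with c := b₀.c, cc := b₀.cc }, rfl, rfl, rfl, rfl, List.mem_filter.2 ⟨pS, by
    simpa using hp.coprime_iff_not_dvd.1 (c1.coprime_dvd_left (dvd_mul_right _ _))⟩, k _ rfl,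
    hW _ S _ _ _ hr hP (En.noi _) (P004T.ds_ne hδ) ⟨show -(b.δ' : ℤ) < -4 by omega, ?_, m8,
      fun g hg => P004T.nu_two hP m8 hg, fun l hl l2 hs => ad.spl l ?_ l2⟩ c6 n2,
    hF _ rfl (show T ≤ b.δ' by omega)⟩
  · exact (Associated.squarefree_iff (Associated.refl _).neg_left).2 (Int.squarefree_natCast.2 ad.sq)
  · rcases hs with hs | hs
    · exact hS l (Finset.mem_union_right _ hs)
    · by_contra c
      refine (e.bad l hl c).1 (Dvd.dvd.mul_left (Int.natCast_dvd_natCast.1 ?_) _)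
      unfold ds at hs
      rcases P004T.eps_or hδ with k | k <;> rw [k] at hs <;> simpa using hs

end Vale.Agent.P014T.Lu
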