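import Vale.Agent.P014T.Lu.St
import Vale.Agent.P004F.Pa.Sqx

/-! # P014 T, block Lu, row SQ2: two towers with the same character -/

set_option linter.all false

open NumberField Matrix Filter PowerSeries Submodule Set
open scoped Classical Pointwise

noncomputable section

namespace Vale.Agent.P014T.Lu

open Vale.Agent.P022 Vale.Agent.P004K Vale.Agent.P004F Vale.Agent.P004F.Pa
open Vale.Agent.P027M.S (Inert)
open Vale.Agent.P022D.W (dec)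
open Vale.Agent.P022E.GW (Ov Fb Gn)
open P004T (ds)
open P004F.Pat (U Sy Im U_of U_ge U_fin U_bdd U_ch)
open P004F.Pa.Se P004F.Pa.Sx

namespace S2

variable {e : Crv} (b : Fld e)

/-- Frobenius at the conjugate place -/
def mA (p : ℕ) : M2 La := (e.rd (b.c * b.φ p * b.c)).map C

/-- inertia at the conjugate place -/
def mV (p : ℕ) : M2 La := (e.rd (b.c * e.τ p * b.c)).map C

/-- the character of the tower -/
def xi (χ : ℕ → GQ → ℕ) (p : ℕ) : La :=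
  ur fun j => mj (j + 1) ((1 + X) ^ χ j (b.c * b.φ p * b.c))

/-- the perturbed character -/
def py (χ χ' : ℕ → GQ → ℕ) (p : ℕ) : La :=
  ur fun j => ps (j + 1) (χ j) (χ' j) (b.c * b.φ p * b.c)

variable {b}

theorem hV (h1 : UNI) (p : e.σ) : (mV b p - 1) ^ 2 = 0 := by
  have := congrArg (C : ℤ_[2] →+* La).mapMatrix (un_cj (b := b) h1 p)
  rwa [map_pow, map_sub, map_one, map_zero] at this

theorem pu (p : e.σ) : IsUnit ((p : ℕ) : La) := Pat.rs_unit.2 (by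
  rw [map_natCast, Ne, ZMod.natCast_eq_zero_iff_even, Nat.not_even_iff_odd]; exact σodd p)

theorem py1 (χ χ' : ℕ → GQ → ℕ) (p : ℕ) : constantCoeff (py b χ χ' p) = 1 := by
  have := hp.ur_dvd (a := fun j => mj (j + 1) X)
    (b := fun j => ps (j + 1) (χ j) (χ' j) (b.c * b.φ p * b.c) - 1) (.of_forall fun j => X_ps ..)
  rw [show hp.ur (fun j => ps (j + 1) (χ j) (χ' j) (b.c * b.φ p * b.c) - 1) = py b χ χ' p - 1 from
    (map_sub ur _ 1).trans (by rw [map_one]; rfl), hp.ur_const, X_dvd_iff, map_sub, map_one,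
    sub_eq_zero] at this
  exact this

theorem pyu (χ χ' : ℕ → GQ → ℕ) (p : ℕ) : IsUnit (py b χ χ' p) :=
  isUnit_iff_constantCoeff.2 (py1 χ χ' p ▸ isUnit_one)

theorem xiu (χ : ℕ → GQ → ℕ) (p : ℕ) : IsUnit (xi b χ p) := by
  have := pyu (b := b) χ 0 p
  simpa only [xi, py, ps, Pi.zero_apply, pow_zero, mul_one] using this

theorem ci : b.c⁻¹ = b.c := inv_eq_of_mul_eq_one_right (cc b)

theorem zm {n a : ℕ} (h : (a : ZMod (2 ^ n)) = 0) : 2 ^ n ∣ a := (ZMod.natCast_eq_zero_iff _ _).1 h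

theorem neg (r1 : RC1) {n q : ℕ} {χ' : GQ → ℕ} (h : b.Ad n q χ') (q0 : 0 < q) {g : GQ} (hg : g ∈ b.Γ) :
    (χ' (b.c * g * b.c) : ZMod (2 ^ n)) = -χ' g := by
  have := (h.dh le_rfl).cj_out r1 b.iq q0 b.c_out hg
  rwa [ci] at this

theorem dA (p : e.σ) : (mA b p).det = (p : ℕ) := by
  have : (e.rd (b.c * b.φ p * b.c)).det = ((p : ℕ) : ℤ_[2]) :=
    (det_cj (b := b) _).trans (En.cv_det e (En.ep_fb e.rep (σo p) (σ2 p) (σf b p)))
  rw [mA, ← RingHom.mapMatrix_apply, ← RingHom.map_det, this, map_natCast]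

variable {m m' k : ℕ} {c q : ℕ → ℕ} {χ χ' : ℕ → GQ → ℕ}

theorem pyA (r1 : RC1) {p y : ℕ} (hp' : p ∈ e.S) (h : ∀ᶠ j in U, 0 < q j ∧
    b.Ad (2 * (j + 1)) (q j) (χ' j) ∧ χ' j (b.φ p) ≡ y [MOD 2 ^ (2 * (j + 1))]) :
    py b χ χ' p * (1 + 2 * X) ^ y = xi b χ p := by
  rw [← hp.ur_const ((1 + 2 * X : La) ^ y), py, ← map_mul]
  refine hp.ur_ae (h.mono fun j h => ?_)
  have := neg r1 h.2.1 h.1 (b.ch.mem p hp')
  rw [← add_eq_zero_iff_eq_neg, (ZMod.natCast_eq_natCast_iff _ _ _).2 h.2.2, ← Nat.cast_add] at this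
  show mj _ _ * mj _ _ = mj _ _
  rw [← map_mul, mul_assoc, ← pow_add, map_mul, mj_pow twoX_Im1 (zm this), mul_one]

theorem pyB {p y : ℕ} (h : ∀ᶠ j in U,
    χ' j (b.c * b.φ p * b.c) ≡ y [MOD 2 ^ (2 * (j + 1))]) :
    py b χ χ' p = (1 + 2 * X) ^ y * xi b χ p := by
  rw [← hp.ur_const ((1 + 2 * X : La) ^ y), xi, ← map_mul]
  refine hp.ur_ae (h.mono fun j h => ?_)
  show mj _ _ = mj _ _ * mj _ _
  rw [map_mul, mj_mod twoX_Im1 h, mul_comm]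

theorem sep0 (r1 : RC1) (r2 : RC2) (h1 : UNI) (h2 : NSC) {y : ℕ → ℕ → ℕ}
    (tw : ∀ᶠ j in U, b.Tw m (2 * (j + 1)) (c j) (χ j))
    (pe : ∀ᶠ j in U, b.Pe m' k (y j) (2 * (j + 1)) (c j) (χ j) (q j) (χ' j)) {β : La} (g : ℕ → La)
    (hg : ∀ p : e.σ, (py b χ χ' p • mA b p - ∑ i ∈ Finset.range p, mV b p ^ i).det ∣ g p)
    (hy : ∀ π, Prime π → ¬ π ∣ 2 → ¬ π ∣ X → ∀ x ∈ e.σ, π ∣ g x →
      ¬ π ∣ β ∧ ∀ x' ∈ e.σ, x' ≠ x → ¬ π ∣ g x') (π : La) (hπ : Prime π) (n2 : ¬ π ∣ 2) :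
    (∀ x, Sj π (um fun j => Nl b (ps (j + 1) (χ j) (χ' j)) x)) ∨
    (¬ π ∣ X ∧ ¬ π ∣ β ∧ ∃ x, (∃ i i', ¬ π ∣ um (fun j => Nl b (ps (j + 1) (χ j) (χ' j)) x) i i') ∧
      ∀ y, y ≠ x → Sj π (um fun j => Nl b (ps (j + 1) (χ j) (χ' j)) y)) := by
  have p0 : ∀ p : e.σ, ((p : ℕ) : ℤ_[2]) ≠ 0 := fun p => Nat.cast_ne_zero.2 (σo p).1.ne_zero
  have hN : ∀ p : e.σ, (um fun j => Nl b (ps (j + 1) (χ j) (χ' j)) p) =
      Nt (py b χ χ' p • mA b p) (mV b p) p := fun p => by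
    have one : ur (fun j => ps (j + 1) (χ j) (χ' j) (b.c * e.τ p * b.c)) = 1 := by
      rw [← map_one ur]
      refine hp.ur_ae ((tw.and pe).mono fun j ⟨t, h⟩ => ?_)
      obtain ⟨v, -, xq⟩ := h.xq
      have nd : ¬ (p : ℕ) ∣ b.δ' := fun d => b.out_S (σo p).1 d (σ_S p)
      have z : ∀ {c : ℕ} {χ : GQ → ℕ}, b.Ad (2 * (j + 1)) c χ → 0 < c → ¬ (p : ℕ) ∣ c →
          2 ^ (2 * (j + 1)) ∣ χ (b.c * e.τ p * b.c) := fun a c0 n => by
        have := (a.dh le_rfl).cj_out r1 b.iq c0 b.c_out (τ_mem p)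
        rw [ci, (a.dh le_rfl).inert r2 b.kd (σo p) n (σ2 p) nd (στ p), neg_zero] at this
        exact zm this
      show mj _ _ = 1
      rw [map_mul, mj_pow X_Im1 (z t.toAd (zero_lt_one.trans t.one) fun d => (t.gp p
        (Nat.mem_primeFactors.2 ⟨(σo p).1, d, t.sq.ne_zero⟩)).out (σ_S p)), mj_pow twoX_Im1
        (z h.toAd xq.pr.pos fun d => h.gp.out
          ((Nat.prime_dvd_prime_iff_eq (σo p).1 xq.pr).1 d ▸ σ_S p)), mul_one]
    refine (um_Nt _ _ _).trans ?_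
    rw [um_aa, um_aa, one, one_smul]
    rfl
  simp only [hN]
  have sj : ∀ p : e.σ, ¬ π ∣ g p → Sj π (Nt (py b χ χ' p • mA b p) (mV b p) p) := fun p h =>
    sj_minor Sum.inr fun d => h (d.trans (hg p))
  by_cases hX : π ∣ X
  · refine .inl fun p => ?_
    obtain ⟨f, hf⟩ := ex_minor (un_cj (b := b) h1 p) (p0 p)
      ((det_cj _).trans (En.cv_det e (En.ep_fb e.rep (σo p) (σ2 p) (σf b p))))
      ((det_cj _).trans (En.cv_det e (En.ep_inert e.rep (σo p) (σ2 p) (στ p)))) (nf_cj h1 p)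
    refine sj_minor f fun d => hf ?_
    have := X_dvd_iff.1 ((hπ.associated_of_dvd X_prime hX).symm.dvd.trans d)
    rw [RingHom.map_det, RingHom.mapMatrix_apply, ← submatrix_map, Nt_map] at this
    convert this using 4
    · ext i j; simp [mA, py1]
    · ext i j; simp [mV]
  by_cases hE : ∃ p : e.σ, π ∣ g p
  · obtain ⟨p, hE⟩ := hE
    obtain ⟨a, a'⟩ := hy π hπ n2 hX p p.2 hE
    exact .inr ⟨hX, a, p, nz hπ n2 (pyu χ χ' p) (p0 p) (un_cj h1 p) (ns_cj h1 h2 p),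
      fun x n => sj x (a' x x.2 fun d => n (Subtype.ext d))⟩
  · exact .inl fun p => sj p fun d => hE ⟨p, d⟩

variable (b) in
/-- the first kind of factor -/
def f1 (χ : ℕ → GQ → ℕ) (k x y : ℕ) : La :=
  (xi b χ x • mA b x - (1 + 2 * X : La) ^ (k * y) • ∑ i ∈ Finset.range x, mV b x ^ i).det

variable (b) in
/-- the second kind of factor -/
def f2 (χ : ℕ → GQ → ℕ) (k x y : ℕ) : La :=
  ((1 : La) • ∑ i ∈ Finset.range x, mV b x ^ i - (1 + 2 * X : La) ^ (k * y) • xi b χ x • mA b x).det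

theorem d1 {x y : ℕ} (h : py b χ χ' x * (1 + 2 * X) ^ (k * y) = xi b χ x) :
    (py b χ χ' x • mA b x - ∑ i ∈ Finset.range x, mV b x ^ i).det ∣ f1 b χ k x y := by
  rw [f1, ← h, mul_comm (py b χ χ' x), mul_smul, ← smul_sub, det_smul]
  exact dvd_mul_left _ _

theorem d2 {x y : ℕ} (h : py b χ χ' x = (1 + 2 * X) ^ (k * y) * xi b χ x) :
    (py b χ χ' x • mA b x - ∑ i ∈ Finset.range x, mV b x ^ i).det ∣ f2 b χ k x y := by
  rw [f2, one_smul, ← mul_smul, ← h, ← neg_sub (py b χ χ' x • mA b x), det_neg]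
  exact dvd_mul_left _ _

variable {p : ℕ} (f : Fp b p)

theorem tw' {n c : ℕ} {χ : GQ → ℕ} (t : b.Tw m n c χ) : f.b'.Tw m n c χ :=
  ⟨⟨t.add, t.ker⟩, t.sq, t.one, t.crd, fun q h =>
    let g := t.gp q h; ⟨g.out, g.cop, g.typ, g.gq⟩, t.ram⟩

theorem pe' (r1 : RC1) (p2 : p ≠ 2) {n c q : ℕ} {χ χ' : GQ → ℕ} {y : ℕ → ℕ}
    (t : b.Pe m k y n c χ q χ') :
    f.b'.Pe m k (Function.update y p ((2 ^ n - 1) * y p)) n c χ q χ' := by
  obtain ⟨v, hv, x⟩ := t.xq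
  refine ⟨⟨t.add, t.ker⟩, ⟨v, hv, x.pr, x.out, x.cop, x.spl, x.res, x.val⟩,
    ⟨t.gp.out, t.gp.cop, t.gp.typ, t.gp.gq⟩, t.ram, fun l hl l2 => ?_, ?_, t.tw⟩
  · show χ' (f.φ l) ≡ _ [MOD _]
    by_cases h : l = p
    · subst h
      rw [f.φp, Function.update_self, ← ZMod.natCast_eq_natCast_iff, neg r1 t.toAd x.pr.pos
        (b.ch.mem l hl), (ZMod.natCast_eq_natCast_iff _ _ _).2 (t.odd l hl l2)]
      rw [Nat.cast_mul, Nat.cast_mul, Nat.cast_mul, Nat.cast_sub Nat.one_le_two_pow,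
        ZMod.natCast_self]
      simp
    · rw [f.φq l h, Function.update_of_ne h]
      exact t.odd l hl l2
  · show _ ∣ χ' (f.φ 2)
    rw [f.φq 2 p2.symm]
    exact t.two

theorem sep2 (r1 : RC1) (r2 : RC2) (h1 : UNI) (h2 : NSC) (hp' : p ∈ e.S) (p2 : p ≠ 2) (hk : k ≠ 0)
    (tw : ∀ᶠ j in U, b.Tw m (2 * (j + 1)) (c j) (χ j)) {β : La} (β0 : β ≠ 0) :
    ∃ y : ℕ → ℕ, ∀ (q : ℕ → ℕ) (χ' : ℕ → GQ → ℕ),
    (∀ᶠ j in U, b.Pe m k y (2 * (j + 1)) (c j) (χ j) (q j) (χ' j)) →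
    (∀ π : La, Prime π → ¬ π ∣ 2 →
    (∀ x, Sj π (um fun j => Nl b (ps (j + 1) (χ j) (χ' j)) x)) ∨
    (¬ π ∣ X ∧ ¬ π ∣ β ∧ ∃ x, (∃ i i', ¬ π ∣ um (fun j => Nl b (ps (j + 1) (χ j) (χ' j)) x) i i') ∧
      ∀ y, y ≠ x → Sj π (um fun j => Nl b (ps (j + 1) (χ j) (χ' j)) y))) ∧
    ∀ π : La, Prime π → ¬ π ∣ 2 →
    (∀ x, Sj π (um fun j => Nl f.b' (ps (j + 1) (χ j) (χ' j)) x)) ∨
    (¬ π ∣ X ∧ ¬ π ∣ β ∧ ∃ x, (∃ i i', ¬ π ∣ um (fun j => Nl f.b' (ps (j + 1) (χ j) (χ' j)) x) i i') ∧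
      ∀ y, y ≠ x → Sj π (um fun j => Nl f.b' (ps (j + 1) (χ j) (χ' j)) y)) := by
  let F : ℕ → ℕ → La := fun x y => (if x ∈ e.σ then f1 b χ k x y else 1) *
    (if x ∈ f.e'.σ then if x = p then f2 f.b' χ k x y else f1 f.b' χ k x y else 1)
  obtain ⟨y, -, hy⟩ := sel F (e.σ ∪ f.e'.σ) β0 fun x _ π a a' a'' => by
    have k1 : {y | π ∣ if x ∈ e.σ then f1 b χ k x y else 1}.Finite := by
      split_ifs with h
      · exact fin_bad a a' a'' hk _ _ _ (un_sum (hV h1 ⟨x, h⟩) (pu ⟨x, h⟩))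
      · simp [a.not_dvd_one]
    have k2 : {y | π ∣ if x ∈ f.e'.σ then if x = p then f2 f.b' χ k x y else f1 f.b' χ k x y
        else 1}.Finite := by
      split_ifs with h h'
      · refine fin_bad a a' a'' hk _ _ _ ?_
        rw [det_smul, dA (b := f.b') ⟨x, h⟩]
        exact ((xiu χ x).pow _).mul (pu (e := f.e') ⟨x, h⟩)
      · exact fin_bad a a' a'' hk _ _ _ (un_sum (hV (b := f.b') h1 ⟨x, h⟩) (pu (e := f.e') ⟨x, h⟩))
      · simp [a.not_dvd_one]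
    exact (k1.union k2).subset fun y hy => a.dvd_or_dvd hy
  refine ⟨y, fun q χ' pe => ⟨sep0 r1 r2 h1 h2 (y := fun _ => y) tw pe (fun x => F x (y x))
    (fun x => ?_) fun π a a' a'' x hx d => ?_, sep0 (b := f.b') r1 r2 h1 h2
      (tw.mono fun j t => tw' f t) (pe.mono fun j t => pe' f r1 p2 t) (fun x => F x (y x))
      (fun x => ?_) fun π a a' a'' x hx d => ?_⟩⟩
  · refine Dvd.dvd.mul_right ?_ _
    rw [if_pos x.2]
    exact d1 (pyA r1 (σ_S x) (pe.mono fun j t =>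
      ⟨t.xq.choose_spec.2.pr.pos, t.toAd, t.odd x (σ_S x) (σ2 x)⟩))
  · exact (hy π a a' a'' x (Finset.mem_union_left _ hx) d).imp_right fun h x' h' =>
      h x' (Finset.mem_union_left _ h')
  · refine Dvd.dvd.mul_left ?_ _
    rw [if_pos x.2]
    split_ifs with h
    · refine d2 (pyB (pe.mono fun j t => ?_))
      show χ' j (b.c * f.φ x * b.c) ≡ _ [MOD _]
      rw [h, f.φp, show b.c * (b.c * b.φ p * b.c) * b.c = b.c * b.c * b.φ p * (b.c * b.c) by group,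
        cc, one_mul, mul_one]
      exact t.odd p hp' p2
    · refine d1 (pyA (b := f.b') (q := q) r1 (σ_S x) (pe.mono fun j t =>
        ⟨t.xq.choose_spec.2.pr.pos, ⟨t.add, t.ker⟩, ?_⟩))
      show χ' j (f.φ x) ≡ _ [MOD _]
      rw [f.φq x h]
      exact t.odd x (σ_S x) (σ2 x)
  · exact (hy π a a' a'' x (Finset.mem_union_right _ hx) d).imp_right fun h x' h' =>
      h x' (Finset.mem_union_right _ h')

end S2

open S2

/-- **the two towers exist** -/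
theorem sq2 (r1 : RC1) (r2 : RC2) (h2 : PE) (h3 : DPL) (h4 : CNT) (u1 : UNI) (u2 : NSC) (h1 : ES2) :
    SQ2 := by
  intro e b p f hp' p2 ⟨m, B, c, χ, tw, up, J₀, lo⟩
  have T : Tendsto (fun j => 2 * (j + 1)) atTop atTop :=
    tendsto_atTop_mono (fun j => by show j ≤ _; omega) tendsto_id
  replace tw := U_of (T.eventually tw)
  replace lo := U_of (T.eventually lo)
  replace up := fun J => U_of (T.eventually (up J))
  generalize hc : (fun j => c (2 * (j + 1))) = c' at *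
  generalize hχ : (fun j => χ (2 * (j + 1))) = χ' at *
  simp only [congrFun hc, congrFun hχ] at tw lo up
  clear hc hχ c χ
  rename' c' => c, χ' => χ
  obtain ⟨k, m', k0, pe⟩ := h2 e b m
  obtain ⟨c₀, es⟩ := h1 e b p f hp' p2
  choose ε es using fun j => es (j + 1) j.succ_pos
  obtain ⟨g, i, gv, β0⟩ := bet e b c₀ (fun j => ps (j + 1) (χ j) 0)
    (fun j => ε j (ps (j + 1) (χ j) 0 (b.φ 2))) (.of_forall fun j g _ => ps_X _ _ _ g)
    (tw.mono fun j t => let ⟨_, _, _, _, _, _, a⟩ := es j _ _ (chr0 t)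
      a.1.free fun g _ => ps_X _ _ _ g)
  have tw1 := tw.mono fun j t => tw_mono (le_max_left m m') t
  obtain ⟨y, sep⟩ := sep2 f r1 r2 u1 u2 (List.mem_of_mem_filter hp') p2 k0 tw1 β0
  obtain ⟨x, hx⟩ := U_ch (α := fun _ => ℕ × (GQ → ℕ))
    (P := fun j x => b.Pe (max m m') k y (2 * (j + 1)) (c j) (χ j) x.1 x.2) ((tw.and (U_ge m')).mono fun j a =>
    let ⟨q, χ', p⟩ := pe y _ _ _ (by omega) a.1; ⟨(q, χ'), pe_mono (le_max_right m m') p⟩)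
  have chr := (tw.and hx).mono fun j a => chr1 r1 a.1 a.2
  have p3 := P022D.W.phi_mem Nat.prime_two (e.ov 2 e.two).2.1 (b.ch.frb 2 e.two)
  obtain ⟨z, hz⟩ := U_ch (α := fun j => ((_ → GQ → Fin 2 → Rj (j + 1)) × (_ → Rj (j + 1)) ×
      (_ → e.σ → Fin 2 → Rj (j + 1))) × (_ → GQ → Fin 2 → Rj (j + 1)) × (_ → Rj (j + 1)) ×
      (_ → f.e'.σ → Fin 2 → Rj (j + 1))) (P := fun j z => b.Es c₀ (j + 1) (c j * (x j).1)
      (ps (j + 1) (χ j) (x j).2) (ε j (ps (j + 1) (χ j) 0 (b.φ 2))) z.1.1 z.1.2.1 z.1.2.2 ∧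
      f.b'.Es c₀ (j + 1) (c j * (x j).1)
      (ps (j + 1) (χ j) (x j).2) (ε j (ps (j + 1) (χ j) 0 (b.φ 2))) z.2.1 z.2.2.1 z.2.2.2 ∧
      ∃ u, IsUnit u ∧ Ea e.N e.a p (xs e (ps (j + 1) (χ j) (x j).2) (f.φ p)) * z.2.2.1 ∅ =
        u * (Ea e.N e.a p (xs e (ps (j + 1) (χ j) (x j).2) (b.φ p)) * z.1.2.1 ∅))
    ((chr.and hx).mono fun j a => let ⟨κ, t, μ, κ', t', μ', p⟩ := es j _ _ a.1
      ⟨((κ, t, μ), κ', t', μ'), ps_dec r1 r2 a.2 p3 ▸ p⟩)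
  obtain ⟨v, hv⟩ := U_ch (hx.mono fun j a => a.xq)
  obtain ⟨v, -, ev⟩ := U_bdd v (hv.mono fun j a => a.1.le)
  replace hv := (hv.and ev).mono fun j a => a.2 ▸ a.1.2
  obtain ⟨l, hl⟩ := U_ch lo
  obtain ⟨l, -, el⟩ := U_bdd l (C := B) ((hl.and (up J₀)).mono fun j a => by
    have := (Nat.pow_le_pow_iff_right one_lt_two).1 (a.1.1.trans a.2); omega)
  replace hl := (hl.and el).mono fun j a => a.2 ▸ a.1
  have big : ∀ n, ∀ᶠ j in U, n < 2 ^ (2 * (j + 1)) := fun n => (U_ge n).mono fun j a =>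
    lt_of_le_of_lt (by omega) Nat.lt_two_pow_self
  set J := max J₀ (B + 4 * 2 ^ v + 1) with hJ
  have hJ' : B + 4 * 2 ^ v < J := Nat.lt_of_succ_le (le_max_right _ _)
  have cnt := (tw.and (hv.and ((big J).and (up J)))).mono fun j a =>
    h4 e b _ _ _ _ _ v B J J₀ a.1 a.2.1 a.2.2.1.le (le_max_left _ _) hJ' a.2.2.2
  have be : ∀ a, um (fun j => b.aa (j + 1) (ps (j + 1) (χ j) 0) (g a j)) =
      um (fun j => b.aa (j + 1) (ps (j + 1) (χ j) (x j).2) (g a j)) := fun a =>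
    Sy.succ.um_ae (hx.mono fun j p => congrArg (· • _) (ps_dec r1 r2 p (gv a j)).symm)
  refine ⟨⟨max m m', k, c₀, B + 4 * 2 ^ v, J, l + 2 * 2 ^ v, y, c, χ, fun j => (x j).1,
    fun j => (x j).2, _, fun j => (z j).1.1, fun j => (z j).1.2.1, fun j => (z j).1.2.2, tw1, hx, chr,
    hz.mono fun j a => a.1, ?_, hJ', cnt.mono fun j a => a.2, (cnt.and hl).mono fun j a => ?_,
    g, i, gv, _, ?_, β0, (sep _ _ hx).1⟩,
    ⟨max m m', k, c₀, _, c, χ, fun j => (x j).1, fun j => (x j).2, _, fun j => (z j).2.1,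
    fun j => (z j).2.2.1, fun j => (z j).2.2.2, tw1.mono fun j t => tw' f t,
    hx.mono fun j t => pe' f r1 p2 t, chr.mono fun j t => f.chr t, hz.mono fun j a => a.2.1,
    g, i, fun a j => ?_, _, ?_, β0, (sep _ _ hx).2⟩, rfl, rfl, rfl, hz.mono fun j a => a.2.2⟩
  · filter_upwards [hz, tw, hv, hl, big (l + 2 * 2 ^ v), U_ge (l + 2 * 2 ^ v)] with j a t s u w w'
    exact a.1.an (χ j) (fun g _ => ps_two _ _ _ g) _ (Nat.lt_succ_of_le w')
      (h3 e b _ _ _ _ _ v l t s w u.2)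
  · rw [mul_add, pow_add, ← mul_assoc]
    exact (Nat.mul_le_mul_right _ a.2.1).trans a.1.1
  · exact congrArg det (congrArg Matrix.of (funext fun a => by rw [be]))
  · show _ ∈ dec (f.P 2)
    rw [f.Pq 2 p2.symm]
    exact gv a j
  · exact congrArg det (congrArg Matrix.of (funext fun a => by rw [be]; rfl))

end Vale.Agent.P014T.Lu
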