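import Vale.Agent.P014T.Lu.Top
import Vale.Agent.P014T.Lu.Aly
import Vale.Agent.P014T.Lu.Es2
import Vale.Agent.P014T.Lu.Sq2
import Vale.Agent.P014T.Lu.Eq1
import Vale.Agent.P014T.Lu.Nl
import Vale.Agent.P014T.Lu.Dv2
import Vale.Agent.P014T.Lu.Cmx
import Vale.Agent.P014T.Lu.Cmp
import Vale.Agent.P014T.Lu.Fin
import Vale.Agent.P014T.Lu.Flip
import Vale.Agent.P014T.Lu.Pair2
import Vale.Agent.P004S.All
import Vale.Agent.P004T.Iso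
import Vale.Agent.P004T.Loc2
import Vale.Agent.P004T.Gw3
import Vale.Agent.P004T.Gw4
import Vale.Agent.P004F.All
import Vale.Agent.P004R.All
import Vale.Agent.P004C.All

/-! # P014 T, block Lu: closed terms -/

namespace Vale.Agent.P014T.Lu

open Vale.Agent.P004K Vale.Agent.P004F

theorem z_pair2 : PAIR2 :=
  pair2 (fun _ => (Classical.em _).symm) crv z_fld (P004R.anchor_red.or P004C.anchor_irr) P004S.smith
    P004T.iso P004T.loc2 (P004T.Gw.gwk2_of P004T.Gw.cntk P004T.Gw.lim) flip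

theorem z_es2 : ES2 :=
  es2 aly Qx.fg Qx.fr Ix.idx z_spl x_rc1 z_gns z_tyq Es.red Es.coo z_tow Es.lam

theorem z_sq2 : SQ2 := sq2 x_rc1 x_rc2 z_pe z_dpl z_cnt En.uni_row En.nsc_row z_es2

theorem z_dv2 : DV2 :=
  dv2' x_rc1 x_rc2 Ch.abs z_lgc z_lev Pa.pk1 z_isl (van x_rc2) Pa.twv z_kpx (Pa.exl x_rc1 x_rc2)

theorem z_cmx : CMX := cmx Lt.loct En.uni_row x_rc1 x_rc2

theorem z_cmy : CMY := cmy Lt.loct En.uni_row x_rc1 x_rc2

theorem z_nl : NL := nl x_rc1 x_rc2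

theorem z_eq1 : EQ1 :=
  eq1 (Pa.glb x_rc1 x_rc2 Ch.abs z_lgc) (Pa.lmx z_lev) (Pa.lok Pa.pk1)
    (Pa.lis z_isl (Pa.eta x_rc2 (van x_rc2) Pa.twv))
    (Pa.lex Pa.pk1 z_kpx (Pa.lmx z_lev) (Pa.exl x_rc1 x_rc2)) Pa.num (Pa.rk1 (end_row Pr.bnd))

/-- **the two frames** -/
theorem lg2_all : LG2 :=
  lg2 z_pair2 z_sq2 z_eq1 z_dv2 (cmp z_nl z_cmx) (cmq z_nl z_cmy) (nc z_nl) z_nl fin trf

end Vale.Agent.P014T.Lu
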