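import Vale.Agent.P014T.Lu.Sq

/-! # P014T, block Lu: names for the copy of block PAT -/

namespace Vale.Agent.P004F.Pa.L2

export Vale.Agent.P014T.Lu (Sq GLB ETA LMX LOK LIS LEX)

end Vale.Agent.P004F.Pa.L2
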