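import Vale.Agent.P014T.Lu.Cp0
import Vale.Agent.P004F.Pat.Vec
import Vale.Agent.P004F.Pt.Kd

/-! # P014T, block Lu: the file `L0` of block PAT for towers with a moving perturbation -/

set_option linter.all false

open NumberField Matrix Filter PowerSeries Submodule Set
open scoped Classical Pointwise

noncomputable section

namespace Vale.Agent.P004F.Pa.L2

open Vale.Agent.P022 Vale.Agent.P004K
open Vale.Agent.P027M.S (Inert)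
open Vale.Agent.P022D.W (dec)
open Vale.Agent.P022K.G2 (In)
open Vale.Agent.P022E.GW (Ov Fb Gn)
open P004S (nu)
open P004T (ds)
open Pr (ac)
open Pat (U Sy)

variable {e : Crv} {b : Fld e}

/-- the system of quotients -/
abbrev hp : Sy fun j => Ideal.Quotient.mk (Pat.Im (j + 1)) := Sy.succ

/-- the limit of vectors -/
abbrev uv {α : Type} (x : ∀ j, α → Rj (j + 1)) : α → La := hp.uv x

theorem cc (b : Fld e) : b.c * b.c = 1 := P004R.Mu.kk b.cc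

theorem odd_unit {j n : ℕ} (h : Odd n) : IsUnit (n : Rj j) := by
  have : IsUnit (n : La) := Pat.rs_unit.2 (by
    rw [map_natCast, Ne, ZMod.natCast_eq_zero_iff_even, Nat.not_even_iff_odd]; exact h)
  simpa using this.map (mj j)

theorem rk_ps (j : ℕ) (χ χ' : GQ → ℕ) (g : GQ) : Pat.rk j (ps (j + 1) χ χ' g) = 1 := by
  rw [ps, Pat.rk_mk]
  simp [Pat.rs]

section kp

variable {j c : ℕ} {Ψ : GQ → Rj j} (k : b.Kp j c Ψ)

theorem kp_S : k.l ∉ e.S := fun h => k.out (Finset.mem_union_left _ (List.mem_toFinset.2 h))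

theorem kp_τ : k.τ ∈ b.Γ := k.kp.ur k.kp.gn.1

theorem kp_cφ : b.c * k.φ ∈ b.Γ := b.mul_out b.c_out k.kp.out

theorem kp_φ2 : k.φ ^ 2 ∈ b.Γ := by rw [sq]; exact b.mul_out k.kp.out k.kp.out

theorem kp_sq : b.c * (b.c * k.φ) * b.c * (b.c * k.φ) = k.φ ^ 2 := by
  rw [← mul_assoc b.c b.c, cc, one_mul, mul_assoc, ← mul_assoc b.c b.c, cc, one_mul, sq]

theorem kp_rτ : e.r k.τ = 1 := e.r_inert k.kp.ov (kp_S k) k.kp.gn.1

theorem nd_ds {l : ℕ} (hl : l.Prime) (h : l ∉ e.S) : ¬ (l : ℤ) ∣ ds e.δ := fun d => by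
  have p := Nat.prime_iff_prime_int.1 hl
  rcases p.dvd_or_dvd (show (l : ℤ) ∣ P004Z.eps e.δ * e.δ from d) with a | a
  · exact p.not_unit (isUnit_of_dvd_one ((a.mul_left (P004Z.eps e.δ)).trans (dvd_of_eq (by
      rw [← sq]; exact jacobiSym.sq_one (by simp)))))
  · exact (e.bad l hl h).1 ((Int.natCast_dvd_natCast.1 a).mul_left _)

theorem kp_nτ : nu (ds e.δ) k.τ = 0 :=
  P004S.nu_inert k.kp.ov k.kp.ne (nd_ds k.kp.ov.1 (kp_S k)) k.kp.gn.1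

theorem kp_Ψτ (h : b.Chr j c Ψ) : Ψ k.τ = 1 :=
  h.ker _ (k.gen c (Nat.pos_of_ne_zero h.sq.ne_zero) fun d => k.out (Finset.mem_union_right _
    (Nat.mem_primeFactors.2 ⟨k.kp.ov.1, d, h.sq.ne_zero⟩))).1

theorem kp_In {T : Finset ℕ} (h : k.l ∉ T) : k.τ ∈ In T := ⟨k.l, h, k.P, k.kp.ov, k.kp.gn.1⟩

end kp

theorem φ_mem (p : e.σ) : b.φ p ∈ b.Γ :=
  b.ch.mem p (List.mem_of_mem_filter (List.mem_toFinset.1 (Finset.mem_filter.1 p.2).1))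

theorem σ_S (p : e.σ) : (p : ℕ) ∈ e.S :=
  List.mem_of_mem_filter (List.mem_toFinset.1 (Finset.mem_filter.1 p.2).1)

theorem τ_mem (p : e.σ) : e.τ p ∈ b.Γ :=
  b.le p (σ_S p) (P004S.inert_dec (e.gn p (σ_S p) (Finset.mem_filter.1 p.2).2.1).1)

theorem cj_mem {g : GQ} (h : g ∈ b.Γ) : b.c * g * b.c ∈ b.Γ := by
  have := b.Γ_conj h b.c
  rwa [inv_eq_of_mul_eq_one_right (cc b)] at this

/-- a sequence which lies in `Γ` almost everywhere -/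
theorem ex_seq {g : ℕ → GQ} (h : ∀ᶠ j in U, g j ∈ b.Γ) : ∃ g' : ℕ → b.Γ, ∀ᶠ j in U, (g' j : GQ) = g j :=
  Pat.U_ch (α := fun _ => b.Γ) (P := fun j x => (x : GQ) = g j) (h.mono fun j e => ⟨⟨_, e⟩, rfl⟩)

variable {s : Sq b} {w : ℕ → ℕ → GQ → ℕ} (L : s.Lm w) (n : ℕ)

section

theorem _root_.Vale.Agent.P014T.Lu.Sq.Lm.Rm_eq : L.pk.Rm (s.γ n) = um fun j => (L.d j).Rm b (s.Ψ j) :=
  Matrix.ext fun a i => a.rec (fun _ => rfl) fun x =>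
    congrFun (congrFun (hp.um_mul (fun j => Nl b (s.Ψ j) x.1) fun j => (L.d j).l x.1).symm x.2) i

theorem _root_.Vale.Agent.P014T.Lu.Sq.Lm.Mx_eq : L.pk.Mx (s.γ n) = um fun j => Matrix.of (Sum.elim ((L.d j).Rm b (s.Ψ j))
    fun o => o.elim (L.d j).t (L.s' j)) :=
  Matrix.ext fun a i => a.rec (fun x => congrFun (congrFun (L.Rm_eq n) x) i) fun o =>
    o.rec rfl fun _ => rfl

/-- the span of the relations at level `j` -/
abbrev _root_.Vale.Agent.P014T.Lu.Sq.Lm.Lj (j : ℕ) : Submodule (Rj (j + 1)) (Ix L.r e.σ L.ι → Rj (j + 1)) :=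
  span (Rj (j + 1)) (range ((L.d j).Rm b (s.Ψ j)))

theorem _root_.Vale.Agent.P014T.Lu.Sq.Lm.Rl {v : ∀ j, Ix L.r e.σ L.ι → Rj (j + 1)} (h : ∀ᶠ j in U, v j ∈ L.Lj j) :
    uv v ∈ L.pk.Rl (s.γ n) := by
  rw [Pk.Rl, L.Rm_eq n]; exact hp.uv_mem h

/-- a combination of the values at one element -/
theorem _root_.Vale.Agent.P014T.Lu.Sq.Lm.Us {Z : Set (ℕ → b.Γ)} {g : ℕ → b.Γ} (hg : g ∈ Z) {v : ∀ j, Ix L.r e.σ L.ι → Rj (j + 1)}
    (h : ∀ᶠ j in U, ∃ β : Fin 2 → Rj (j + 1), v j - β ᵥ* (L.d j).u (g j) ∈ L.Lj j) :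
    uv v ∈ L.pk.Us (s.γ n) Z := by
  obtain ⟨β, hβ⟩ := Pat.U_ch h
  have := L.Rl n hβ
  rw [uv, hp.uv_sub, hp.uv_vm] at this
  rw [uv, ← sub_add_cancel (hp.uv v) (hp.uv β ᵥ* hp.um fun j => (L.d j).u (g j))]
  refine add_mem ((le_sup_right : L.pk.Rl (s.γ n) ≤ L.pk.Us (s.γ n) Z) this)
    (Pat.vm_mem (N := L.pk.Us (s.γ n) Z) (fun i => ?_) _)
  exact mem_sup_left (T := L.pk.Rl (s.γ n)) (subset_span ⟨g, hg, i, rfl⟩)

end

/-- sequences attached to Kolyvagin primes -/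
theorem ex_Hs (s : Sq b) {k : ∀ j, Option (b.Kp (j + 1) (s.C j) (s.Ψ j))}
    (h : ∀ᶠ j in U, ∃ k', k j = some k') :
    (∃ g : ℕ → b.Γ, s.Hs g ∧ ∀ᶠ j in U, ∀ k', k j = some k' → (g j : GQ) = b.c * k'.φ) ∧
    ∃ g : ℕ → b.Γ, s.Hs g ∧ ∀ᶠ j in U, ∀ k', k j = some k' → (g j : GQ) = k'.τ := by
  have a : ∀ (F : ∀ j, b.Kp (j + 1) (s.C j) (s.Ψ j) → GQ), (∀ j k', F j k' ∈ b.Γ) →
      ∃ g : ℕ → b.Γ, ∀ᶠ j in U, ∃ k', k j = some k' ∧ (g j : GQ) = F j k' := fun F hF =>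
    Pat.U_ch (α := fun _ => b.Γ) (P := fun j x => ∃ k', k j = some k' ∧ (x : GQ) = F j k')
      (h.mono fun j ⟨k', e⟩ => ⟨⟨_, hF j k'⟩, k', e, rfl⟩)
  obtain ⟨g, hg⟩ := a (fun _ k' => b.c * k'.φ) fun _ k' => kp_cφ k'
  obtain ⟨g', hg'⟩ := a (fun _ k' => k'.τ) fun _ k' => kp_τ k'
  refine ⟨⟨g, hg.mono fun j ⟨k', _, x⟩ => x ▸ ⟨k'.tr, k'.nu0, k'.psi⟩, hg.mono fun j ⟨k', y, x⟩ k'' z =>
    Option.some.inj (y.symm.trans z) ▸ x⟩, g', (hg'.and s.chr).mono fun j ⟨⟨k', _, x⟩, c⟩ => x ▸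
      ⟨fun i i' => by simp [kp_rτ], kp_nτ k', kp_Ψτ k' c⟩, hg'.mono fun j ⟨k', y, x⟩ k'' z =>
    Option.some.inj (y.symm.trans z) ▸ x⟩

end Vale.Agent.P004F.Pa.L2
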