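import Vale.Agent.P014T.St
import Vale.Agent.P014T.Lh.Lh
import Vale.Agent.P004M.Wrap1
import Vale.Agent.P004M.D.All
import Vale.Agent.P004F.En.Lh
import Vale.Agent.P004F.En.Rep
import Vale.Agent.P004Z.Ar.Unf

/-! # P014 T, block Lu: local-global compatibility at the unramified primes -/

set_option linter.all false

noncomputable section

namespace Vale.Agent.P014T.Lu

namespace Gd

section

open P004N.H169.LF WeierstrassCurve

theorem hasseF {F : Type} [Field F] [Finite F] (h2 : (2 : F) ≠ 0) (h3 : (3 : F) ≠ 0)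
    (W : WeierstrassCurve F) (h : W.Δ ≠ 0) :
    ((Nat.card F : ℤ) - cnt W) ^ 2 ≤ 4 * Nat.card F := by
  let := invertibleOfNonzero h2
  let := invertibleOfNonzero h3
  let := Fintype.ofFinite F
  let := Classical.decEq F
  obtain ⟨C, k⟩ := W.exists_variableChange_isShortNF
  have e : C • W = sw (C • W).a₄ (C • W).a₆ := by ext <;> simp [sw]
  have c : ringChar F ≠ 2 := fun c => h2 (by exact_mod_cast (ringChar.spec F 2).2 c.dvd)
  have d : (C • W).Δ ≠ 0 := by rw [variableChange_Δ]; simpa using h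
  rw [← cnt_change C, e, cnt_sw c, Nat.card_eq_fintype_card, sub_add_cancel_left, neg_sq]
  exact P004H.H666.hasse_char c (right_ne_zero_of_mul (Δ_of_isShortNF (C • W) ▸ d))

theorem hasseR (R : Type) [CommRing R] [IsDomain R] [IsDiscreteValuationRing R] {K : Type} [Field K]
    [Algebra R K] [IsFractionRing R K] [Finite (IsLocalRing.ResidueField R)]
    (h2 : (2 : IsLocalRing.ResidueField R) ≠ 0) (h3 : (3 : IsLocalRing.ResidueField R) ≠ 0)
    (W : WeierstrassCurve K) :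
    (W.localPowerSeries R).coeff 1 ^ 2 ≤ 4 * Nat.card (IsLocalRing.ResidueField R) := by
  by_cases g : (W.minimal R).HasGoodReduction R
  · have d := reduction_Δ_ne _ _ g
    have := hasseF h2 h3 _ d
    rw [show (W.localPowerSeries R).coeff 1 = _ from (inv_coeff _ _ _ (if_pos g)).2.1,
      card_point _ d]
    push_cast
    linarith
  · obtain ⟨a, k, j⟩ : ∃ a : ℤ, W.localPolynomial R = 1 - .C a * .X + .C 0 * .X ^ 2 ∧ a ^ 2 ≤ 1 := by
      rw [localPolynomial, if_neg g]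
      split_ifs
      exacts [⟨1, by simp, by simp⟩, ⟨-1, by simp, by simp⟩, ⟨0, by simp, by simp⟩]
    have := Nat.card_pos (α := IsLocalRing.ResidueField R)
    rw [show (W.localPowerSeries R).coeff 1 = _ from (inv_coeff _ _ _ k).2.1]
    omega

/-- **Hasse's bound at every prime** -/
theorem hasse (W : WeierstrassCurve ℚ) {p : ℕ} (hp : p.Prime) : W.LFunction p ^ 2 ≤ 4 * p := by
  have p2 : (2 : ℤ) ≤ p := by exact_mod_cast hp.two_le
  by_cases c : p ≤ 4
  · have : |W.LFunction p| ≤ p := (LFunction_loc W hp).elim (·.2) (·.2.trans (by omega))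
    have : (p : ℤ) ≤ 4 := by exact_mod_cast c
    nlinarith [sq_le_sq' (abs_le.1 ‹|_| ≤ _›).1 (abs_le.1 ‹|_| ≤ _›).2]
  have e := LFunction_pow W hp 1
  have n : ∀ n : ℕ, 0 < n → n ≤ 4 →
      (n : IsLocalRing.ResidueField ((pl hp).adicCompletionIntegers ℚ)) ≠ 0 := fun n a b k => by
    rw [← map_eq_zero_iff (resEquiv _) (resEquiv _).injective, map_natCast,
      ZMod.natCast_eq_zero_iff, pr_pl] at k
    have := Nat.le_of_dvd a k
    omega
  rw [pow_one] at e
  rw [e]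
  exact (hasseR _ (by exact_mod_cast n 2 two_pos (by omega))
    (by exact_mod_cast n 3 three_pos (by omega)) _).trans_eq (by rw [card_res, pr_pl])

end

section

open Complex Filter Topology Set Asymptotics MeasureTheory P004N P004Z.W2
open UpperHalfPlane hiding I
open scoped Real

variable {N : ℕ} {H : ℍ → ℂ}

theorem bot (hN : 0 < N) (h : S2 N H) (b : ℝ) :
    (fun t : ℝ => H (ofComplex (I * t))) =O[𝓝[>] 0] fun t => t ^ (-b) := by
  have p : (0 : ℝ) < 2 * π / N := by positivity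
  have a := (((dec hN h ModularGroup.S).trans
    (isLittleO_exp_neg_mul_rpow_atTop p (b - 2)).isBigO).mul (isBigO_refl
      (fun t : ℝ => (I * t) ^ 2) atTop).norm_right).comp_tendsto tendsto_inv_nhdsGT_zero
  refine a.congr' (eventually_mem_nhdsWithin.mono fun t (k : 0 < t) => ?_)
    (eventually_mem_nhdsWithin.mono fun t (k : 0 < t) => ?_)
  · have k' := inv_pos.2 k
    have n : (t : ℂ) ≠ 0 := by exact_mod_cast k.ne'
    have e : ModularGroup.S • ofComplex (I * (t⁻¹ : ℝ)) = ofComplex (I * t) := by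
      ext1
      rw [modular_S_smul, coe_ofI k]
      simp only [coe_ofI k']
      push_cast
      field_simp
      simp
    simp only [Function.comp, ModularForm.SL_slash_apply, e]
    rw [ModularGroup.denom_S, coe_ofI k']
    push_cast
    field_simp
  · simp only [Function.comp, norm_pow, norm_mul, norm_I, norm_real, one_mul, Real.norm_eq_abs,
      sq_abs]
    rw [← Real.rpow_two, ← Real.rpow_add (inv_pos.2 k), sub_add_cancel, Real.inv_rpow k.le,
      Real.rpow_neg k.le]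

/-- the `L`-function of a cusp form is entire -/
theorem ent (hN : 0 < N) (h : S2 N H) {A : ℕ → ℝ} (hA : LDr A) (q : QE H fun n => A n) :
    ∃ L, Differentiable ℂ L ∧ ∀ s : ℂ, 2 < s.re → L s = ∑' n : ℕ, (A n : ℂ) / (n : ℂ) ^ s := by
  have p2 : ((2 * π : ℝ) : ℂ) ≠ 0 := by exact_mod_cast Real.two_pi_pos.ne'
  refine ⟨fun s => Lh.La H s * (Gamma s)⁻¹ * (2 * π : ℝ) ^ s, fun s =>
    ((mellin_differentiableAt_of_isBigO_rpow_exp (by positivity)
      ((cont_ofI h.holo.continuous).locallyIntegrableOn (μ := volume) measurableSet_Ioi)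
      (dec_top hN h) (bot hN h (s.re - 1)) (by linarith)).mul (differentiable_one_div_Gamma s)).mul
      (differentiableAt_id.const_cpow (.inl p2)), fun s hs => ?_⟩
  have e : Lh.La H s = Gamma s * ((2 * π : ℝ) ^ (-s) * ∑' n : ℕ, (A n : ℂ) / (n : ℂ) ^ s) := by
    refine (hasSum_mellin (a := fun n : ℕ => (A n : ℂ)) (p := fun n => 2 * π * n)
      (fun n => ?_) (by linarith) (fun t (k : 0 < t) => ?_) (by simpa using Lh.sm hA hs)).unique ?_
    · rcases Nat.eq_zero_or_pos n with rfl | e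
      · exact .inl (by simp [hA.zero])
      · exact .inr (by positivity)
    · refine (q _).congr_fun' fun n => ?_
      rw [coe_ofI k]
      push_cast
      congr 2
      linear_combination -(2 * π * n * t : ℂ) * I_sq
    · refine (((H503.Sum.sm_of_ldr hA s hs).hasSum.mul_left _).mul_left _).congr_fun' fun n => ?_
      rw [ofReal_mul (2 * π), mul_cpow_ofReal_nonneg (by positivity) (by positivity),
        ofReal_natCast, cpow_neg]
      ring
  have := Gamma_ne_zero_of_re_pos (s := s) (by linarith)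
  have : ((2 * π : ℝ) : ℂ) ^ s ≠ 0 := by simp [Real.pi_ne_zero]
  simp only [e, cpow_neg]
  field_simp

end

section

open UpperHalfPlane CongruenceSubgroup P004M P004M.End P004M.A6
open Vale.Agent.P022 P022.H218.L3 P022.H783 P022K.UC P022K.UC.Hm
open P022.H567.Tw (dec1)
open scoped MatrixGroups ModularForm

/-- the cusp form with its recursions at all primes which do not divide `N` -/
theorem eig (N : ℕ) [NeZero N] (h2 : 2 ∣ N) (a : ℕ → ℤ)
    (hb : ∀ l : ℕ, l.Prime → a l ^ 2 ≤ 4 * l) (h : UCN N fun l => (a l : ℚ_[2])) :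
    ∃ (M : ℕ) (F : ℍ → ℂ) (c : ℕ → ℤ), 0 < M ∧ P004N.S2 M F ∧ P004N.QE F (fun n => (c n : ℂ)) ∧
      P004N.T8.HR (2 * N) (fun n => c n) ∧ ∀ l : ℕ, l.Prime → ¬ l ∣ 2 * N → c l = a l := by
  have N0 := NeZero.ne N
  obtain ⟨c, c1, c2, c3⟩ := ex_eig (M := 2 * N) (by omega) a fun l => (l : ℤ)
  have c0 := c2 0 (by simp)
  have hs := fun n => size c1 c2 c0 (fun l h1 h3 => ⟨(c3 l h1 h3).1 ▸ hb l h1,
    (c3 l h1 h3).2⟩) n 0 fun _ _ _ => Nat.zero_le _
  obtain ⟨M, F, m0, f1, f2⟩ := form N h2 (L := ℚ_[2]) (norm_two _) c1 c2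
    (fun l h1 h3 => (c3 l h1 h3).2) (fun n => by
      have := eig_le (M := 2 * N) (A := 1) (c := fun n => (c n : ℂ)) (d := fun l => (l : ℂ))
        (by simp [c1]) (fun n hn => by simp [c2 n hn]) (by simp [c0]) (fun l h1 h3 => ⟨?_, ?_,
          fun n => by simpa [apply_ite] using congrArg (Int.cast : ℤ → ℂ) ((c3 l h1 h3).2 n)⟩) n
      · rw [Complex.norm_intCast] at this
        exact this.trans (pow_le_pow_left₀ (Nat.cast_nonneg n) (by linarith) _)
      · have k1 := hb l h1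
        have k2 : (2 : ℤ) ≤ l := by exact_mod_cast h1.two_le
        rw [(c3 l h1 h3).1, Complex.norm_intCast, pow_one]
        have : |a l| ≤ l := Int.lt_add_one_iff.1 (abs_lt_of_sq_lt_sq (by nlinarith) (by omega))
        exact_mod_cast this
      · rw [Complex.norm_natCast]
        exact le_self_pow₀ (by exact_mod_cast h1.one_le) (by omega))
    (by
      obtain ⟨al, be, C, a1, a2, a3, a4⟩ := h
      refine ⟨al, be, C, a1, a2, a3, ?_⟩
      rwa [show (fun l : PA N => (c l.1 : ℚ_[2])) = fun l : PA N => (a l.1 : ℚ_[2]) from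
        funext fun l => by rw [(c3 _ l.2.1 l.2.2).1]])
  have z : ∀ p : ℕ, p.Prime → p ∣ 2 * N → ∀ n, c (p * n) = 0 := fun p hp k n =>
    c2 _ fun e => hp.one_lt.ne' (Nat.eq_one_of_dvd_coprimes e (dvd_mul_right _ _) k)
  refine ⟨M, F, c, Nat.pos_of_ne_zero m0, ⟨f2.hol, f2.slash, zero m0 f1 (by simp [c0]) f2.slash
    fun ε hε => ⟨64 ^ 16 / ε ^ 3, by positivity, fun n => by
      rw [Complex.norm_intCast]
      exact lin (by positivity) (Nat.cast_nonneg n) hε (hs n)⟩⟩, fun z =>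
    (f1 z).congr_fun' fun n => ?_,
    ⟨by positivity, by simp [c0], by simp [c1], fun p hp k n => ?_, fun p hp k n => ?_,
      fun p hp k => ?_⟩, fun l h1 h3 => (c3 l h1 h3).1⟩
  · rw [smul_eq_mul, Function.Periodic.qParam, ← Complex.exp_nat_mul]
    congr 2
    push_cast
    ring
  · simpa [apply_ite] using congrArg (Int.cast : ℤ → ℝ) ((c3 p hp k).2 n)
  · simp [z p hp k n, mul_one p ▸ z p hp k 1]
  · simp [mul_one p ▸ z p hp k 1]

/-- the level is prime to every unramified prime -/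
theorem ucn (h : D.HK) (h' : D.RK) {r : GQ →* GL (Fin 2) ℚ_[2]} (hq : St.Q1Concl r) {o : ℕ}
    (ho : Odd o) {a : ℕ → ℤ} (s : Sys r o a) : ∃ (N : ℕ) (_ : NeZero N), 2 ∣ N ∧
      (∀ p : ℕ, p.Prime → ¬ p ∣ 2 * o → ¬ p ∣ 2 * N) ∧ UCN N fun l => ((a l : ℤ) : ℚ_[2]) := by
  obtain ⟨N, _, hN, u, -, lam, h1, h3⟩ := hq
  have : NeZero o := ⟨ho.pos.ne'⟩
  have h4 : ∀ l : PA (N * o), lam (St.elT N (dec1 l)) = a l.1 ∧ lam (St.elS N (dec1 l)) = l.1 :=
    fun l => by
      obtain ⟨g, g1⟩ := H20.exists_isFrob l.2.1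
      have := (s l.1 l.2.1 fun e => l.2.2 (e.trans ⟨N, by ring⟩)).2.2 g g1
      exact ⟨(h3 (dec1 l) g g1).1.trans this.1, (h3 (dec1 l) g g1).2.trans this.2⟩
  obtain ⟨χ, c1, c2⟩ := ex_tw (hN.mul ho) (norm_two ℚ_[2]) (a := fun l => ((a l : ℤ) : ℚ_[2]))
    (by rintro (l | l) <;> exact h1.2.1 _) (fun l => (h4 l).2) ((lim_of_hom h1).raise o)
    fun l => (h4 l).1
  obtain ⟨N', _, n3, n4⟩ := h' ((N * o) ^ 3) (fun l => χ l * a l) (hN.mul ho).pow
    (h _ _ (hN.mul ho) (a6_iff.2 (by simpa using c2)))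
  have n2 := (n3 2 Nat.prime_two).2 (dvd_mul_right _ _)
  refine ⟨N' * 8 ^ 2, inferInstance, n2.mul_right _, fun p hp k e => ?_, ucn_tr
    (b := fun l => ((a l : ℤ) : ℚ_[2])) (tr_twist n2 χ c1) (fun l => ?_) n4⟩
  · have p2 : ¬ p ∣ 2 := fun e => k (e.mul_right _)
    rw [show 2 * (N' * 8 ^ 2) = 2 ^ 7 * N' by ring, hp.dvd_mul, n3 p hp, hp.dvd_mul] at e
    rcases hp.dvd_mul.1 (hp.dvd_of_dvd_pow ((e.resolve_left
      fun e => p2 (hp.dvd_of_dvd_pow e)).resolve_left p2)) with e | e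
    exacts [u p hp e (s p hp k).1, k (e.mul_left _)]
  · have e1 : (χ l.1 : ℚ_[2]) ^ 2 = 1 := by
      exact_mod_cast congrArg (Int.cast : ℤ → ℚ_[2]) (c1 _ (odd_pa l))
    push_cast
    linear_combination (-(a l.1 : ℚ_[2])) * e1

end

section

open P004N P004N.T8 P004N.H169 P004M P004M.TE Vale.Agent.P022 Top
open P004F (hq)

theorem ldr {M : ℕ} {c : ℕ → ℝ} (h : HR M c) (b : ∀ l : ℕ, l.Prime → ¬ l ∣ M → |c l| ≤ l) : LDr c :=
  ⟨h.zero, h.one, h.mul, fun p hp => (em (p ∣ M)).elim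
    (fun k => .inr ⟨h.badp hp k, h.bad1 p hp k⟩)
    fun k => .inl ⟨h.hecke hp k, (b p hp k).trans (by linarith)⟩⟩

theorem sys {A B : ℤ} (h : El A B) {p : ℕ} (hp : p.Prime) (p2 : p ≠ 2)
    (g : Gd (mt (hq h)) (al A B p) p) :
    ∃ o, Odd o ∧ ¬ p ∣ 2 * o ∧ Sys (rep (hq h)) o (al A B) := by
  have d0 := Int.natAbs_ne_zero.2 h
  obtain ⟨v, D, d1, e⟩ := Nat.exists_eq_pow_mul_and_not_dvd d0 p hp.ne_one
  obtain ⟨w, o, ho, rfl⟩ := Nat.exists_eq_two_pow_mul_odd (n := D) (by rintro rfl; simp at d1)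
  refine ⟨o, ho, fun k => (hp.dvd_mul.1 k).elim
    (fun k => p2 ((Nat.prime_dvd_prime_iff_eq hp Nat.prime_two).1 k)) fun k => d1 (k.mul_left _),
    fun l hl k => ?_⟩
  have t : ∀ x, (rep (hq h) x : Matrix (Fin 2) (Fin 2) ℚ_[2]).trace =
      algebraMap ℤ_[2] ℚ_[2] (mt (hq h) x).trace := fun x => by
    rw [rep_val, RingHom.mapMatrix_apply, ← AddMonoidHom.map_trace]
  by_cases c : l = p
  · subst c
    refine ⟨fun P a b x i => Units.ext ?_, hasse _ hl, fun x ⟨P, a, b, i⟩ => ⟨?_, ?_⟩⟩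
    · rw [rep_val, (g P ⟨hl, a, b⟩).1 x i, map_one, Units.val_one]
    · rw [t, (g P ⟨hl, a, b⟩).2 x i, map_intCast]
    · have d0 := Int.natAbs_ne_zero.2 (mul_ne_zero two_ne_zero h)
      exact P004F.En.ep_fb (P004F.En.rep_ok (hq h)
        (S := (2 * (4 * A ^ 3 + 27 * B ^ 2)).natAbs.primeFactors)
        (Nat.mem_primeFactors.2 ⟨Nat.prime_two, Int.natCast_dvd.1 (dvd_mul_right _ _), d0⟩)
        fun l hl h k => h (Nat.mem_primeFactors.2 ⟨hl, Int.natCast_dvd.1 k, d0⟩)) ⟨hl, a, b⟩ p2 i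
  have := Fact.mk hl
  have hg : ¬ (l : ℤ) ∣ 2 * (4 * A ^ 3 + 27 * B ^ 2) := fun j => by
    rw [Int.natCast_dvd, Int.natAbs_mul, e, hl.dvd_mul, hl.dvd_mul, hl.dvd_mul] at j
    rcases j with j | j | j | j
    exacts [k (Dvd.dvd.mul_right j _), c ((Nat.prime_dvd_prime_iff_eq hl hp).1 (hl.dvd_of_dvd_pow j)),
      k ((hl.dvd_of_dvd_pow j).mul_right _), k (j.mul_left _)]
  refine ⟨unr_rep _ hg, hasse _ hl, fun x i => ?_⟩
  obtain ⟨h1, h2⟩ := frob_mt (hq h) hg i
  rw [t, rep_val, ← RingHom.map_det, h2, map_natCast, h1, al_eq hg]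
  simp

end

end Gd

open P004N P004N.T8 P004N.H169 P004M P004M.TE Vale.Agent.P022 Top Gd
open P004F (hq)

/-- **local-global compatibility at the unramified primes** -/
def LGG : Prop := ∀ (A B : ℤ) (h : El A B) N G a, Nf A B N G a → ∀ p : ℕ, p.Prime → p ≠ 2 →
  Gd (mt (hq h)) (al A B p) p → ¬ p ∣ N ∧ a p = al A B p

theorem lgg (q1 : Q1) : LGG := fun A B h N G a f p hp p2 g => by
  obtain ⟨o, ho, po, s⟩ := sys h hp p2 g
  obtain ⟨M, _, m2, m, u⟩ := ucn (D.hk (D.d0 D.du D.se) D.int D.nz D.lip D.geo)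
    (D.rk_rt fun _ _ _ _ => D.rt) (q1 _ (cont_rep _) (odd_rep _) (irr_rep _)
    ((Set.finite_Iic (2 * o)).subset fun l k => Nat.le_of_dvd (mul_pos two_pos ho.pos)
      (by_contra fun e => k.2 (s l k.1 e).1))) ho s
  have H : ∀ l : ℕ, l.Prime → al A B l ^ 2 ≤ 4 * l := fun l => hasse _
  obtain ⟨M', F, c, m0, s2, q, r, e⟩ := eig M m2 _ H u
  have b : ∀ l : ℕ, l.Prime → ¬ l ∣ 2 * M → |(c l : ℝ)| ≤ l := fun l hl k => by
    rw [e l hl k]
    exact cE_le _ hl
  have ld := ldr r b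
  obtain ⟨L, l1, l2⟩ := ent m0 s2 ld (by simpa using q)
  obtain ⟨ε, n⟩ := P004Z.Ar.nf_of_rn f.rn
  have pm := m p hp po
  have := Lh.good n ld (S := p * (N * (2 * M * ∏ l ∈ f.fin.toFinset, l))) (mul_ne_zero hp.ne_zero
    (mul_ne_zero n.pos.ne' (mul_ne_zero r.pos.ne' (Finset.prod_ne_zero_iff.2 fun l k =>
      (f.fin.mem_toFinset.1 k).1.ne_zero)))) (funext fun k => ?_) l1 l2 hp (dvd_mul_right _ _)
    (b p hp pm) (by simp [r.hecke hp pm 0, ld.one, sq (c p : ℝ)]) fun k => ?_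
  · exact ⟨this.1, e p hp pm ▸ by exact_mod_cast this.2⟩
  · refine if_ctx_congr Iff.rfl (fun j => ?_) fun _ => rfl
    rcases eq_or_ne k 0 with rfl | k0
    · exact ld.zero.trans n.zero.symm
    refine eq_of_pow (u := fun n => c n) (v := fun n => a n) ld.one n.one ld.mul n.hr.mul
      (fun l hl i v => ?_) k k0 j
    have i1 : ¬ l ∣ 2 * M := fun x => i (((x.mul_right _).mul_left _).mul_left _)
    refine (pow_eq (u := fun n => c n) (v := fun n => a n) ld.one n.one ?_ (r.hecke hl i1)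
      (n.hr.hecke hl fun x => i ((x.mul_right _).mul_left _)) v).1
    rw [e l hl i1, by_contra fun x => i ((((Finset.dvd_prod_of_mem (fun l => l)
      (f.fin.mem_toFinset.2 ⟨hl, x⟩)).mul_left _).mul_left _).mul_left _)]
  · have k : c p ^ 2 = 4 * p := by exact_mod_cast k
    obtain ⟨t, j⟩ : (2 : ℤ) ∣ c p := Int.prime_two.dvd_of_dvd_pow ⟨2 * p, k.trans (by ring)⟩
    exact hp.prime.not_isSquare ⟨t.natAbs, by
      rw [← Int.natAbs_mul, show t * t = p by rw [j] at k; linarith, Int.natAbs_natCast]⟩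

end Vale.Agent.P014T.Lu
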