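import Vale.Agent.P004F.Pa.St

/-! # P014 T, block Lu: towers whose perturbation may depend on the level -/

set_option linter.all false

open NumberField Matrix Filter PowerSeries Submodule Set
open scoped Classical Pointwise

noncomputable section

namespace Vale.Agent.P014T.Lu

open Vale.Agent.P022 Vale.Agent.P004K Vale.Agent.P004F
open Vale.Agent.P027M.S (Inert)
open Vale.Agent.P022D.W (dec)
open Vale.Agent.P022E.GW (Ov Fb Gn)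
open P004S (nu)
open P004T (ds TwoK)
open P004F.Pr (ac)
open P004F.Pat (U Sy)
open P004F.Pa (ps um ur Nl Rw pk Va Wt)
open P004F.Pa.Sq (aa_mul aa_one)

variable {e : Crv} (b : Fld e)

/-- the perturbed tower with its Euler system -/
structure Sq where
  m : ℕ
  k : ℕ
  c₀ : ℕ
  y : ℕ → ℕ → ℕ
  c : ℕ → ℕ
  χ : ℕ → GQ → ℕ
  q : ℕ → ℕ
  χ' : ℕ → GQ → ℕ
  ε : ∀ j, GQ → Fin 2 → Rj (j + 1)
  κ : ∀ j, Finset (b.Kp (j + 1) (c j * q j) (ps (j + 1) (χ j) (χ' j))) → GQ → Fin 2 → Rj (j + 1)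
  t : ∀ j, Finset (b.Kp (j + 1) (c j * q j) (ps (j + 1) (χ j) (χ' j))) → Rj (j + 1)
  μ : ∀ j, Finset (b.Kp (j + 1) (c j * q j) (ps (j + 1) (χ j) (χ' j))) → e.σ → Fin 2 → Rj (j + 1)
  tw : ∀ᶠ j in U, b.Tw m (2 * (j + 1)) (c j) (χ j)
  pe : ∀ᶠ j in U, b.Pe m k (y j) (2 * (j + 1)) (c j) (χ j) (q j) (χ' j)
  chr : ∀ᶠ j in U, b.Chr (j + 1) (c j * q j) (ps (j + 1) (χ j) (χ' j))
  es : ∀ᶠ j in U, b.Es c₀ (j + 1) (c j * q j) (ps (j + 1) (χ j) (χ' j)) (ε j) (κ j) (t j) (μ j)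
  gs : Fin 3 → ℕ → b.Γ
  is : Fin 3 → Fin 2
  gv : ∀ i j, (gs i j : GQ) ∈ dec (e.P 2)
  β : La
  βe : β = det (Matrix.of fun i => Fin.snoc (α := fun _ => La)
    ((um (fun j => b.aa _ (ps (j + 1) (χ j) (χ' j)) (gs i j)) - 1) (is i))
    (ur fun j => ε j (gs i j) (is i)))
  β0 : β ≠ 0
  sep : ∀ π : La, Prime π → ¬ π ∣ 2 →
    (∀ x, Sj π (um fun j => Nl b (ps (j + 1) (χ j) (χ' j)) x)) ∨
    (¬ π ∣ X ∧ ¬ π ∣ β ∧ ∃ x, (∃ i i', ¬ π ∣ um (fun j => Nl b (ps (j + 1) (χ j) (χ' j)) x) i i') ∧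
      ∀ y, y ≠ x → Sj π (um fun j => Nl b (ps (j + 1) (χ j) (χ' j)) y))

namespace Sq

variable {b} (s : Sq b)

abbrev Ψ (j : ℕ) : GQ → Rj (j + 1) := ps (j + 1) (s.χ j) (s.χ' j)

abbrev C (j : ℕ) : ℕ := s.c j * s.q j

/-- the representation of the group of sequences -/
def ρ : (ℕ → b.Γ) →* M2 La where
  toFun g := um fun j => b.aa _ (s.Ψ j) (g j)
  map_one' := by
    refine (Sy.succ.um_ae (B := fun j => (1 : M2 La).map (Ideal.Quotient.mk _))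
      (s.chr.mono fun j h => ?_)).trans (Sy.succ.um_const _)
    rw [Matrix.map_one _ (map_zero _) (map_one _)]
    exact aa_one h
  map_mul' g g' := (Sy.succ.um_ae (s.chr.mono fun j h => aa_mul h (g j).2 (g' j).2)).trans
    (Sy.succ.um_mul _ _)

/-- the exact conditions at almost all levels -/
def Hs (h : ℕ → b.Γ) : Prop := ∀ᶠ j in U,
  (∀ i i', (2 : ℤ_[2]) ^ (j + 2) ∣ (e.r (h j) - 1) i i') ∧ nu (ds e.δ) (h j) = 0 ∧ s.Ψ j (h j) = 1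

/-- the value of the character at the Frobenius element at two -/
def ψ : La := ur fun j => sd (ds e.δ) (b.φ 2) * s.Ψ j (b.φ 2)

/-- the limit of the global data -/
def γ (n : ℕ) : Gl La (ℕ → b.Γ) e.σ where
  ρ := s.ρ
  H := Subgroup.closure {h | s.Hs h}
  Dv := {g | ∀ j, (g j : GQ) ∈ dec (e.P 2)}
  e g i := ur fun j => s.ε j (g j) i
  D p := {g | ∀ j, (g j : GQ) ∈ dec (e.P p)}
  N p := um fun j => Nl b (s.Ψ j) p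
  bv := if ∃ v, e.Iv 2 v then 2 * s.ψ ^ 2 - e.a 2 * s.ψ + (if 2 ∣ e.N then 0 else 1) else 1
  c := n

/-- `θ` is the conjugation by `c` -/
def Th (θ : (ℕ → b.Γ) →* (ℕ → b.Γ)) : Prop := ∀ g j, (θ g j : GQ) = b.c * g j * b.c

/-- the group theoretic fields of `Sys` -/
structure Gk (n : ℕ) (θ : (ℕ → b.Γ) →* (ℕ → b.Γ)) : Prop where
  th : Th θ
  θθ : ∀ g, θ (θ g) = g
  mem : ∀ h, h ∈ (s.γ n).H ↔ s.Hs h
  nH : (s.γ n).H.Normal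
  ρH : ∀ h ∈ (s.γ n).H, s.ρ h = 1
  θH : ∀ h ∈ (s.γ n).H, θ h ∈ (s.γ n).H
  sah : ∃ z, s.ρ z = -1 ∧ ∀ g, z * g * z⁻¹ * g⁻¹ ∈ (s.γ n).H
  spn : ∀ B, (2 : La) ^ n • B ∈ span La (range s.ρ)
  nis : ∃ g i j, ¬ X ∣ (s.ρ (θ g) - s.ρ g) i j
  gen : ∃ g, ∃ a a' : La, s.ρ g = a • 1 ∧ s.ρ (θ g) = a' • 1 ∧
    ∀ π, Prime π → π ∣ a - a' → π ∣ 2 * X
  bv0 : constantCoeff (s.γ n).bv ≠ 0
  av : ∃ A : M2 La, (∀ i, A i ∈ Au s.ρ (s.γ n).Dv) ∧ A.det ∣ 2 ^ n * (s.γ n).bv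
  ap : ∀ x, ∃ E : M2 La, IsUnit E.det ∧ ∀ i, (((s.γ n).N x)ᵀ * E) i ∈ Au s.ρ ((s.γ n).D x)

/-- a sequence of level packages -/
structure Lm (w : ℕ → ℕ → GQ → ℕ) where
  ι : Type
  [fι : Fintype ι]
  [dι : DecidableEq ι]
  r : ℕ
  k : ∀ j, Option (ι → b.Kp (j + 1) (s.C j) (s.Ψ j))
  d : ∀ j, Rw (Rj (j + 1)) e.σ ι r
  f : ∀ j, ι × Fin 2 → Ix r e.σ ι → Rj (j + 1)
  s' : ∀ j, ι × Fin 2 → Ix r e.σ ι → Rj (j + 1)
  κ : ∀ j, Finset ι → Ix r e.σ ι → Rj (j + 1)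
  un : ∀ᶠ j in U, ∃ k', k j = some k' ∧ Pa.Un b (s.C j) (s.Ψ j) (s.ε j) k' (d j) ∧
    f j = (pk b (s.C j) (s.Ψ j) (w j) k' (d j) (κ j)).f ∧
    s' j = (pk b (s.C j) (s.Ψ j) (w j) k' (d j) (κ j)).s ∧
    ∀ n : Finset ι, (d j).Rm b (s.Ψ j) *ᵥ κ j n = 0 ∧ ∀ a,
      a = (∏ i ∈ n, (w j (k' i).l (k' i).τ : Rj (j + 1))) →
      (∀ g, a • ((d j).u g *ᵥ κ j n) = s.κ j (n.image k') g) ∧
      a * ((d j).t ⬝ᵥ κ j n) = s.t j (n.image k') ∧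
      ∀ p, a • ((d j).m p *ᵥ κ j n) = s.μ j (n.image k') p

attribute [instance] Lm.fι Lm.dι

variable {s}

/-- its limit -/
def Lm.pk {w : ℕ → ℕ → GQ → ℕ} (L : s.Lm w) : Pk La (ℕ → b.Γ) e.σ :=
  { ι := L.ι, r := L.r, Q := um fun j => (L.d j).Q, l := fun p => um fun j => (L.d j).l p
    u := fun g => um fun j => (L.d j).u (g j), t := fun i => ur fun j => (L.d j).t i
    m := fun p => um fun j => (L.d j).m p, f := fun x i => ur fun j => L.f j x i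
    s := fun x i => ur fun j => L.s' j x i, κ := fun n i => ur fun j => L.κ j n i }

end Sq

def GLB : Prop := ∀ (e : Crv) (b : Fld e) (s : Sq b), ∃ n θ, s.c₀ ≤ n ∧ s.Gk n θ

/-- the factor in the reciprocity law -/
def ETA : Prop := ∀ (e : Crv) (b : Fld e) (s : Sq b) (π : La), Prime π → ¬ π ∣ 2 →
  ∃ η : ∀ j, Rj (j + 1), ¬ π ∣ ur η ∧ ∀ᶠ j in U, Va b (s.C j) (s.Ψ j) (η j)

/-- every sequence of families has a package -/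
def LMX : Prop := ∀ (e : Crv) (b : Fld e) (s : Sq b) w, Wt w → ∀ (ι : Type) [Fintype ι]
  [DecidableEq ι] (k : ∀ j, Option (ι → b.Kp (j + 1) (s.C j) (s.Ψ j))),
  (∀ᶠ j in U, ∃ k', k j = some k' ∧ Function.Injective fun i => (k' i).l) →
  ∃ r d f s' κ un, (⟨ι, r, k, d, f, s', κ, un⟩ : s.Lm w).r = r

def LOK : Prop := ∀ (e : Crv) (b : Fld e) (s : Sq b) w n θ, Wt w → s.c₀ ≤ n → s.Gk n θ →
  ∀ L : s.Lm w, L.pk.Ok (s.γ n)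

def LIS : Prop := ∃ w, Wt w ∧ ∀ (e : Crv) (b : Fld e) (s : Sq b) n (π : La), Prime π → ¬ π ∣ 2 →
  ∃ η, ¬ π ∣ η ∧ ∀ L : s.Lm w, L.pk.Iso (s.γ n) η

def LEX : Prop := ∀ (e : Crv) (b : Fld e) (s : Sq b) w n θ, Wt w → s.Gk n θ → ∀ L : s.Lm w,
  ∀ h ∈ (s.γ n).H, ∃ L' : s.Lm w, Nonempty (L.pk.Ext (s.γ n) L'.pk (θ h * h))

end Vale.Agent.P014T.Lu
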