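import Vale.Agent.P014T.Lu.Sq
import Vale.Agent.P004F.Alg.Lam
import Vale.Agent.P004F.Alg.Fit

/-! # P014 T, block Lu: two frames, the rows -/

set_option linter.all false

open NumberField Matrix Filter PowerSeries Submodule Set
open scoped Classical Pointwise

noncomputable section

namespace Vale.Agent.P014T.Lu

open Vale.Agent.P022 Vale.Agent.P004K Vale.Agent.P004F
open Vale.Agent.P027M.S (Inert)
open Vale.Agent.P022D.W (dec)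
open Vale.Agent.P022E.GW (Ov Fb Gn)
open P004T (ds TwoK)
open P004M.TE (Pt ga)
open P004Z.EF (Par)
open P004F.Pat (U Sy)
open P004F.Pa (ps um ur Nl)
open P004F.Qx (Fk dep Ch)
open P004F.Alg (Lc)

/-- **the second frame**: the same field, the conjugate place at `p` -/
structure Fp {e : Crv} (b : Fld e) (p : ℕ) where
  P : ℕ → Ideal (𝓞 Qb)
  τ : ℕ → GQ
  ov : ∀ q ∈ e.S, Ov q (P q)
  gn : ∀ q ∈ e.S, q ≠ 2 → Gn q (P q) (τ q)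
  aux : ∃ s ∈ e.S, s ≠ 2 ∧ ∀ g ∈ dec (P s), (e.r g).map PadicInt.toZMod = 1
  β : ℤ
  dat : P004Z.Dat e.N e.δ b.δ' β
  η : 𝓞 b.K
  I : Ideal (𝓞 b.K)
  I' : Ideal (𝓞 b.K)
  Q : ℕ → Ideal (𝓞 b.K)
  φ : ℕ → GQ
  mem : η ∈ I
  eta : 2 * η = b.θ - β
  ch : Ch b.j e.N I I' e.S P Q φ
  le : ∀ q ∈ e.S, dec (P q) ≤ GK b.j
  Y : ℕ → Pt e.A e.B
  M : ℕ
  M0 : 0 < M
  hg : ∀ c, 0 < c → c.Coprime e.N → Hg e b.j I c (Y c)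
  fx : ∀ c, 0 < c → c.Coprime e.N → ∀ g ∈ Hc b.j c, ga g (Y c) = Y c
  ine : ∀ c l n t, 0 < c → c.Coprime e.N → l.Prime → ¬ l ∣ c * e.N → Gen b.j c l n t →
    (Ideal.span {(l : 𝓞 b.K)}).IsPrime →
    ∑ i ∈ Finset.range n, ga (t ^ i) (Y (c * l)) = e.a l • Y c ∧
    (¬ l ∣ M → ∀ P : Ideal (𝓞 Qb), P.IsPrime → (l : 𝓞 Qb) ∈ P → ∀ φ : GQ,
      (∀ x : 𝓞 Qb, φ • x - x ^ l ∈ P) → K1 P (Y (c * l) - ga φ (Y c)))
  spl : ∀ c l n t, 0 < c → c.Coprime e.N → l.Prime → ¬ l ∣ c * e.N → Gen b.j c l n t →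
    ∀ (L L' : Ideal (𝓞 b.K)) g g', L ⊔ L' = ⊤ → L ≠ ⊤ → L' ≠ ⊤ →
    L * L' = Ideal.span {(l : 𝓞 b.K)} → Ar b.j c L g → Ar b.j c L' g' →
    ∑ i ∈ Finset.range n, ga (t ^ i) (Y (c * l)) = e.a l • Y c - ga g (Y c) - ga g' (Y c)
  qx : ∀ c, 0 < c → c.Coprime (e.N * e.S'.prod) → ∀ g ∈ GK b.j, ∀ q ∈ e.S',
    Fk (P q) (e.S'.prod ^ 2) (ga g (dep e.N e.w e.a e.S' φ (Y c)))
  Pq : ∀ q ≠ p, P q = e.P q
  τq : ∀ q ≠ p, τ q = e.τ q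
  φq : ∀ q ≠ p, φ q = b.φ q
  Pp : P p = b.c • e.P p
  τp : τ p = b.c * e.τ p * b.c
  φp : φ p = b.c * b.φ p * b.c

namespace Fp

variable {e : Crv} {b : Fld e} {p : ℕ} (f : Fp b p)

/-- the curve with the new places -/
abbrev e' : Crv := { e with P := f.P, τ := f.τ, ov := f.ov, gn := f.gn, aux := f.aux }

/-- the field with the new Euler system -/
abbrev b' : Fld f.e' :=
  { δ' := b.δ', β := f.β, adm := ⟨b.adm.sq, b.adm.m8, b.adm.spl⟩, dat := f.dat, K := b.K, j := b.j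
    iq := b.iq, upm := b.upm, θ := b.θ, η := f.η, I := f.I, I' := f.I', Q := f.Q, φ := f.φ
    th := b.th, im := b.im, mem := f.mem, eta := f.eta, ch := f.ch, le := f.le, c := b.c
    cc := b.cc, Y := f.Y, M := f.M, M0 := f.M0, hg := f.hg, fx := f.fx, ine := f.ine
    spl := f.spl, qx := f.qx }

theorem chr {j c : ℕ} {Ψ : GQ → Rj j} (h : b.Chr j c Ψ) : f.b'.Chr j c Ψ :=
  ⟨h.sq, h.cop, h.mul, h.ker, h.ord⟩

end Fp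

/-- the analytic factor -/
def Ea {R : Type} [CommRing R] (N : ℕ) (a : ℕ → ℤ) (p : ℕ) (x : R) : R :=
  p - a p * x + if p ∣ N then 0 else x ^ 2

/-- the algebraic factor -/
def Qa (t : ℤ_[2]) (p : ℕ) (x : La) : La := x ^ 2 - C t * x + p

/-- the twisted character -/
def xs (e : Crv) {j : ℕ} (Ψ : GQ → Rj j) (g : GQ) : Rj j := sd (ds e.δ) g * Ψ g

/-- its limit -/
def xl (e : Crv) (Ψ : ∀ j, GQ → Rj (j + 1)) (g : GQ) : La := ur fun j => xs e (Ψ j) g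

/-- the coboundary matrix -/
def Bm {R : Type} [CommRing R] (A V : M2 R) : Matrix (Fin 2 ⊕ Fin 2) (Fin 2) R :=
  fromRows (A - 1) (V - 1)

/-- the module which is strict at both places above `x` -/
abbrev Ws {R G σ : Type} [CommRing R] [Group G] [Fintype σ] [DecidableEq σ] (γ : Gl R G σ)
    (p : Pk R G σ) (x : σ) (B : Matrix (Fin 2 ⊕ Fin 2) (Fin 2) R) : Type :=
  (p.I ⊕ Fin 2 → R) ⧸ span R (range (fromBlocks (p.Mx γ) 0 (p.l x) (-B)))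

/-- two towers with the same character -/
structure Sm {e : Crv} {b : Fld e} {p : ℕ} (f : Fp b p) (s : Pa.Sq b) (s' : Sq f.b') : Prop where
  C : s'.C = s.C
  Ψ : s'.Ψ = s.Ψ
  ε : s'.ε = s.ε
  rel : ∀ᶠ j in U, ∃ u, IsUnit u ∧ Ea e.N e.a p (xs e (s.Ψ j) (f.φ p)) * s'.t j ∅ =
    u * (Ea e.N e.a p (xs e (s.Ψ j) (b.φ p)) * s.t j ∅)

/-! ### the second frame and its Euler system -/

def FLIP : Prop := ∀ (e : Crv) (p : ℕ) (c : GQ), p ∈ e.S → p ≠ 2 → IsConj c →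
  ∃ T, ∀ b : Fld e, b.c = c → T ≤ b.δ' → Nonempty (Fp b p)

/-- Atkin-Lehner at `p` -/
def ALY : Prop := ∀ (e : Crv) (b : Fld e) (p : ℕ) (f : Fp b p), p ∈ e.S → p ≠ 2 →
  ∃ g ∈ b.Γ, ∃ (s : ℤ) (C : Pt e.A e.B), (s = 1 ∨ s = -1) ∧ IsOfFinAddOrder C ∧
    ∀ c, 0 < c → c.Coprime (e.N * p) → ga g (f.Y c) = s • b.Y c + C

/-- the two Euler systems -/
def ES2 : Prop := ∀ (e : Crv) (b : Fld e) (p : ℕ) (f : Fp b p), p ∈ e.S' → p ≠ 2 →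
  ∃ c₀ : ℕ, ∀ j, 0 < j → ∃ ε : Rj j → GQ → Fin 2 → Rj j, ∀ c Ψ, b.Chr j c Ψ →
    ∃ κ t m κ' t' m', b.Es c₀ j c Ψ (ε (Ψ (b.φ 2))) κ t m ∧
      f.b'.Es c₀ j c Ψ (ε (Ψ (b.φ 2))) κ' t' m' ∧ ∃ u, IsUnit u ∧
        Ea e.N e.a p (xs e Ψ (f.φ p)) * t' ∅ = u * (Ea e.N e.a p (xs e Ψ (b.φ p)) * t ∅)

def SQ2 : Prop := ∀ (e : Crv) (b : Fld e) (p : ℕ) (f : Fp b p), p ∈ e.S' → p ≠ 2 → b.Anc →
  ∃ (s : Pa.Sq b) (s' : Sq f.b'), Sm f s s'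

/-! ### the two halves of the main conjecture -/

def EQ1 : Prop := ∀ (e : Crv) (b : Fld e) (s : Pa.Sq b), ¬ TwoK e.rp (e.P 2) (ds e.δ) (-b.δ') →
  ∃ w n, ∃ L : s.Lm w, IsEmpty L.ι ∧ map PadicInt.toZMod (L.pk.Mx (s.γ n)).det ≠ 0 ∧
    Associated (L.pk.Mx (s.γ n)).det ((ur fun j => s.t j ∅) ^ 2)

def DV2 : Prop := ∀ (e : Crv) (b : Fld e) (s : Sq b), ∃ w n, ∃ L : s.Lm w, IsEmpty L.ι ∧
  ∀ (π : La) [Fact (Prime π)], ¬ π ∣ 2 → ¬ π ∣ X → (L.pk.Mx (s.γ n)).det ≠ 0 →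
    (ur fun j => s.t j ∅) ≠ 0 → algebraMap La (Lc π) (L.pk.Mx (s.γ n)).det ∣
      algebraMap La (Lc π) (ur fun j => s.t j ∅) ^ 2

/-! ### the comparison -/

/-- the tame relation -/
def TAM : Prop := ∀ (e : Crv) (b : Fld e) (p : e.σ),
  e.r (b.φ p) * e.r (e.τ p) = e.r (e.τ p) ^ (p : ℕ) * e.r (b.φ p)

/-- limits at the conjugate place -/
def NL : Prop := ∀ (e : Crv) (b : Fld e) (c : ℕ → ℕ) (Ψ : ∀ j, GQ → Rj (j + 1)),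
  (∀ᶠ j in U, b.Chr (j + 1) (c j) (Ψ j)) → ∀ p : e.σ,
  um (fun j => b.aa _ (Ψ j) (b.c * b.φ p * b.c)) =
    xl e Ψ (b.c * b.φ p * b.c) • (e.r (b.c * b.φ p * b.c)).map C ∧
  um (fun j => b.aa _ (Ψ j) (b.c * e.τ p * b.c)) = (e.r (b.c * e.τ p * b.c)).map C ∧
  xl e Ψ (b.φ p) * xl e Ψ (b.c * b.φ p * b.c) = 1

/-- pure algebra: two square presentations -/
def CMA : Prop := ∀ (R G σ : Type) [CommRing R] [IsDomain R] [Group G] [Fintype σ] [DecidableEq σ]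
  (γ : Gl R G σ) (p : Pk R G σ) (x : σ) (A V : M2 R) (q : ℕ), γ.N x = Nt A V q →
  A * V = V ^ q * A → ∃ D, Alg.Pr (Ws γ p x (Bm A V)) D ∧
    Associated ((p.Mx γ).det * (A - 1).det) ((A - ∑ i ∈ Finset.range q, V ^ i).det * D)

/-- the modules which are strict at both places: one direction is enough -/
def CMX : Prop := ∀ (e : Crv) (b : Fld e) (p : ℕ) (f : Fp b p) (hp : p ∈ e.σ) (hp' : p ∈ f.e'.σ)
  (s : Pa.Sq b) (s' : Sq f.b'), Sm f s s' → ∀ w w' n n' (L : s.Lm w) (L' : s'.Lm w'),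
  IsEmpty L.ι → IsEmpty L'.ι → ∃ F :
    Ws (s'.γ n') L'.pk ⟨p, hp'⟩ (Bm (um fun j => f.b'.aa _ (s'.Ψ j) (b.c * f.φ p * b.c))
      (um fun j => f.b'.aa _ (s'.Ψ j) (b.c * f.τ p * b.c))) →ₗ[La]
    Ws (s.γ n) L.pk ⟨p, hp⟩ (Bm (um fun j => b.aa _ (s.Ψ j) (b.c * b.φ p * b.c))
      (um fun j => b.aa _ (s.Ψ j) (b.c * e.τ p * b.c))), Function.Surjective F

def CMP : Prop := ∀ (e : Crv) (b : Fld e) (p : ℕ) (f : Fp b p), p ∈ e.σ →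
  ∀ (s : Pa.Sq b) (s' : Sq f.b'), Sm f s s' → ∀ w w' n n' (L : s.Lm w) (L' : s'.Lm w'),
  IsEmpty L.ι → IsEmpty L'.ι →
  (L.pk.Mx (s.γ n)).det * Qa (e.r (b.φ p)).trace p (xl e s.Ψ (b.φ p)) ^ 2 ∣
    (L'.pk.Mx (s'.γ n')).det * Qa (e.r (b.φ p)).trace p (xl e s.Ψ (f.φ p)) ^ 2

/-- the character is not trivial modulo two -/
def NC : Prop := ∀ (e : Crv) (b : Fld e) (s : Pa.Sq b) w n (L : s.Lm w) (p : e.σ),
  map PadicInt.toZMod (L.pk.Mx (s.γ n)).det ≠ 0 → e.r (e.τ p) ≠ 1 →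
  PowerSeries.map PadicInt.toZMod (xl e s.Ψ (b.φ p) - 1) ≠ 0

/-! ### the end -/

/-- the output of the two frames -/
def Ky (N : ℕ) (a : ℕ → ℤ) (p : ℕ) (t : ℤ_[2]) (x x' : La) : Prop := ∀ π Q Q' Z : La, Prime π →
  ¬ π ∣ 2 → ¬ π ∣ X → Z ≠ 0 → Q ≠ 0 → Associated (Qa t p x) (Z * Q) →
  Associated (Qa t p x') (Z * Q') → π ∣ Q → ¬ π ∣ Q' → π ∣ Ea N a p x

/-- the multiplicative case: the algebraic factor divides the analytic factor -/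
def Lg2 (N : ℕ) (a : ℕ → ℤ) (r : GQ →* M2 ℤ_[2]) (p : ℕ) (P : Ideal (𝓞 Qb)) (φ : GQ) : Prop :=
  ∀ (v : Fin 2 → ℤ_[2]) (α : ℤ_[2]), v ≠ 0 → (∀ g, Inert P g → r g *ᵥ v = v) →
    (∃ g, Inert P g ∧ r g ≠ 1) → r φ *ᵥ v = α • v → Ea N a p α = 0

def FIN : Prop := ∀ (e : Crv) (b : Fld e) (p : e.σ) (x x' : La), x * x' = 1 →
  (constantCoeff x = 1 ∨ constantCoeff x = -1) →
  (e.r (e.τ p) ≠ 1 → PowerSeries.map PadicInt.toZMod (x - 1) ≠ 0) →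
  Ky e.N e.a p (e.r (b.φ p)).trace x x' → Lg2 e.N e.a e.r p (e.P p) (b.φ p)

/-- change of the place -/
def TRF : Prop := ∀ N a (r : GQ →* M2 ℤ_[2]) p P P' φ φ', Ov p P → Ov p P' → Fb p P φ →
  Fb p P' φ' → Lg2 N a r p P φ → Lg2 N a r p P' φ'

/-- a pair of frames -/
def PAIR2 : Prop := ∀ N G a, P004N.RN N G a → ∃ A B : ℤ, ∀ p : ℕ, p.Prime → p ≠ 2 →
  ∃ (e : Crv) (b : Fld e), e.N = N ∧ e.a = a ∧ e.A = A ∧ e.B = B ∧ p ∈ e.S' ∧ b.Anc ∧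
    ¬ TwoK e.rp (e.P 2) (ds e.δ) (-b.δ') ∧ Nonempty (Fp b p)

/-- the trivial bound is strict -/
def HB : Prop := ∀ N G a, P004N.RN N G a → ∀ p : ℕ, p.Prime → ¬ p ∣ N →
  a p ≠ p + 1 ∧ a p ≠ -(p + 1)

/-- **EXPORT** -/
def LG2 : Prop := ∀ N G a, P004N.RN N G a → ∃ (A B : ℤ) (h : 4 * A ^ 3 + 27 * B ^ 2 ≠ 0),
  (∃ w Λ F x y, Par N a A B w Λ F x y) ∧ ∀ p P φ, Ov p P → p ≠ 2 → Fb p P φ →
    Lg2 N a (P004M.TE.mt (hq h)) p P φ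

end Vale.Agent.P014T.Lu
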