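import Vale.Agent.P014T.Lu.St

/-! # P014 T, block Lu: the comparison in the other direction -/

set_option linter.all false

open NumberField Matrix Filter PowerSeries Submodule Set
open scoped Classical Pointwise

noncomputable section

namespace Vale.Agent.P014T.Lu

open Vale.Agent.P022 Vale.Agent.P004K Vale.Agent.P004F
open P004F.Pa (ps um ur Nl)

/-- the other direction of `CMX` -/
def CMY : Prop := ∀ (e : Crv) (b : Fld e) (p : ℕ) (f : Fp b p) (hp : p ∈ e.σ) (hp' : p ∈ f.e'.σ)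
  (s : Pa.Sq b) (s' : Sq f.b'), Sm f s s' → ∀ w w' n n' (L : s.Lm w) (L' : s'.Lm w'),
  IsEmpty L.ι → IsEmpty L'.ι → ∃ F :
    Ws (s.γ n) L.pk ⟨p, hp⟩ (Bm (um fun j => b.aa _ (s.Ψ j) (b.c * b.φ p * b.c))
      (um fun j => b.aa _ (s.Ψ j) (b.c * e.τ p * b.c))) →ₗ[La]
    Ws (s'.γ n') L'.pk ⟨p, hp'⟩ (Bm (um fun j => f.b'.aa _ (s'.Ψ j) (b.c * f.φ p * b.c))
      (um fun j => f.b'.aa _ (s'.Ψ j) (b.c * f.τ p * b.c))), Function.Surjective F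

/-- the other direction of `CMP` -/
def CMQ : Prop := ∀ (e : Crv) (b : Fld e) (p : ℕ) (f : Fp b p), p ∈ e.σ →
  ∀ (s : Pa.Sq b) (s' : Sq f.b'), Sm f s s' → ∀ w w' n n' (L : s.Lm w) (L' : s'.Lm w'),
  IsEmpty L.ι → IsEmpty L'.ι →
  (L'.pk.Mx (s'.γ n')).det * Qa (e.r (b.φ p)).trace p (xl e s.Ψ (f.φ p)) ^ 2 ∣
    (L.pk.Mx (s.γ n)).det * Qa (e.r (b.φ p)).trace p (xl e s.Ψ (b.φ p)) ^ 2

end Vale.Agent.P014T.Lu
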