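import Vale.Agent.P014T.Lu.St2
import Vale.Agent.P004F.Pat.Vec

/-! # P014 T, block Lu: the glue -/

set_option linter.all false

open NumberField Matrix Filter PowerSeries Submodule Set
open scoped Classical Pointwise

noncomputable section

namespace Vale.Agent.P014T.Lu

open Vale.Agent.P022 Vale.Agent.P004K Vale.Agent.P004F
open P004F.Pat (U Sy U_ch)
open P004F.Pa (ps um ur Nl)
open P004F.Alg (Lc)

namespace Tp

/-- the comparison of valuations -/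
theorem key {R : Type} [CommRing R] [IsDomain R] {π D D' Θ Θ' E E' u A A' Q Q' Z : R}
    [Fact (Prime π)] (D0 : D ≠ 0) (as : Associated D (Θ ^ 2)) (hu : IsUnit u)
    (rel : E' * Θ' = u * (E * Θ)) (c : D * A ^ 2 ∣ D' * A' ^ 2) (c' : D' * A' ^ 2 ∣ D * A ^ 2)
    (dv : D' ≠ 0 → Θ' ≠ 0 → algebraMap R (Lc π) D' ∣ algebraMap R (Lc π) Θ' ^ 2) (Z0 : Z ≠ 0)
    (Q0 : Q ≠ 0) (a : Associated A (Z * Q)) (a' : Associated A' (Z * Q')) (d : π ∣ Q)
    (d' : ¬ π ∣ Q') : π ∣ E := by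
  by_contra nE
  have hπ : Prime π := Fact.out
  have A0 : A ≠ 0 := a.ne_zero_iff.2 (mul_ne_zero Z0 Q0)
  have T0 : Θ ≠ 0 := fun z => as.ne_zero_iff.1 D0 (by rw [z, zero_pow two_ne_zero])
  have T1 : Θ' ≠ 0 := fun z => mul_ne_zero hu.ne_zero (mul_ne_zero (fun z : E = 0 => nE (z ▸ dvd_zero _)) T0)
    (by rw [← rel, z, mul_zero])
  have D1 : D' ≠ 0 := left_ne_zero_of_mul
    (ne_zero_of_dvd_ne_zero (mul_ne_zero D0 (pow_ne_zero 2 A0)) c')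
  have c1 : D * Q ^ 2 ∣ D' * Q' ^ 2 := by
    refine (mul_dvd_mul_iff_left (pow_ne_zero 2 Z0)).1 ?_
    have := ((mul_dvd_mul_left D (a.pow_pow (n := 2)).dvd').trans c).trans
      (mul_dvd_mul_left D' (a'.pow_pow (n := 2)).dvd)
    rwa [mul_pow, mul_pow, mul_left_comm D, mul_left_comm D'] at this
  obtain ⟨s, hs, k⟩ := (Lc.dvd π).1 (map_pow (algebraMap R (Lc π)) Θ' 2 ▸ dv D1 T1)
  have k1 : D * Q ^ 2 ∣ D * (s * (u * E * Q') ^ 2) := by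
    refine (c1.trans (mul_dvd_mul_right k _)).trans (Dvd.dvd.trans ⟨E' ^ 2, rfl⟩ ?_)
    have : s * Θ' ^ 2 * Q' ^ 2 * E' ^ 2 = Θ ^ 2 * (s * (u * E * Q') ^ 2) := by
      linear_combination (s * Q' ^ 2 * (E' * Θ' + u * (E * Θ))) * rel
    exact this ▸ mul_dvd_mul_right as.dvd' _
  rcases hπ.dvd_or_dvd ((d.trans (dvd_pow_self Q two_ne_zero)).trans
    ((mul_dvd_mul_iff_left D0).1 k1)) with z | z
  · exact hs z
  rcases hπ.dvd_or_dvd (hπ.dvd_of_dvd_pow z) with z | z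
  · exact (hπ.dvd_or_dvd z).elim (fun z => hπ.not_unit (isUnit_of_dvd_unit z hu)) nE
  · exact d' z

theorem ur_Ea (N : ℕ) (a : ℕ → ℤ) (p : ℕ) (x : ∀ j, Rj (j + 1)) :
    ur (fun j => Ea N a p (x j)) = Ea N a p (ur x) := by
  have : (fun j => Ea N a p (x j)) = Ea N a p x := funext fun j => by
    unfold Ea
    split <;> rfl
  rw [this]
  unfold Ea
  split <;> simp only [map_add, map_sub, map_mul, map_pow, map_natCast, map_intCast, map_zero]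

variable {e : Crv} {b : Fld e} {p : ℕ} {f : Fp b p} {s : Pa.Sq b} {s' : Sq f.b'}

theorem lim (h : Sm f s s') : ∃ u, IsUnit u ∧
    Ea e.N e.a p (xl e s.Ψ (f.φ p)) * (ur fun j => s'.t j ∅) =
      u * (Ea e.N e.a p (xl e s.Ψ (b.φ p)) * ur fun j => s.t j ∅) := by
  obtain ⟨u, hu⟩ := U_ch h.rel
  obtain ⟨v, hv⟩ := U_ch (hu.mono fun j a => a.1.exists_right_inv)
  refine ⟨ur u, .of_mul_eq_one (ur v) ?_, ?_⟩
  · rw [← map_mul, ← map_one ur]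
    exact Sy.succ.ur_ae hv
  · rw [xl, xl, ← ur_Ea, ← ur_Ea, ← map_mul, ← map_mul, ← map_mul]
    exact Sy.succ.ur_ae (hu.mono fun j a => a.2)

theorem cc (s : Pa.Sq b) (g : GQ) :
    constantCoeff (xl e s.Ψ g) = 1 ∨ constantCoeff (xl e s.Ψ g) = -1 := by
  have h1 : X ∣ xl e s.Ψ g - ((sd (P004T.ds e.δ) g : ℤ) : La) := by
    have := Sy.succ.ur_dvd (a := fun j => mj (j + 1) X)
      (b := (fun j => xs e (s.Ψ j) g) - ((sd (P004T.ds e.δ) g : ℤ) : ∀ j, Rj (j + 1)))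
      (.of_forall fun j => by
        show _ ∣ (_ : Rj _) * mj _ _ - ((_ : ℤ) : Rj _)
        rw [← mul_sub_one, ← map_one (mj _), ← map_sub]
        exact (map_dvd _ (X_dvd_iff.2 (by simp))).mul_left _)
    rwa [map_sub, map_intCast, Sy.succ.ur_const] at this
  rw [X_dvd_iff, map_sub, map_intCast, sub_eq_zero] at h1
  rw [h1, sd]
  split <;> simp

end Tp

open Tp

/-- **local-global compatibility at the odd multiplicative primes** -/
theorem lg2 (pr : PAIR2) (sq : SQ2) (eq : EQ1) (dv : DV2) (cp : CMP) (cq : CMQ) (nc : NC) (nl : NL)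
    (fn : FIN) (tr : TRF) : LG2 := fun N G a rn => by
  obtain ⟨A, B, H⟩ := pr N G a rn
  obtain ⟨e₀, -, rfl, rfl, rfl, rfl, -⟩ := H 3 Nat.prime_three (by decide)
  refine ⟨_, _, e₀.par.disc, ⟨_, _, _, _, _, e₀.par⟩, fun p P φ o p2 F => ?_⟩
  obtain ⟨e, b, h1, h2, h3, h4, hp, an, nk, ⟨f⟩⟩ := H p o.1 p2
  have r : ∀ A B (h : 4 * A ^ 3 + 27 * B ^ 2 ≠ 0), e.A = A → e.B = B →
      P004M.TE.mt (hq h) = e.r := by
    rintro _ _ h rfl rfl
    rfl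
  rw [r _ _ e₀.par.disc h3 h4, ← h1, ← h2]
  have pS := (List.mem_filter.1 hp).1
  refine tr _ _ _ _ _ _ _ _ (e.ov p pS) o (b.ch.frb p pS) F ?_
  by_cases hσ : p ∈ e.σ
  swap
  · exact fun v α v0 hv => absurd (Finset.mem_filter.2 ⟨List.mem_toFinset.2 hp, p2, v, v0, hv⟩) hσ
  obtain ⟨s, s', sm⟩ := sq e b p f hp p2 an
  obtain ⟨w, n, L, i, μ, as⟩ := eq e b s nk
  obtain ⟨w', n', L', i', dv⟩ := dv _ _ s'
  obtain ⟨u, hu, rel⟩ := lim sm
  refine fn e b ⟨p, hσ⟩ (xl e s.Ψ (b.φ p)) (xl e s.Ψ (f.φ p))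
    (f.φp ▸ (nl e b s.C s.Ψ s.chr ⟨p, hσ⟩).2.2) (cc s _) (nc e b s w n L ⟨p, hσ⟩ μ)
    fun π Q Q' Z hπ n2 nX Z0 Q0 a1 a2 d1 d2 => ?_
  haveI := Fact.mk hπ
  exact key (fun z => μ (by rw [z, map_zero])) as hu rel (cp e b p f hσ s s' sm w w' n n' L L' i i')
    (cq e b p f hσ s s' sm w w' n n' L L' i i') (dv π n2 nX) Z0 Q0 a1 a2 d1 d2

end Vale.Agent.P014T.Lu
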